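import Mathlib

/-!
Matrices over a field with an absolute value: the entrywise sum gauge and a bound for
determinants.
-/

namespace Vale.Agent.Lib.P184

open scoped BigOperators

variable {K : Type*} [Field K] (v : AbsoluteValue K ℝ)

/-- The sum of the absolute values of the entries of a matrix. -/
def mnorm {m n : Type*} [Fintype m] [Fintype n] (Z : Matrix m n K) : ℝ := ∑ i, ∑ j, v (Z i j)

theorem mnorm_nonneg {m n : Type*} [Fintype m] [Fintype n] (Z : Matrix m n K) :
    0 ≤ mnorm v Z :=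
  Finset.sum_nonneg fun _ _ => Finset.sum_nonneg fun _ _ => v.nonneg _

theorem entry_le_mnorm {m n : Type*} [Fintype m] [Fintype n] (Z : Matrix m n K) (i : m) (j : n) :
    v (Z i j) ≤ mnorm v Z := by
  have h1 : v (Z i j) ≤ ∑ j', v (Z i j') :=
    Finset.single_le_sum (f := fun j' => v (Z i j')) (fun _ _ => v.nonneg _) (Finset.mem_univ j)
  have h2 : ∑ j', v (Z i j') ≤ mnorm v Z :=
    Finset.single_le_sum (f := fun i' => ∑ j', v (Z i' j'))
      (fun _ _ => Finset.sum_nonneg fun _ _ => v.nonneg _) (Finset.mem_univ i)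
  exact h1.trans h2

theorem mnorm_mul_le {n : Type*} [Fintype n] (Z W : Matrix n n K) :
    mnorm v (Z * W) ≤ mnorm v Z * mnorm v W := by
  have h1 : ∀ i k, v ((Z * W) i k) ≤ ∑ j, v (Z i j) * v (W j k) := by
    intro i k
    rw [Matrix.mul_apply]
    refine (v.sum_le _ _).trans (Finset.sum_le_sum fun j _ => ?_)
    rw [v.map_mul]
  calc mnorm v (Z * W) ≤ ∑ i, ∑ k, ∑ j, v (Z i j) * v (W j k) :=
        Finset.sum_le_sum fun i _ => Finset.sum_le_sum fun k _ => h1 i k
    _ = ∑ i, ∑ j, v (Z i j) * ∑ k, v (W j k) := by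
        refine Finset.sum_congr rfl fun i _ => ?_
        rw [Finset.sum_comm]
        exact Finset.sum_congr rfl fun j _ => by rw [Finset.mul_sum]
    _ ≤ ∑ i, ∑ j, v (Z i j) * mnorm v W := by
        refine Finset.sum_le_sum fun i _ => Finset.sum_le_sum fun j _ => ?_
        refine mul_le_mul_of_nonneg_left ?_ (v.nonneg _)
        exact Finset.single_le_sum (f := fun j' => ∑ k, v (W j' k))
          (fun _ _ => Finset.sum_nonneg fun _ _ => v.nonneg _) (Finset.mem_univ j)
    _ = mnorm v Z * mnorm v W := by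
        unfold mnorm
        rw [Finset.sum_mul]
        exact Finset.sum_congr rfl fun i _ => by rw [Finset.sum_mul]

theorem abv_det_le {r : ℕ} (M : Matrix (Fin r) (Fin r) K) (B : ℝ)
    (hB : ∀ i j, v (M i j) ≤ B) : v M.det ≤ r.factorial * B ^ r := by
  rw [Matrix.det_apply]
  refine (v.sum_le _ _).trans ?_
  have h1 : ∀ σ : Equiv.Perm (Fin r), v (Equiv.Perm.sign σ • ∏ i, M (σ i) i) ≤ B ^ r := by
    intro σ
    have h2 : v (Equiv.Perm.sign σ • ∏ i, M (σ i) i) = v (∏ i, M (σ i) i) := by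
      rcases Int.units_eq_one_or (Equiv.Perm.sign σ) with h | h
      · rw [h, one_smul]
      · rw [h, Units.neg_smul, one_smul, v.map_neg]
    rw [h2, v.map_prod]
    calc ∏ i, v (M (σ i) i) ≤ ∏ _i : Fin r, B :=
          Finset.prod_le_prod (fun _ _ => v.nonneg _) (fun i _ => hB _ _)
      _ = B ^ r := by simp
  calc ∑ σ : Equiv.Perm (Fin r), v (Equiv.Perm.sign σ • ∏ i, M (σ i) i)
      ≤ ∑ _σ : Equiv.Perm (Fin r), B ^ r := Finset.sum_le_sum fun σ _ => h1 σ
    _ = r.factorial * B ^ r := by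
        simp [Finset.card_univ, Fintype.card_perm]

end Vale.Agent.Lib.P184
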