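import Mathlib
import Vale.Agent.Lib.P184.MatNorm

/-!
The compression of matrices to an eigenspace of a fixed matrix: it is multiplicative on
the matrices preserving the eigenspace, and its entries are bounded by the gauge.
-/

namespace Vale.Agent.Lib.P184

open scoped BigOperators

variable {K : Type*} [Field K] {n : ℕ} (A : Matrix (Fin n) (Fin n) K) (lam : K)

/-- The eigenspace of `A` for the eigenvalue `lam`. -/
def eigSub : Submodule K (Fin n → K) :=
  LinearMap.ker (Matrix.mulVecLin (A - lam • (1 : Matrix (Fin n) (Fin n) K)))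

theorem mem_eigSub {x : Fin n → K} : x ∈ eigSub A lam ↔ A.mulVec x = lam • x := by
  unfold eigSub
  rw [LinearMap.mem_ker, Matrix.mulVecLin_apply, Matrix.sub_mulVec, Matrix.smul_mulVec,
    Matrix.one_mulVec, sub_eq_zero]

/-- The dimension of the eigenspace. -/
noncomputable def eigDim : ℕ := Module.finrank K (eigSub A lam)

/-- A basis of the eigenspace. -/
noncomputable def eigBasis : Module.Basis (Fin (eigDim A lam)) K (eigSub A lam) :=
  Module.finBasis K (eigSub A lam)

/-- Linear forms on the whole space extending the coordinates of the eigenspace. -/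
noncomputable def eigCoord (i : Fin (eigDim A lam)) : (Fin n → K) →ₗ[K] K :=
  Classical.choose (LinearMap.exists_extend ((eigBasis A lam).coord i))

theorem eigCoord_spec (i : Fin (eigDim A lam)) (x : eigSub A lam) :
    eigCoord A lam i (x : Fin n → K) = (eigBasis A lam).coord i x := by
  have h := Classical.choose_spec (LinearMap.exists_extend ((eigBasis A lam).coord i))
  exact DFunLike.congr_fun h x

theorem eig_expand {x : Fin n → K} (hx : x ∈ eigSub A lam) :
    x = ∑ k, eigCoord A lam k x • ((eigBasis A lam k : eigSub A lam) : Fin n → K) := by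
  have h := (eigBasis A lam).sum_repr ⟨x, hx⟩
  have h2 : x = ∑ i, ((((eigBasis A lam).repr ⟨x, hx⟩) i • (eigBasis A lam) i : eigSub A lam) :
      Fin n → K) := by
    have h3 := congrArg Subtype.val h
    rw [AddSubmonoidClass.coe_finsetSum] at h3
    exact h3.symm
  refine h2.trans (Finset.sum_congr rfl fun k _ => ?_)
  have h4 := eigCoord_spec A lam k ⟨x, hx⟩
  rw [Module.Basis.coord_apply] at h4
  rw [Submodule.coe_smul]
  exact congrArg (fun c : K => c • ((eigBasis A lam k : eigSub A lam) : Fin n → K)) h4.symm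

/-- The compression of a matrix to the eigenspace, in the chosen basis. -/
noncomputable def comp (Z : Matrix (Fin n) (Fin n) K) :
    Matrix (Fin (eigDim A lam)) (Fin (eigDim A lam)) K :=
  fun i j => eigCoord A lam i (Z.mulVec ((eigBasis A lam j : eigSub A lam) : Fin n → K))

theorem comp_mul (Z Z' : Matrix (Fin n) (Fin n) K)
    (hZ' : ∀ x ∈ eigSub A lam, Z'.mulVec x ∈ eigSub A lam) :
    comp A lam (Z * Z') = comp A lam Z * comp A lam Z' := by
  ext i j
  rw [Matrix.mul_apply]
  unfold comp
  rw [← Matrix.mulVec_mulVec]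
  conv_lhs => rw [eig_expand A lam (hZ' _ (eigBasis A lam j).2)]
  rw [Matrix.mulVec_sum, map_sum]
  refine Finset.sum_congr rfl fun k _ => ?_
  rw [Matrix.mulVec_smul, map_smul, smul_eq_mul, mul_comm]

theorem comp_one : comp A lam 1 = 1 := by
  ext i j
  unfold comp
  rw [Matrix.one_mulVec, eigCoord_spec, Module.Basis.coord_apply, Module.Basis.repr_self,
    Matrix.one_apply, Finsupp.single_apply]
  by_cases h : i = j
  · simp [h]
  · simp [h, Ne.symm h]

theorem comp_self : comp A lam A = lam • (1 : Matrix _ _ K) := by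
  ext i j
  unfold comp
  rw [(mem_eigSub A lam).mp (eigBasis A lam j).2, map_smul, eigCoord_spec,
    Module.Basis.coord_apply, Module.Basis.repr_self, Matrix.smul_apply, Matrix.one_apply,
    Finsupp.single_apply]
  by_cases h : i = j
  · simp [h]
  · simp [h, Ne.symm h]

theorem preserve_of_commute {Z : Matrix (Fin n) (Fin n) K} (h : Z * A = A * Z) :
    ∀ x ∈ eigSub A lam, Z.mulVec x ∈ eigSub A lam := by
  intro x hx
  rw [mem_eigSub] at hx ⊢
  rw [Matrix.mulVec_mulVec, ← h, ← Matrix.mulVec_mulVec, hx, Matrix.mulVec_smul]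

theorem eigDim_pos {w : Fin n → K} (hw : w ≠ 0) (hev : A.mulVec w = lam • w) :
    0 < eigDim A lam := by
  unfold eigDim
  rw [Module.finrank_pos_iff_exists_ne_zero]
  refine ⟨⟨w, (mem_eigSub A lam).mpr hev⟩, ?_⟩
  intro h
  exact hw (congrArg Subtype.val h)

theorem comp_bound (v : AbsoluteValue K ℝ) :
    ∃ c : ℝ, 0 ≤ c ∧ ∀ (Z : Matrix (Fin n) (Fin n) K) (i j : Fin (eigDim A lam)),
      v (comp A lam Z i j) ≤ c * mnorm v Z := by
  classical
  set β : Fin (eigDim A lam) → Fin n → ℝ :=
    fun j l => v (((eigBasis A lam j : eigSub A lam) : Fin n → K) l) with hβ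
  set γ : Fin (eigDim A lam) → Fin n → ℝ :=
    fun i k => v (eigCoord A lam i fun t => if k = t then 1 else 0) with hγ
  refine ⟨∑ i, ∑ j, ∑ k, ∑ l, β j l * γ i k, ?_, ?_⟩
  · exact Finset.sum_nonneg fun _ _ => Finset.sum_nonneg fun _ _ => Finset.sum_nonneg fun _ _ =>
      Finset.sum_nonneg fun _ _ => mul_nonneg (v.nonneg _) (v.nonneg _)
  · intro Z i j
    have hle : ∀ k l, β j l * γ i k ≤ ∑ i, ∑ j, ∑ k, ∑ l, β j l * γ i k := by
      intro k l
      have h1 : β j l * γ i k ≤ ∑ l', β j l' * γ i k :=
        Finset.single_le_sum (f := fun l' => β j l' * γ i k)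
          (fun _ _ => mul_nonneg (v.nonneg _) (v.nonneg _)) (Finset.mem_univ l)
      have h2 : ∑ l', β j l' * γ i k ≤ ∑ k', ∑ l', β j l' * γ i k' :=
        Finset.single_le_sum (f := fun k' => ∑ l', β j l' * γ i k')
          (fun _ _ => Finset.sum_nonneg fun _ _ => mul_nonneg (v.nonneg _) (v.nonneg _))
          (Finset.mem_univ k)
      have h3 : ∑ k', ∑ l', β j l' * γ i k' ≤ ∑ j', ∑ k', ∑ l', β j' l' * γ i k' :=
        Finset.single_le_sum (f := fun j' => ∑ k', ∑ l', β j' l' * γ i k')
          (fun _ _ => Finset.sum_nonneg fun _ _ => Finset.sum_nonneg fun _ _ =>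
            mul_nonneg (v.nonneg _) (v.nonneg _)) (Finset.mem_univ j)
      have h4 : ∑ j', ∑ k', ∑ l', β j' l' * γ i k' ≤ ∑ i', ∑ j', ∑ k', ∑ l', β j' l' * γ i' k' :=
        Finset.single_le_sum (f := fun i' => ∑ j', ∑ k', ∑ l', β j' l' * γ i' k')
          (fun _ _ => Finset.sum_nonneg fun _ _ => Finset.sum_nonneg fun _ _ =>
            Finset.sum_nonneg fun _ _ => mul_nonneg (v.nonneg _) (v.nonneg _)) (Finset.mem_univ i)
      exact h1.trans (h2.trans (h3.trans h4))
    set c := ∑ i, ∑ j, ∑ k, ∑ l, β j l * γ i k with hc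
    unfold comp
    rw [LinearMap.pi_apply_eq_sum_univ]
    refine (v.sum_le _ _).trans ?_
    have h5 : ∀ k, v (Z.mulVec ((eigBasis A lam j : eigSub A lam) : Fin n → K) k •
        eigCoord A lam i fun t => if k = t then 1 else 0) ≤ ∑ l, v (Z k l) * c := by
      intro k
      rw [smul_eq_mul, v.map_mul]
      have h6 : v (Z.mulVec ((eigBasis A lam j : eigSub A lam) : Fin n → K) k) ≤
          ∑ l, v (Z k l) * β j l := by
        unfold Matrix.mulVec dotProduct
        refine (v.sum_le _ _).trans (Finset.sum_le_sum fun l _ => ?_)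
        rw [v.map_mul]
      calc v (Z.mulVec ((eigBasis A lam j : eigSub A lam) : Fin n → K) k) * γ i k
          ≤ (∑ l, v (Z k l) * β j l) * γ i k :=
            mul_le_mul_of_nonneg_right h6 (v.nonneg _)
        _ = ∑ l, v (Z k l) * (β j l * γ i k) := by
            rw [Finset.sum_mul]
            exact Finset.sum_congr rfl fun l _ => by ring
        _ ≤ ∑ l, v (Z k l) * c :=
            Finset.sum_le_sum fun l _ => mul_le_mul_of_nonneg_left (hle k l) (v.nonneg _)
    refine (Finset.sum_le_sum fun k _ => h5 k).trans_eq ?_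
    unfold mnorm
    rw [Finset.mul_sum]
    refine Finset.sum_congr rfl fun k _ => ?_
    rw [Finset.mul_sum]
    exact Finset.sum_congr rfl fun l _ => by ring

end Vale.Agent.Lib.P184
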