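import Mathlib

/-!
Convolution of absolutely summable complex functions on a group: existence,
norm bound, associativity, and the trace property of sums over conjugation
invariant sets.
-/

namespace Vale.Agent.Lib.P184

open scoped BigOperators

variable {G : Type*} [Group G]

/-- Convolution of two complex functions on a group. -/
noncomputable def conv (a b : G → ℂ) : G → ℂ := fun g => ∑' h, a h * b (h⁻¹ * g)

/-- The reindexing `(g, h) ↦ (h, h⁻¹ g)` of `G × G`. -/
def shear (G : Type*) [Group G] : G × G ≃ G × G where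
  toFun := fun p => (p.2, p.2⁻¹ * p.1)
  invFun := fun p => (p.1 * p.2, p.1)
  left_inv := fun p => by simp
  right_inv := fun p => by simp

section basic

variable {a b c : G → ℂ}

theorem summable_conv_prod (ha : Summable fun g => ‖a g‖) (hb : Summable fun g => ‖b g‖) :
    Summable fun p : G × G => ‖a p.2‖ * ‖b (p.2⁻¹ * p.1)‖ := by
  have h := Summable.mul_of_nonneg ha hb (fun _ => norm_nonneg _) (fun _ => norm_nonneg _)
  exact ((shear G).summable_iff (f := fun x : G × G => ‖a x.1‖ * ‖b x.2‖)).mpr h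

theorem tsum_conv_prod (ha : Summable fun g => ‖a g‖) (hb : Summable fun g => ‖b g‖) :
    ∑' p : G × G, ‖a p.2‖ * ‖b (p.2⁻¹ * p.1)‖ = (∑' g, ‖a g‖) * ∑' g, ‖b g‖ := by
  have h1 : ∑' p : G × G, ‖a p.2‖ * ‖b (p.2⁻¹ * p.1)‖ = ∑' x : G × G, ‖a x.1‖ * ‖b x.2‖ :=
    (shear G).tsum_eq (fun x : G × G => ‖a x.1‖ * ‖b x.2‖)
  rw [h1]
  have ha' : Summable fun g => ‖(‖a g‖ : ℝ)‖ := by simpa using ha
  have hb' : Summable fun g => ‖(‖b g‖ : ℝ)‖ := by simpa using hb
  exact (tsum_mul_tsum_of_summable_norm ha' hb').symm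

theorem summable_conv_norm_at (ha : Summable fun g => ‖a g‖) (hb : Summable fun g => ‖b g‖)
    (g : G) : Summable fun h => ‖a h‖ * ‖b (h⁻¹ * g)‖ :=
  (summable_conv_prod ha hb).prod_factor g

theorem summable_conv_at (ha : Summable fun g => ‖a g‖) (hb : Summable fun g => ‖b g‖)
    (g : G) : Summable fun h => a h * b (h⁻¹ * g) := by
  refine Summable.of_norm ?_
  simpa [norm_mul] using summable_conv_norm_at ha hb g

theorem norm_conv_le (ha : Summable fun g => ‖a g‖) (hb : Summable fun g => ‖b g‖) (g : G) :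
    ‖conv a b g‖ ≤ ∑' h, ‖a h‖ * ‖b (h⁻¹ * g)‖ := by
  have h := summable_conv_norm_at ha hb g
  have h' : Summable fun h => ‖a h * b (h⁻¹ * g)‖ := by simpa [norm_mul] using h
  refine (norm_tsum_le_tsum_norm h').trans_eq ?_
  simp

theorem summable_norm_conv (ha : Summable fun g => ‖a g‖) (hb : Summable fun g => ‖b g‖) :
    Summable fun g => ‖conv a b g‖ :=
  Summable.of_nonneg_of_le (fun _ => norm_nonneg _) (norm_conv_le ha hb)
    (summable_conv_prod ha hb).prod

theorem tsum_norm_conv_le (ha : Summable fun g => ‖a g‖) (hb : Summable fun g => ‖b g‖) :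
    ∑' g, ‖conv a b g‖ ≤ (∑' g, ‖a g‖) * ∑' g, ‖b g‖ := by
  rw [← tsum_conv_prod ha hb, (summable_conv_prod ha hb).tsum_prod]
  exact (summable_norm_conv ha hb).tsum_le_tsum (norm_conv_le ha hb) (summable_conv_prod ha hb).prod

omit [Group G] in
theorem norm_le_tsum_norm (hc : Summable fun g => ‖c g‖) (x : G) : ‖c x‖ ≤ ∑' g, ‖c g‖ :=
  hc.le_tsum x (fun _ _ => norm_nonneg _)

theorem conv_add (ha : Summable fun g => ‖a g‖) (hb : Summable fun g => ‖b g‖)
    (hc : Summable fun g => ‖c g‖) : conv a (b + c) = conv a b + conv a c := by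
  funext g
  simp only [conv, Pi.add_apply, mul_add]
  exact (summable_conv_at ha hb g).tsum_add (summable_conv_at ha hc g)

theorem add_conv (ha : Summable fun g => ‖a g‖) (hb : Summable fun g => ‖b g‖)
    (hc : Summable fun g => ‖c g‖) : conv (a + b) c = conv a c + conv b c := by
  funext g
  simp only [conv, Pi.add_apply, add_mul]
  exact (summable_conv_at ha hc g).tsum_add (summable_conv_at hb hc g)

theorem conv_assoc (ha : Summable fun g => ‖a g‖) (hb : Summable fun g => ‖b g‖)
    (hc : Summable fun g => ‖c g‖) : conv (conv a b) c = conv a (conv b c) := by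
  funext g
  have hsum : Summable (Function.uncurry fun (k h : G) => a k * b (k⁻¹ * h) * c (h⁻¹ * g)) := by
    refine Summable.of_norm ?_
    have h1 : Summable fun p : G × G => ‖a p.2‖ * ‖b (p.2⁻¹ * p.1)‖ * ∑' x, ‖c x‖ :=
      (summable_conv_prod ha hb).mul_right _
    have h2 : Summable fun p : G × G => ‖a p.1‖ * ‖b (p.1⁻¹ * p.2)‖ * ∑' x, ‖c x‖ :=
      ((Equiv.prodComm G G).summable_iff (f := fun p : G × G =>
        ‖a p.2‖ * ‖b (p.2⁻¹ * p.1)‖ * ∑' x, ‖c x‖)).mpr h1
    refine Summable.of_nonneg_of_le (fun _ => norm_nonneg _) (fun p => ?_) h2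
    simp only [Function.uncurry, norm_mul]
    exact mul_le_mul_of_nonneg_left (norm_le_tsum_norm hc _)
      (mul_nonneg (norm_nonneg _) (norm_nonneg _))
  calc conv (conv a b) c g
      = ∑' h, ∑' k, a k * b (k⁻¹ * h) * c (h⁻¹ * g) := by
        simp only [conv, tsum_mul_right]
    _ = ∑' k, ∑' h, a k * b (k⁻¹ * h) * c (h⁻¹ * g) := hsum.tsum_comm
    _ = ∑' k, a k * ∑' h, b (k⁻¹ * h) * c (h⁻¹ * g) := by
        simp only [mul_assoc, tsum_mul_left]
    _ = ∑' k, a k * ∑' m, b m * c (m⁻¹ * (k⁻¹ * g)) := by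
        refine tsum_congr fun k => ?_
        congr 1
        have := (Equiv.mulLeft k).tsum_eq (fun h => b (k⁻¹ * h) * c (h⁻¹ * g))
        rw [← this]
        refine tsum_congr fun m => ?_
        simp [mul_assoc]
    _ = conv a (conv b c) g := by simp only [conv]

end basic

/-- The sum of a function over a set, written as a sum over the whole group. -/
noncomputable def setSum (S : Set G) (a : G → ℂ) : ℂ := ∑' x, S.indicator a x

/-- The reindexing `(x, h) ↦ (h⁻¹ x h, h⁻¹ x)` of `G × G`, an involution. -/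
def conjShear (G : Type*) [Group G] : G × G ≃ G × G where
  toFun := fun p => (p.2⁻¹ * p.1 * p.2, p.2⁻¹ * p.1)
  invFun := fun p => (p.2⁻¹ * p.1 * p.2, p.2⁻¹ * p.1)
  left_inv := fun p => by simp [mul_assoc]
  right_inv := fun p => by simp [mul_assoc]

section trace

variable {a b : G → ℂ} {S : Set G}

omit [Group G] in
theorem summable_indicator_norm (ha : Summable fun g => ‖a g‖) (S : Set G) :
    Summable fun x => ‖S.indicator a x‖ := by
  refine Summable.of_nonneg_of_le (fun _ => norm_nonneg _) (fun x => ?_) ha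
  by_cases hx : x ∈ S <;> simp [hx]

theorem norm_setSum_le (ha : Summable fun g => ‖a g‖) (S : Set G) :
    ‖setSum S a‖ ≤ ∑' g, ‖a g‖ := by
  refine (norm_tsum_le_tsum_norm (summable_indicator_norm ha S)).trans ?_
  refine (summable_indicator_norm ha S).tsum_le_tsum (fun x => ?_) ha
  by_cases hx : x ∈ S <;> simp [hx]

theorem setSum_add (ha : Summable fun g => ‖a g‖) (hb : Summable fun g => ‖b g‖) (S : Set G) :
    setSum S (a + b) = setSum S a + setSum S b := by
  unfold setSum
  rw [Set.indicator_add']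
  exact (Summable.of_norm (summable_indicator_norm ha S)).tsum_add
    (Summable.of_norm (summable_indicator_norm hb S))

/-- Sums over a conjugation invariant set are traces for convolution. -/
theorem setSum_conv_comm (ha : Summable fun g => ‖a g‖) (hb : Summable fun g => ‖b g‖)
    (hS : ∀ x h : G, h⁻¹ * x * h ∈ S ↔ x ∈ S) :
    setSum S (conv a b) = setSum S (conv b a) := by
  classical
  have key : ∀ (a b : G → ℂ), Summable (fun g => ‖a g‖) → Summable (fun g => ‖b g‖) →
      setSum S (conv a b) = ∑' p : G × G, (if p.1 ∈ S then a p.2 * b (p.2⁻¹ * p.1) else 0) := by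
    intro a b ha hb
    have hsum : Summable fun p : G × G => (if p.1 ∈ S then a p.2 * b (p.2⁻¹ * p.1) else 0) := by
      refine Summable.of_norm ?_
      refine Summable.of_nonneg_of_le (fun _ => norm_nonneg _) (fun p => ?_)
        (summable_conv_prod ha hb)
      by_cases hp : p.1 ∈ S <;> simp [hp, mul_nonneg]
    rw [hsum.tsum_prod]
    unfold setSum
    refine tsum_congr fun x => ?_
    by_cases hx : x ∈ S <;> simp [hx, conv]
  rw [key a b ha hb, key b a hb ha]
  rw [← (conjShear G).tsum_eq (fun p : G × G => (if p.1 ∈ S then b p.2 * a (p.2⁻¹ * p.1) else 0))]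
  refine tsum_congr fun p => ?_
  simp only [conjShear, Equiv.coe_fn_mk, hS]
  by_cases hp : p.1 ∈ S
  · simp [hp, mul_assoc, mul_comm]
  · simp [hp]

end trace

end Vale.Agent.Lib.P184
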