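import Mathlib

/-!
Idempotents at distance less than one have the same trace, for any trace
dominated by a submultiplicative gauge.  No completeness and no inverses are used.
-/

namespace Vale.Agent.Lib.P184

open scoped BigOperators

/-- A gauge `N` together with a trace `tr` dominated by it. -/
structure GaugedTrace (R : Type*) [Ring R] where
  N : R → ℝ
  tr : R →+ ℂ
  N_nonneg : ∀ a, 0 ≤ N a
  N_zero : N 0 = 0
  N_add : ∀ a b, N (a + b) ≤ N a + N b
  N_mul : ∀ a b, N (a * b) ≤ N a * N b
  tr_le : ∀ a, ‖tr a‖ ≤ N a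
  tr_comm : ∀ a b, tr (a * b) = tr (b * a)

namespace GaugedTrace

variable {R : Type*} [Ring R] (T : GaugedTrace R)

theorem N_sum_le {α : Type*} (s : Finset α) (f : α → R) :
    T.N (∑ i ∈ s, f i) ≤ ∑ i ∈ s, T.N (f i) := by
  classical
  induction s using Finset.induction_on with
  | empty => simp [T.N_zero]
  | insert a s ha ih =>
    rw [Finset.sum_insert ha, Finset.sum_insert ha]
    exact (T.N_add _ _).trans (by linarith)

theorem N_pow_le (d s : R) (k : ℕ) : T.N (d * s ^ k) ≤ T.N d * T.N s ^ k := by
  induction k with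
  | zero => simp
  | succ k ih =>
    rw [pow_succ, ← mul_assoc, pow_succ, ← mul_assoc]
    exact (T.N_mul _ _).trans (mul_le_mul_of_nonneg_right ih (T.N_nonneg _))

/-- Two idempotents whose difference has gauge less than one have the same trace. -/
theorem tr_eq_of_idem {e f : R} (he : e * e = e) (hf : f * f = f)
    (hd : T.N (f - e) < 1) : T.tr f = T.tr e := by
  set d := f - e with hd_def
  set s := d * d with hs_def
  have hs : s = f - f * e - e * f + e := by
    rw [hs_def, hd_def]
    simp only [mul_sub, sub_mul, he, hf]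
    abel
  have hes : Commute e s := by
    unfold Commute SemiconjBy
    rw [hs]
    simp only [mul_sub, sub_mul, mul_add, add_mul, he, ← mul_assoc]
    simp only [mul_assoc, he]
    abel
  have hfs : Commute f s := by
    unfold Commute SemiconjBy
    rw [hs]
    simp only [mul_sub, sub_mul, mul_add, add_mul, hf, ← mul_assoc]
    simp only [mul_assoc, hf]
    abel
  set c := f * e * f - e * f * e with hc_def
  have hdc : d - d * s = c := by
    rw [hs, hd_def, hc_def]
    simp only [mul_sub, sub_mul, mul_add, he, hf, ← mul_assoc]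
    simp only [mul_assoc]
    abel
  have hcw : ∀ w : R, Commute e w → Commute f w → T.tr (c * w) = 0 := by
    intro w hew hfw
    have h1 : T.tr (f * e * f * w) = T.tr (e * f * w) := by
      calc T.tr (f * e * f * w) = T.tr (f * (e * f * w)) := by simp only [mul_assoc]
        _ = T.tr (e * f * w * f) := T.tr_comm _ _
        _ = T.tr (e * f * (f * w)) := by rw [mul_assoc (e * f) w f, hfw.eq]
        _ = T.tr (e * f * w) := by rw [← mul_assoc (e * f) f w, mul_assoc e f f, hf]
    have h2 : T.tr (e * f * e * w) = T.tr (e * f * w) := by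
      calc T.tr (e * f * e * w) = T.tr (e * (f * e * w)) := by simp only [mul_assoc]
        _ = T.tr (f * e * w * e) := T.tr_comm _ _
        _ = T.tr (f * e * (e * w)) := by rw [mul_assoc (f * e) w e, hew.eq]
        _ = T.tr (f * (e * w)) := by rw [← mul_assoc (f * e) e w, mul_assoc f e e, he, mul_assoc]
        _ = T.tr (e * w * f) := T.tr_comm _ _
        _ = T.tr (e * f * w) := by rw [mul_assoc e w f, ← hfw.eq, mul_assoc]
    rw [hc_def, sub_mul, map_sub, h1, h2, sub_self]
  have hstep : ∀ k : ℕ, T.tr (d * s ^ k) = T.tr d := by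
    intro k
    induction k with
    | zero => simp
    | succ k ih =>
      have : d * s ^ k - d * s ^ (k + 1) = c * s ^ k := by
        rw [pow_succ', ← mul_assoc, ← sub_mul, hdc]
      have h0 := hcw (s ^ k) (hes.pow_right k) (hfs.pow_right k)
      rw [← this, map_sub, sub_eq_zero] at h0
      rw [← h0, ih]
  have hsN : T.N s ≤ T.N d * T.N d := T.N_mul d d
  have hd0 : 0 ≤ T.N d := T.N_nonneg d
  have hs1 : T.N s < 1 := by
    have : T.N d * T.N d < 1 := by nlinarith
    linarith
  have hbound : ∀ k : ℕ, ‖T.tr d‖ ≤ T.N d * T.N s ^ k := by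
    intro k
    rw [← hstep k]
    exact (T.tr_le _).trans (T.N_pow_le d s k)
  have hlim : Filter.Tendsto (fun k : ℕ => T.N d * T.N s ^ k) Filter.atTop (nhds 0) := by
    have := (tendsto_pow_atTop_nhds_zero_of_lt_one (T.N_nonneg s) hs1).const_mul (T.N d)
    simpa using this
  have hz : ‖T.tr d‖ ≤ 0 := ge_of_tendsto' hlim hbound
  have hz' : T.tr d = 0 := by simpa using le_antisymm hz (norm_nonneg _)
  rw [hd_def, map_sub, sub_eq_zero] at hz'
  exact hz'

/-- The induced gauge and trace on square matrices. -/
noncomputable def matrix (ι : Type*) [Fintype ι] [DecidableEq ι] :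
    GaugedTrace (Matrix ι ι R) where
  N := fun M => ∑ i, ∑ j, T.N (M i j)
  tr := 
    { toFun := fun M => ∑ i, T.tr (M i i)
      map_zero' := by simp
      map_add' := fun M M' => by simp [Finset.sum_add_distrib] }
  N_nonneg := fun M => Finset.sum_nonneg fun i _ => Finset.sum_nonneg fun j _ => T.N_nonneg _
  N_zero := by simp [T.N_zero]
  N_add := fun M M' => by
    rw [← Finset.sum_add_distrib]
    refine Finset.sum_le_sum fun i _ => ?_
    rw [← Finset.sum_add_distrib]
    exact Finset.sum_le_sum fun j _ => T.N_add _ _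
  N_mul := fun M M' => by
    have h1 : ∀ i k, T.N ((M * M') i k) ≤ ∑ j, T.N (M i j) * T.N (M' j k) := by
      intro i k
      rw [Matrix.mul_apply]
      exact (T.N_sum_le _ _).trans (Finset.sum_le_sum fun j _ => T.N_mul _ _)
    calc ∑ i, ∑ k, T.N ((M * M') i k)
        ≤ ∑ i, ∑ k, ∑ j, T.N (M i j) * T.N (M' j k) :=
          Finset.sum_le_sum fun i _ => Finset.sum_le_sum fun k _ => h1 i k
      _ = ∑ i, ∑ j, T.N (M i j) * ∑ k, T.N (M' j k) := by
          refine Finset.sum_congr rfl fun i _ => ?_
          rw [Finset.sum_comm]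
          exact Finset.sum_congr rfl fun j _ => by rw [Finset.mul_sum]
      _ ≤ ∑ i, ∑ j, T.N (M i j) * ∑ j', ∑ k, T.N (M' j' k) := by
          refine Finset.sum_le_sum fun i _ => Finset.sum_le_sum fun j _ => ?_
          refine mul_le_mul_of_nonneg_left ?_ (T.N_nonneg _)
          exact Finset.single_le_sum (f := fun j' => ∑ k, T.N (M' j' k))
            (fun j' _ => Finset.sum_nonneg fun k _ => T.N_nonneg _) (Finset.mem_univ j)
      _ = (∑ i, ∑ j, T.N (M i j)) * ∑ j', ∑ k, T.N (M' j' k) := by
          rw [Finset.sum_mul]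
          exact Finset.sum_congr rfl fun i _ => by rw [Finset.sum_mul]
  tr_le := fun M => by
    change ‖∑ i, T.tr (M i i)‖ ≤ ∑ i, ∑ j, T.N (M i j)
    refine (norm_sum_le _ _).trans (Finset.sum_le_sum fun i _ => ?_)
    exact (T.tr_le _).trans (Finset.single_le_sum (f := fun j => T.N (M i j))
      (fun j _ => T.N_nonneg _) (Finset.mem_univ i))
  tr_comm := fun M M' => by
    change ∑ i, T.tr ((M * M') i i) = ∑ i, T.tr ((M' * M) i i)
    simp only [Matrix.mul_apply, map_sum]
    rw [Finset.sum_comm]
    exact Finset.sum_congr rfl fun j _ => Finset.sum_congr rfl fun i _ => T.tr_comm _ _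

end GaugedTrace

end Vale.Agent.Lib.P184
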