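import Mathlib
import Vale.Agent.Lib.P184.Idem
import Vale.Agent.Lib.P184.Conv

/-!
The convolution ring of absolutely summable complex functions on a group, with
its gauge (the sum of absolute values) and the traces given by sums over
conjugation invariant sets.
-/

namespace Vale.Agent.Lib.P184

open scoped BigOperators

variable {G : Type*} [Group G]

/-- The additive group of absolutely summable complex functions on `G`. -/
def l1 (G : Type*) : AddSubgroup (G → ℂ) where
  carrier := {a | Summable fun g => ‖a g‖}
  zero_mem' := by simp [summable_zero]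
  add_mem' := fun {a b} ha hb =>
    Summable.of_nonneg_of_le (fun g => norm_nonneg _) (fun g => norm_add_le _ _) (ha.add hb)
  neg_mem' := fun {a} ha => by simpa using ha

/-- The unit of convolution: the indicator of the identity element. -/
noncomputable def delta (G : Type*) [Group G] : G → ℂ := Set.indicator {1} (fun _ => 1)

theorem delta_one : delta G 1 = 1 := by simp [delta]

theorem delta_ne {x : G} (hx : x ≠ 1) : delta G x = 0 := by simp [delta, hx]

theorem summable_norm_delta : Summable fun g : G => ‖delta G g‖ := by
  classical
  refine summable_of_ne_finset_zero (s := {1}) fun b hb => ?_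
  have : b ≠ 1 := by simpa using hb
  simp [delta_ne this]

theorem delta_conv (a : G → ℂ) : conv (delta G) a = a := by
  funext g
  unfold conv
  rw [tsum_eq_single 1 (fun b hb => by simp [delta_ne hb])]
  simp [delta_one]

theorem conv_delta (a : G → ℂ) : conv a (delta G) = a := by
  funext g
  unfold conv
  rw [tsum_eq_single g (fun b hb => ?_)]
  · simp [delta_one]
  · have : b⁻¹ * g ≠ 1 := by
      intro h
      apply hb
      have := congrArg (fun z => b * z) h
      simpa using this.symm
    simp [delta_ne this]

noncomputable instance : Mul (l1 G) :=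
  ⟨fun a b => ⟨conv a.1 b.1, summable_norm_conv a.2 b.2⟩⟩

noncomputable instance : One (l1 G) := ⟨⟨delta G, summable_norm_delta⟩⟩

theorem l1_coe_mul (a b : l1 G) : ((a * b : l1 G) : G → ℂ) = conv (a : G → ℂ) (b : G → ℂ) := rfl

theorem l1_coe_one : ((1 : l1 G) : G → ℂ) = delta G := rfl

noncomputable instance : Ring (l1 G) :=
  { (inferInstance : AddCommGroup (l1 G)), (inferInstance : Mul (l1 G)),
    (inferInstance : One (l1 G)) with
    left_distrib := fun a b c => Subtype.ext (by
      rw [l1_coe_mul]
      exact conv_add a.2 b.2 c.2)
    right_distrib := fun a b c => Subtype.ext (by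
      rw [l1_coe_mul]
      exact add_conv a.2 b.2 c.2)
    zero_mul := fun a => Subtype.ext (by
      rw [l1_coe_mul]
      funext g
      simp [conv])
    mul_zero := fun a => Subtype.ext (by
      rw [l1_coe_mul]
      funext g
      simp [conv])
    mul_assoc := fun a b c => Subtype.ext (by
      rw [l1_coe_mul, l1_coe_mul, l1_coe_mul, l1_coe_mul]
      exact conv_assoc a.2 b.2 c.2)
    one_mul := fun a => Subtype.ext (by
      rw [l1_coe_mul, l1_coe_one]
      exact delta_conv _)
    mul_one := fun a => Subtype.ext (by
      rw [l1_coe_mul, l1_coe_one]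
      exact conv_delta _) }

/-- The gauge `∑ |a g|` and the trace `∑_{x ∈ S} a x` on the convolution ring. -/
noncomputable def l1Trace (S : Set G) (hS : ∀ x h : G, h⁻¹ * x * h ∈ S ↔ x ∈ S) :
    GaugedTrace (l1 G) where
  N := fun a => ∑' g, ‖(a : G → ℂ) g‖
  tr :=
    { toFun := fun a => setSum S (a : G → ℂ)
      map_zero' := by simp [setSum]
      map_add' := fun a b => setSum_add a.2 b.2 S }
  N_nonneg := fun a => tsum_nonneg fun _ => norm_nonneg _
  N_zero := by simp
  N_add := fun a b => by
    have h : Summable fun g => ‖(a : G → ℂ) g‖ + ‖(b : G → ℂ) g‖ := a.2.add b.2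
    rw [← a.2.tsum_add b.2]
    exact (a + b).2.tsum_le_tsum (fun g => norm_add_le _ _) h
  N_mul := fun a b => tsum_norm_conv_le a.2 b.2
  tr_le := fun a => norm_setSum_le a.2 S
  tr_comm := fun a b => setSum_conv_comm a.2 b.2 hS

end Vale.Agent.Lib.P184
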