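import Mathlib
import Vale.Agent.Lib.P184.Ring

/-!
Twisting an idempotent matrix over the convolution ring by a continuous family
of bounded multiplicative matrix-valued functions on the group.
-/

namespace Vale.Agent.Lib.P184

open scoped BigOperators Topology

variable {G : Type*} [Group G] {κ : Type*} [Fintype κ] [DecidableEq κ]

omit [Group G] in
theorem summable_norm_mul_bdd {a : G → ℂ} (ha : Summable fun g => ‖a g‖) {u : G → ℂ} {K : ℝ}
    (hu : ∀ g, ‖u g‖ ≤ K) : Summable fun g => ‖a g * u g‖ := by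
  refine Summable.of_nonneg_of_le (fun _ => norm_nonneg _) (fun g => ?_) (ha.mul_right K)
  rw [norm_mul]
  exact mul_le_mul_of_nonneg_left (hu g) (norm_nonneg _)

/-- Multiply a summable function by each matrix coefficient of a bounded matrix-valued
function on the group. -/
noncomputable def twist (μ : G → Matrix κ κ ℂ) (K : ℝ) (hK : ∀ g k l, ‖μ g k l‖ ≤ K) :
    l1 G →+ Matrix κ κ (l1 G) where
  toFun := fun a => Matrix.of fun k l =>
    ⟨fun g => (a : G → ℂ) g * μ g k l, summable_norm_mul_bdd a.2 (fun g => hK g k l)⟩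
  map_zero' := by
    refine Matrix.ext fun k l => Subtype.ext (funext fun g => ?_)
    simp
  map_add' := fun a b => by
    refine Matrix.ext fun k l => Subtype.ext (funext fun g => ?_)
    simp [add_mul]

omit [Fintype κ] [DecidableEq κ] in
theorem twist_apply (μ : G → Matrix κ κ ℂ) (K : ℝ) (hK : ∀ g k l, ‖μ g k l‖ ≤ K) (a : l1 G)
    (k l : κ) (g : G) : ((twist μ K hK a k l : l1 G) : G → ℂ) g = (a : G → ℂ) g * μ g k l := rfl

theorem twist_mul (μ : G → Matrix κ κ ℂ) (K : ℝ) (hK : ∀ g k l, ‖μ g k l‖ ≤ K)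
    (hmul : ∀ g h, μ (g * h) = μ g * μ h) (a b : l1 G) :
    twist μ K hK (a * b) = twist μ K hK a * twist μ K hK b := by
  refine Matrix.ext fun k l => Subtype.ext (funext fun g => ?_)
  rw [Matrix.mul_apply, AddSubgroup.val_finsetSum, Finset.sum_apply, twist_apply, l1_coe_mul]
  simp only [l1_coe_mul]
  unfold conv
  have hs : ∀ j ∈ (Finset.univ : Finset κ), Summable fun h =>
      ((twist μ K hK a k j : l1 G) : G → ℂ) h * ((twist μ K hK b j l : l1 G) : G → ℂ) (h⁻¹ * g) :=
    fun j _ => summable_conv_at (twist μ K hK a k j).2 (twist μ K hK b j l).2 g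
  rw [← Summable.tsum_finsetSum hs, ← tsum_mul_right]
  refine tsum_congr fun h => ?_
  have hμ : μ g = μ h * μ (h⁻¹ * g) := by rw [← hmul]; simp
  rw [hμ, Matrix.mul_apply, Finset.mul_sum]
  refine Finset.sum_congr rfl fun j _ => ?_
  rw [twist_apply, twist_apply]
  ring

theorem map_twist_idem {ι : Type*} [Fintype ι] [DecidableEq ι] (μ : G → Matrix κ κ ℂ) (K : ℝ)
    (hK : ∀ g k l, ‖μ g k l‖ ≤ K) (hmul : ∀ g h, μ (g * h) = μ g * μ h)
    (E : Matrix ι ι (l1 G)) (hE : E * E = E) :
    E.map (twist μ K hK) * E.map (twist μ K hK) = E.map (twist μ K hK) := by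
  refine Matrix.ext fun i j => ?_
  rw [Matrix.mul_apply]
  simp only [Matrix.map_apply]
  conv_rhs => rw [← hE, Matrix.mul_apply, map_sum]
  exact Finset.sum_congr rfl fun j' _ => (twist_mul μ K hK hmul _ _).symm

/-- The matrix over the convolution ring with prescribed summable entries. -/
noncomputable def toMat {ι : Type*} (e : ι → ι → G → ℂ)
    (hsum : ∀ i j, Summable fun g => ‖e i j g‖) : Matrix ι ι (l1 G) :=
  Matrix.of fun i j => ⟨e i j, hsum i j⟩

theorem toMat_idem {ι : Type*} [Fintype ι] [DecidableEq ι] (e : ι → ι → G → ℂ)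
    (hsum : ∀ i j, Summable fun g => ‖e i j g‖)
    (hidem : ∀ i k g, ∑ j, ∑' h, e i j h * e j k (h⁻¹ * g) = e i k g) :
    toMat e hsum * toMat e hsum = toMat e hsum := by
  refine Matrix.ext fun i k => Subtype.ext (funext fun g => ?_)
  rw [Matrix.mul_apply, AddSubgroup.val_finsetSum, Finset.sum_apply]
  exact hidem i k g

section core

variable {ι : Type*} [Fintype ι] [DecidableEq ι] {X : Type*} [TopologicalSpace X]

/-- The twisted family of matrices. -/
noncomputable def twisted (e : ι → ι → G → ℂ) (hsum : ∀ i j, Summable fun g => ‖e i j g‖)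
    (m : X → G → Matrix κ κ ℂ) (K : ℝ) (hK : ∀ t g k l, ‖m t g k l‖ ≤ K) (t : X) :
    Matrix ι ι (Matrix κ κ (l1 G)) :=
  (toMat e hsum).map (twist (m t) K (hK t))

theorem twisted_sub_apply (e : ι → ι → G → ℂ) (hsum : ∀ i j, Summable fun g => ‖e i j g‖)
    (m : X → G → Matrix κ κ ℂ) (K : ℝ) (hK : ∀ t g k l, ‖m t g k l‖ ≤ K) (t t0 : X)
    (i j : ι) (k l : κ) (g : G) :
    (((twisted e hsum m K hK t - twisted e hsum m K hK t0) i j k l : l1 G) : G → ℂ) g
      = e i j g * m t g k l - e i j g * m t0 g k l := rfl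

theorem twisted_gauge_tendsto (e : ι → ι → G → ℂ) (hsum : ∀ i j, Summable fun g => ‖e i j g‖)
    (m : X → G → Matrix κ κ ℂ) (K : ℝ) (hK : ∀ t g k l, ‖m t g k l‖ ≤ K)
    (hcont : ∀ g k l, Continuous fun t => m t g k l)
    (S : Set G) (hS : ∀ x h : G, h⁻¹ * x * h ∈ S ↔ x ∈ S) (t0 : X) :
    Filter.Tendsto (fun t => (((l1Trace S hS).matrix κ).matrix ι).N
      (twisted e hsum m K hK t - twisted e hsum m K hK t0)) (𝓝 t0) (𝓝 0) := by
  change Filter.Tendsto (fun t => ∑ i, ∑ j, ∑ k, ∑ l, ∑' g,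
    ‖(((twisted e hsum m K hK t - twisted e hsum m K hK t0) i j k l : l1 G) : G → ℂ) g‖)
    (𝓝 t0) (𝓝 0)
  have h0 : (0 : ℝ) = ∑ _i : ι, ∑ _j : ι, ∑ _k : κ, ∑ _l : κ, (0 : ℝ) := by simp
  rw [h0]
  refine tendsto_finsetSum _ fun i _ => tendsto_finsetSum _ fun j _ =>
    tendsto_finsetSum _ fun k _ => tendsto_finsetSum _ fun l _ => ?_
  have h00 : (0 : ℝ) = ∑' _g : G, (0 : ℝ) := by simp
  rw [h00]
  refine tendsto_tsum_of_dominated_convergence (bound := fun g => ‖e i j g‖ * (K + K))
    ((hsum i j).mul_right _) (fun g => ?_) (Filter.Eventually.of_forall fun t g => ?_)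
  · simp only [twisted_sub_apply]
    have hc : Continuous fun t => ‖e i j g * m t g k l - e i j g * m t0 g k l‖ :=
      (((hcont g k l).const_mul (e i j g)).sub continuous_const).norm
    exact hc.tendsto' t0 0 (by simp)
  · rw [twisted_sub_apply, norm_norm, ← mul_sub, norm_mul]
    refine mul_le_mul_of_nonneg_left ?_ (norm_nonneg _)
    exact (norm_sub_le _ _).trans (add_le_add (hK t g k l) (hK t0 g k l))

theorem twisted_idem (e : ι → ι → G → ℂ) (hsum : ∀ i j, Summable fun g => ‖e i j g‖)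
    (hidem : ∀ i k g, ∑ j, ∑' h, e i j h * e j k (h⁻¹ * g) = e i k g)
    (m : X → G → Matrix κ κ ℂ) (hmul : ∀ t g h, m t (g * h) = m t g * m t h)
    (K : ℝ) (hK : ∀ t g k l, ‖m t g k l‖ ≤ K) (t : X) :
    twisted e hsum m K hK t * twisted e hsum m K hK t = twisted e hsum m K hK t :=
  map_twist_idem (m t) K (hK t) (hmul t) _ (toMat_idem e hsum hidem)

theorem twisted_tr (e : ι → ι → G → ℂ) (hsum : ∀ i j, Summable fun g => ‖e i j g‖)
    (m : X → G → Matrix κ κ ℂ) (K : ℝ) (hK : ∀ t g k l, ‖m t g k l‖ ≤ K)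
    (S : Set G) (hS : ∀ x h : G, h⁻¹ * x * h ∈ S ↔ x ∈ S)
    (χ : X → ℂ) (hχ : ∀ t, ∀ x ∈ S, Matrix.trace (m t x) = χ t) (t : X) :
    (((l1Trace S hS).matrix κ).matrix ι).tr (twisted e hsum m K hK t)
      = (∑' x : S, ∑ i, e i i (x : G)) * χ t := by
  change ∑ i, ∑ k, setSum S (fun g => e i i g * m t g k k) = _
  have h1 : ∀ i k, setSum S (fun g => e i i g * m t g k k)
      = ∑' x : S, e i i (x : G) * m t (x : G) k k := fun i k => (tsum_subtype S _).symm
  simp only [h1]
  have hs : ∀ i k, Summable fun x : S => e i i (x : G) * m t (x : G) k k := fun i k =>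
    (Summable.of_norm (summable_norm_mul_bdd (hsum i i) (fun g => hK t g k k))).subtype S
  have h2 : ∀ i, ∑ k, ∑' x : S, e i i (x : G) * m t (x : G) k k
      = ∑' x : S, ∑ k, e i i (x : G) * m t (x : G) k k := fun i =>
    (Summable.tsum_finsetSum fun k _ => hs i k).symm
  simp only [h2]
  rw [← Summable.tsum_finsetSum fun i _ => summable_sum fun k _ => hs i k, ← tsum_mul_right]
  refine tsum_congr fun x => ?_
  rw [← hχ t x x.2, Matrix.trace, Finset.sum_mul]
  refine Finset.sum_congr rfl fun i _ => ?_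
  rw [Finset.mul_sum]
  rfl

/-- Core statement: along a continuous family of bounded multiplicative matrix-valued
functions on the group, the product of the trace on a conjugation invariant set `S`
with the common matrix trace on `S` does not depend on the parameter. -/
theorem core [PreconnectedSpace X] (e : ι → ι → G → ℂ)
    (hsum : ∀ i j, Summable fun g => ‖e i j g‖)
    (hidem : ∀ i k g, ∑ j, ∑' h, e i j h * e j k (h⁻¹ * g) = e i k g)
    (m : X → G → Matrix κ κ ℂ) (hmul : ∀ t g h, m t (g * h) = m t g * m t h)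
    (K : ℝ) (hK : ∀ t g k l, ‖m t g k l‖ ≤ K)
    (hcont : ∀ g k l, Continuous fun t => m t g k l)
    (S : Set G) (hS : ∀ x h : G, h⁻¹ * x * h ∈ S ↔ x ∈ S)
    (χ : X → ℂ) (hχ : ∀ t, ∀ x ∈ S, Matrix.trace (m t x) = χ t) (t t' : X) :
    (∑' x : S, ∑ i, e i i (x : G)) * χ t = (∑' x : S, ∑ i, e i i (x : G)) * χ t' := by
  set T := ((l1Trace S hS).matrix κ).matrix ι with hT
  have hloc : IsLocallyConstant fun t => T.tr (twisted e hsum m K hK t) := by
    rw [IsLocallyConstant.iff_eventually_eq]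
    intro t0
    have h := (twisted_gauge_tendsto e hsum m K hK hcont S hS t0).eventually
      (Iio_mem_nhds zero_lt_one)
    filter_upwards [h] with t ht
    exact T.tr_eq_of_idem (twisted_idem e hsum hidem m hmul K hK t0)
      (twisted_idem e hsum hidem m hmul K hK t) ht
  have := hloc.apply_eq_of_preconnectedSpace t t'
  rw [hT, twisted_tr e hsum m K hK S hS χ hχ t, twisted_tr e hsum m K hK S hS χ hχ t'] at this
  exact this

end core

end Vale.Agent.Lib.P184
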