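import Mathlib
import Vale.Agent.Lib.P184.Twist

/-!
The crossed product of the convolution algebra of a group with the bounded
functions on the group, the group acting on itself by conjugation: functions
`F u x` of a group element `u` and a point `x`, dominated in norm by a
summable function of `u`, with the product
`(F * F') w x = ∑ h, F h ((h⁻¹ w) x (h⁻¹ w)⁻¹) * F' (h⁻¹ w) x`.
The sum of `F x x` over a conjugation invariant set is a trace.
-/

namespace Vale.Agent.Lib.P184

open scoped BigOperators Topology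

variable {G : Type*} [Group G]

section real

variable {s t : G → ℝ}

theorem summable_rconv_prod (hs : Summable s) (ht : Summable t) (hs0 : ∀ g, 0 ≤ s g)
    (ht0 : ∀ g, 0 ≤ t g) : Summable fun p : G × G => s p.2 * t (p.2⁻¹ * p.1) := by
  have h := Summable.mul_of_nonneg hs ht hs0 ht0
  exact ((shear G).summable_iff (f := fun x : G × G => s x.1 * t x.2)).mpr h

theorem tsum_rconv_prod (hs : Summable s) (ht : Summable t) (hs0 : ∀ g, 0 ≤ s g)
    (ht0 : ∀ g, 0 ≤ t g) :
    ∑' p : G × G, s p.2 * t (p.2⁻¹ * p.1) = (∑' g, s g) * ∑' g, t g := by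
  have h1 : ∑' p : G × G, s p.2 * t (p.2⁻¹ * p.1) = ∑' x : G × G, s x.1 * t x.2 :=
    (shear G).tsum_eq (fun x : G × G => s x.1 * t x.2)
  rw [h1]
  have hs' : Summable fun g => ‖s g‖ := by
    simpa [Real.norm_of_nonneg (hs0 _)] using hs
  have ht' : Summable fun g => ‖t g‖ := by
    simpa [Real.norm_of_nonneg (ht0 _)] using ht
  exact (tsum_mul_tsum_of_summable_norm hs' ht').symm

end real

/-- The conjugation action of the group on itself. -/
def act (u x : G) : G := u * x * u⁻¹

theorem act_mul (u v x : G) : act (u * v) x = act u (act v x) := by simp [act, mul_assoc]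

theorem act_one (x : G) : act 1 x = x := by simp [act]

/-- The crossed product convolution. -/
noncomputable def cconv (F F' : G → G → ℂ) : G → G → ℂ :=
  fun w x => ∑' h, F h (act (h⁻¹ * w) x) * F' (h⁻¹ * w) x

/-- Domination of `F u x` by a function of `u`. -/
def Dom (F : G → G → ℂ) (s : G → ℝ) : Prop := ∀ u x, ‖F u x‖ ≤ s u

section basic

variable {F F' F'' : G → G → ℂ} {s s' s'' : G → ℝ}

theorem dom_nonneg (hF : Dom F s) (u : G) : 0 ≤ s u := (norm_nonneg _).trans (hF u 1)

theorem summable_cconv_at (hs : Summable s) (hF : Dom F s) (hs' : Summable s') (hF' : Dom F' s')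
    (w x : G) : Summable fun h => F h (act (h⁻¹ * w) x) * F' (h⁻¹ * w) x := by
  refine Summable.of_norm ?_
  refine Summable.of_nonneg_of_le (fun _ => norm_nonneg _) (fun h => ?_)
    ((summable_rconv_prod hs hs' (dom_nonneg hF) (dom_nonneg hF')).prod_factor w)
  rw [norm_mul]
  exact mul_le_mul (hF _ _) (hF' _ _) (norm_nonneg _) (dom_nonneg hF _)

theorem norm_cconv_le (hs : Summable s) (hF : Dom F s) (hs' : Summable s') (hF' : Dom F' s')
    (w x : G) : ‖cconv F F' w x‖ ≤ ∑' h, s h * s' (h⁻¹ * w) := by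
  have hb := (summable_rconv_prod hs hs' (dom_nonneg hF) (dom_nonneg hF')).prod_factor w
  have hn : Summable fun h => ‖F h (act (h⁻¹ * w) x) * F' (h⁻¹ * w) x‖ := by
    refine Summable.of_nonneg_of_le (fun _ => norm_nonneg _) (fun h => ?_) hb
    rw [norm_mul]
    exact mul_le_mul (hF _ _) (hF' _ _) (norm_nonneg _) (dom_nonneg hF _)
  refine (norm_tsum_le_tsum_norm hn).trans ?_
  refine hn.tsum_le_tsum (fun h => ?_) hb
  rw [norm_mul]
  exact mul_le_mul (hF _ _) (hF' _ _) (norm_nonneg _) (dom_nonneg hF _)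

theorem summable_rconv (hs : Summable s) (hF : Dom F s) (hs' : Summable s') (hF' : Dom F' s') :
    Summable fun w => ∑' h, s h * s' (h⁻¹ * w) :=
  (summable_rconv_prod hs hs' (dom_nonneg hF) (dom_nonneg hF')).prod

theorem tsum_rconv (hs : Summable s) (hF : Dom F s) (hs' : Summable s') (hF' : Dom F' s') :
    ∑' w, ∑' h, s h * s' (h⁻¹ * w) = (∑' g, s g) * ∑' g, s' g := by
  rw [← tsum_rconv_prod hs hs' (dom_nonneg hF) (dom_nonneg hF'),
    (summable_rconv_prod hs hs' (dom_nonneg hF) (dom_nonneg hF')).tsum_prod]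

theorem cconv_add (hs : Summable s) (hF : Dom F s) (hs' : Summable s') (hF' : Dom F' s')
    (hs'' : Summable s'') (hF'' : Dom F'' s'') :
    cconv F (F' + F'') = cconv F F' + cconv F F'' := by
  funext w x
  simp only [cconv, Pi.add_apply, mul_add]
  exact (summable_cconv_at hs hF hs' hF' w x).tsum_add (summable_cconv_at hs hF hs'' hF'' w x)

theorem add_cconv (hs : Summable s) (hF : Dom F s) (hs' : Summable s') (hF' : Dom F' s')
    (hs'' : Summable s'') (hF'' : Dom F'' s'') :
    cconv (F + F') F'' = cconv F F'' + cconv F' F'' := by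
  funext w x
  simp only [cconv, Pi.add_apply, add_mul]
  exact (summable_cconv_at hs hF hs'' hF'' w x).tsum_add (summable_cconv_at hs' hF' hs'' hF'' w x)

theorem cconv_assoc (hs : Summable s) (hF : Dom F s) (hs' : Summable s') (hF' : Dom F' s')
    (hs'' : Summable s'') (hF'' : Dom F'' s'') :
    cconv (cconv F F') F'' = cconv F (cconv F' F'') := by
  funext w x
  have hsum : Summable (Function.uncurry fun (k h : G) =>
      F k (act (k⁻¹ * w) x) * F' (k⁻¹ * h) (act (h⁻¹ * w) x) * F'' (h⁻¹ * w) x) := by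
    refine Summable.of_norm ?_
    have h1 : Summable fun p : G × G => s p.2 * s' (p.2⁻¹ * p.1) * ∑' y, s'' y :=
      (summable_rconv_prod hs hs' (dom_nonneg hF) (dom_nonneg hF')).mul_right _
    have h2 : Summable fun p : G × G => s p.1 * s' (p.1⁻¹ * p.2) * ∑' y, s'' y :=
      ((Equiv.prodComm G G).summable_iff (f := fun p : G × G =>
        s p.2 * s' (p.2⁻¹ * p.1) * ∑' y, s'' y)).mpr h1
    refine Summable.of_nonneg_of_le (fun _ => norm_nonneg _) (fun p => ?_) h2
    simp only [Function.uncurry, norm_mul]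
    have hc : ‖F'' (p.2⁻¹ * w) x‖ ≤ ∑' y, s'' y :=
      (hF'' _ _).trans (hs''.le_tsum _ (fun _ _ => dom_nonneg hF'' _))
    exact mul_le_mul (mul_le_mul (hF _ _) (hF' _ _) (norm_nonneg _) (dom_nonneg hF _)) hc
      (norm_nonneg _) (mul_nonneg (dom_nonneg hF _) (dom_nonneg hF' _))
  calc cconv (cconv F F') F'' w x
      = ∑' h, ∑' k, F k (act (k⁻¹ * w) x) * F' (k⁻¹ * h) (act (h⁻¹ * w) x) * F'' (h⁻¹ * w) x := by
        simp only [cconv, tsum_mul_right]
        refine tsum_congr fun h => ?_
        congr 1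
        refine tsum_congr fun k => ?_
        rw [← act_mul]
        simp [mul_assoc]
    _ = ∑' k, ∑' h, F k (act (k⁻¹ * w) x) * F' (k⁻¹ * h) (act (h⁻¹ * w) x) * F'' (h⁻¹ * w) x :=
        hsum.tsum_comm
    _ = ∑' k, F k (act (k⁻¹ * w) x) * ∑' h, F' (k⁻¹ * h) (act (h⁻¹ * w) x) * F'' (h⁻¹ * w) x := by
        simp only [mul_assoc, tsum_mul_left]
    _ = ∑' k, F k (act (k⁻¹ * w) x) * cconv F' F'' (k⁻¹ * w) x := by
        refine tsum_congr fun k => ?_
        congr 1
        unfold cconv
        have := (Equiv.mulLeft k).tsum_eq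
          (fun h => F' (k⁻¹ * h) (act (h⁻¹ * w) x) * F'' (h⁻¹ * w) x)
        rw [← this]
        refine tsum_congr fun m => ?_
        simp [mul_assoc]
    _ = cconv F (cconv F' F'') w x := rfl

theorem setSum_cconv_comm (hs : Summable s) (hF : Dom F s) (hs' : Summable s') (hF' : Dom F' s')
    {S : Set G} (hS : ∀ x h : G, h⁻¹ * x * h ∈ S ↔ x ∈ S) :
    setSum S (fun x => cconv F F' x x) = setSum S (fun x => cconv F' F x x) := by
  classical
  have key : ∀ (F F' : G → G → ℂ) (s s' : G → ℝ), Summable s → Dom F s → Summable s' →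
      Dom F' s' → setSum S (fun x => cconv F F' x x) = ∑' p : G × G,
        (if p.1 ∈ S then F p.2 (act (p.2⁻¹ * p.1) p.1) * F' (p.2⁻¹ * p.1) p.1 else 0) := by
    intro F F' s s' hs hF hs' hF'
    have hsum : Summable fun p : G × G =>
        (if p.1 ∈ S then F p.2 (act (p.2⁻¹ * p.1) p.1) * F' (p.2⁻¹ * p.1) p.1 else 0) := by
      refine Summable.of_norm ?_
      refine Summable.of_nonneg_of_le (fun _ => norm_nonneg _) (fun p => ?_)
        (summable_rconv_prod hs hs' (dom_nonneg hF) (dom_nonneg hF'))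
      by_cases hp : p.1 ∈ S
      · simp only [hp, if_true, norm_mul]
        exact mul_le_mul (hF _ _) (hF' _ _) (norm_nonneg _) (dom_nonneg hF _)
      · simp only [hp, if_false, norm_zero]
        exact mul_nonneg (dom_nonneg hF _) (dom_nonneg hF' _)
    rw [hsum.tsum_prod]
    unfold setSum
    refine tsum_congr fun x => ?_
    by_cases hx : x ∈ S <;> simp [hx, cconv]
  rw [key F F' s s' hs hF hs' hF', key F' F s' s hs' hF' hs hF]
  rw [← (conjShear G).tsum_eq (fun p : G × G =>
    (if p.1 ∈ S then F' p.2 (act (p.2⁻¹ * p.1) p.1) * F (p.2⁻¹ * p.1) p.1 else 0))]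
  refine tsum_congr fun p => ?_
  simp only [conjShear, Equiv.coe_fn_mk, hS]
  by_cases hp : p.1 ∈ S
  · simp only [hp, if_true]
    have e1 : (p.2⁻¹ * p.1)⁻¹ * (p.2⁻¹ * p.1 * p.2) = p.2 := by group
    have e2 : act p.2 (p.2⁻¹ * p.1 * p.2) = p.1 := by simp [act, mul_assoc]
    have e3 : act (p.2⁻¹ * p.1) p.1 = p.2⁻¹ * p.1 * p.2 := by simp [act, mul_assoc]
    rw [e1, e2, e3, mul_comm]
  · simp [hp]

end basic

end Vale.Agent.Lib.P184
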