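import Mathlib
import Vale.Agent.Lib.P184.Cross

/-!
The crossed product as a ring, its gauge and its traces, and the embedding of the
convolution ring twisted by a bounded multiplicative cocycle.
-/

namespace Vale.Agent.Lib.P184

open scoped BigOperators Topology

variable {G : Type*} [Group G]

/-- The additive group of functions `F u x` dominated by a summable function of `u`. -/
def cross (G : Type*) [Group G] : AddSubgroup (G → G → ℂ) where
  carrier := {F | ∃ s : G → ℝ, Summable s ∧ Dom F s}
  zero_mem' := ⟨0, summable_zero, fun u x => by simp⟩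
  add_mem' := by
    rintro F F' ⟨s, hs, hF⟩ ⟨s', hs', hF'⟩
    exact ⟨s + s', hs.add hs', fun u x =>
      (norm_add_le _ _).trans (add_le_add (hF u x) (hF' u x))⟩
  neg_mem' := by
    rintro F ⟨s, hs, hF⟩
    exact ⟨s, hs, fun u x => by simpa using hF u x⟩

/-- The least dominating function. -/
noncomputable def prof (F : G → G → ℂ) (u : G) : ℝ := ⨆ x, ‖F u x‖

theorem prof_nonneg (F : G → G → ℂ) (u : G) : 0 ≤ prof F u :=
  Real.iSup_nonneg fun _ => norm_nonneg _

theorem prof_le {F : G → G → ℂ} {s : G → ℝ} (hF : Dom F s) (u : G) : prof F u ≤ s u :=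
  Real.iSup_le (fun x => hF u x) (dom_nonneg hF u)

theorem le_prof {F : G → G → ℂ} {s : G → ℝ} (hF : Dom F s) (u x : G) : ‖F u x‖ ≤ prof F u :=
  le_ciSup (f := fun x => ‖F u x‖) ⟨s u, by rintro _ ⟨y, rfl⟩; exact hF u y⟩ x

theorem cross_dom (F : cross G) : Dom (F : G → G → ℂ) (prof (F : G → G → ℂ)) := by
  obtain ⟨s, _, hF⟩ := F.2
  exact fun u x => le_prof hF u x

theorem cross_summable (F : cross G) : Summable (prof (F : G → G → ℂ)) := by
  obtain ⟨s, hs, hF⟩ := F.2
  exact Summable.of_nonneg_of_le (prof_nonneg _) (prof_le hF) hs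

theorem diag_summable (F : cross G) : Summable fun x => ‖(F : G → G → ℂ) x x‖ :=
  Summable.of_nonneg_of_le (fun _ => norm_nonneg _) (fun x => cross_dom F x x) (cross_summable F)

noncomputable instance : Mul (cross G) :=
  ⟨fun F F' => ⟨cconv F.1 F'.1, fun w => ∑' h, prof F.1 h * prof F'.1 (h⁻¹ * w),
    summable_rconv (cross_summable F) (cross_dom F) (cross_summable F') (cross_dom F'),
    fun w x => norm_cconv_le (cross_summable F) (cross_dom F) (cross_summable F')
      (cross_dom F') w x⟩⟩

noncomputable instance : One (cross G) :=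
  ⟨⟨fun u _ => delta G u, fun u => ‖delta G u‖, summable_norm_delta, fun _ _ => le_refl _⟩⟩

theorem cross_coe_mul (F F' : cross G) :
    ((F * F' : cross G) : G → G → ℂ) = cconv (F : G → G → ℂ) (F' : G → G → ℂ) := rfl

theorem cross_coe_one : ((1 : cross G) : G → G → ℂ) = fun u _ => delta G u := rfl

theorem one_cconv (F : G → G → ℂ) : cconv (fun u _ => delta G u) F = F := by
  funext w x
  unfold cconv
  rw [tsum_eq_single 1 (fun b hb => by simp [delta_ne hb])]
  simp [delta_one]

theorem cconv_one (F : G → G → ℂ) : cconv F (fun u _ => delta G u) = F := by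
  funext w x
  unfold cconv
  rw [tsum_eq_single w (fun b hb => ?_)]
  · simp [delta_one, act_one]
  · have : b⁻¹ * w ≠ 1 := by
      intro h
      apply hb
      have := congrArg (fun z => b * z) h
      simpa using this.symm
    simp [delta_ne this]

noncomputable instance : Ring (cross G) :=
  { (inferInstance : AddCommGroup (cross G)), (inferInstance : Mul (cross G)),
    (inferInstance : One (cross G)) with
    left_distrib := fun a b c => Subtype.ext (by
      rw [cross_coe_mul]
      exact cconv_add (cross_summable a) (cross_dom a) (cross_summable b) (cross_dom b)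
        (cross_summable c) (cross_dom c))
    right_distrib := fun a b c => Subtype.ext (by
      rw [cross_coe_mul]
      exact add_cconv (cross_summable a) (cross_dom a) (cross_summable b) (cross_dom b)
        (cross_summable c) (cross_dom c))
    zero_mul := fun a => Subtype.ext (by
      rw [cross_coe_mul]
      funext w x
      simp [cconv])
    mul_zero := fun a => Subtype.ext (by
      rw [cross_coe_mul]
      funext w x
      simp [cconv])
    mul_assoc := fun a b c => Subtype.ext (by
      rw [cross_coe_mul, cross_coe_mul, cross_coe_mul, cross_coe_mul]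
      exact cconv_assoc (cross_summable a) (cross_dom a) (cross_summable b) (cross_dom b)
        (cross_summable c) (cross_dom c))
    one_mul := fun a => Subtype.ext (by
      rw [cross_coe_mul, cross_coe_one]
      exact one_cconv _)
    mul_one := fun a => Subtype.ext (by
      rw [cross_coe_mul, cross_coe_one]
      exact cconv_one _) }

/-- The gauge `∑ u, sup_x |F u x|` and the trace `∑_{x ∈ S} F x x` on the crossed product. -/
noncomputable def crossTrace (S : Set G) (hS : ∀ x h : G, h⁻¹ * x * h ∈ S ↔ x ∈ S) :
    GaugedTrace (cross G) where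
  N := fun F => ∑' u, prof (F : G → G → ℂ) u
  tr :=
    { toFun := fun F => setSum S (fun x => (F : G → G → ℂ) x x)
      map_zero' := by simp [setSum]
      map_add' := fun F F' => setSum_add (diag_summable F) (diag_summable F') S }
  N_nonneg := fun F => tsum_nonneg fun u => prof_nonneg _ u
  N_zero := by simp [prof]
  N_add := fun F F' => by
    rw [← (cross_summable F).tsum_add (cross_summable F')]
    refine (cross_summable (F + F')).tsum_le_tsum (fun u => ?_)
      ((cross_summable F).add (cross_summable F'))
    exact Real.iSup_le (fun x => (norm_add_le _ _).trans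
      (add_le_add (cross_dom F u x) (cross_dom F' u x)))
      (add_nonneg (prof_nonneg _ u) (prof_nonneg _ u))
  N_mul := fun F F' => by
    rw [← tsum_rconv (cross_summable F) (cross_dom F) (cross_summable F') (cross_dom F')]
    refine (cross_summable (F * F')).tsum_le_tsum (fun w => ?_)
      (summable_rconv (cross_summable F) (cross_dom F) (cross_summable F') (cross_dom F'))
    exact Real.iSup_le (fun x => norm_cconv_le (cross_summable F) (cross_dom F)
      (cross_summable F') (cross_dom F') w x)
      (tsum_nonneg fun h => mul_nonneg (prof_nonneg _ _) (prof_nonneg _ _))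
  tr_le := fun F => by
    refine (norm_setSum_le (diag_summable F) S).trans ?_
    exact (diag_summable F).tsum_le_tsum (fun x => cross_dom F x x) (cross_summable F)
  tr_comm := fun F F' => setSum_cconv_comm (cross_summable F) (cross_dom F)
    (cross_summable F') (cross_dom F') hS

/-- Embed the convolution ring into the crossed product, multiplying by a bounded
function of the group element and the point. -/
noncomputable def ctwist (χ : G → G → ℂ) (K : ℝ) (hK : ∀ u x, ‖χ u x‖ ≤ K) :
    l1 G →+ cross G where
  toFun := fun a => ⟨fun u x => (a : G → ℂ) u * χ u x, fun u => ‖(a : G → ℂ) u‖ * K,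
    a.2.mul_right K, fun u x => by
      rw [norm_mul]
      exact mul_le_mul_of_nonneg_left (hK u x) (norm_nonneg _)⟩
  map_zero' := Subtype.ext (by funext u x; simp)
  map_add' := fun a b => Subtype.ext (by funext u x; simp [add_mul])

theorem ctwist_apply (χ : G → G → ℂ) (K : ℝ) (hK : ∀ u x, ‖χ u x‖ ≤ K) (a : l1 G) (u x : G) :
    ((ctwist χ K hK a : cross G) : G → G → ℂ) u x = (a : G → ℂ) u * χ u x := rfl

theorem ctwist_mul (χ : G → G → ℂ) (K : ℝ) (hK : ∀ u x, ‖χ u x‖ ≤ K)
    (hχ : ∀ h v x, χ (h * v) x = χ h (v * x * v⁻¹) * χ v x) (a b : l1 G) :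
    ctwist χ K hK (a * b) = ctwist χ K hK a * ctwist χ K hK b := by
  refine Subtype.ext (funext fun w => funext fun x => ?_)
  rw [cross_coe_mul, ctwist_apply, l1_coe_mul]
  unfold cconv conv
  rw [← tsum_mul_right]
  refine tsum_congr fun h => ?_
  rw [ctwist_apply, ctwist_apply]
  have h1 : χ w x = χ h (act (h⁻¹ * w) x) * χ (h⁻¹ * w) x := by
    have := hχ h (h⁻¹ * w) x
    rw [mul_inv_cancel_left] at this
    exact this
  rw [h1]
  ring

theorem map_idem_of_mul {R R' : Type*} [Ring R] [Ring R'] {ι : Type*} [Fintype ι]
    [DecidableEq ι] (Θ : R →+ R') (hΘ : ∀ a b, Θ (a * b) = Θ a * Θ b)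
    (E : Matrix ι ι R) (hE : E * E = E) : E.map Θ * E.map Θ = E.map Θ := by
  refine Matrix.ext fun i j => ?_
  rw [Matrix.mul_apply]
  simp only [Matrix.map_apply]
  conv_rhs => rw [← hE, Matrix.mul_apply, map_sum]
  exact Finset.sum_congr rfl fun j' _ => (hΘ _ _).symm

end Vale.Agent.Lib.P184
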