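import Mathlib
import Vale.Agent.Lib.P184.CrossRing

/-!
Vanishing of the trace on a conjugation invariant set `S` of an idempotent matrix
over the convolution ring, in the presence of a real cocycle `κ u x` on the
conjugation action which is bounded in `x` for each `u` and takes a nonzero
constant value at the pairs `(x, x)` with `x` in `S`.
-/

namespace Vale.Agent.Lib.P184

open scoped BigOperators Topology

variable {G : Type*} [Group G]

/-- The unimodular function `exp (i t κ)`. -/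
noncomputable def expc (κ : G → G → ℝ) (t : ℝ) : G → G → ℂ :=
  fun u x => Complex.exp ((t * κ u x : ℝ) * Complex.I)

omit [Group G] in
theorem norm_expc (κ : G → G → ℝ) (t : ℝ) (u x : G) : ‖expc κ t u x‖ ≤ 1 := by
  rw [expc, Complex.norm_exp_ofReal_mul_I]

theorem expc_mul (κ : G → G → ℝ) (h1 : ∀ h v x, κ (h * v) x = κ h (v * x * v⁻¹) + κ v x)
    (t : ℝ) (h v x : G) :
    expc κ t (h * v) x = expc κ t h (v * x * v⁻¹) * expc κ t v x := by
  simp only [expc]
  rw [← Complex.exp_add, h1]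
  congr 1
  push_cast
  ring

omit [Group G] in
theorem norm_expc_sub_le (κ : G → G → ℝ) (t s : ℝ) (u x : G) :
    ‖expc κ t u x - expc κ s u x‖ ≤ |t - s| * |κ u x| := by
  have h : expc κ t u x - expc κ s u x
      = expc κ s u x * (Complex.exp (Complex.I * ((t - s) * κ u x : ℝ)) - 1) := by
    simp only [expc]
    rw [mul_sub, mul_one, ← Complex.exp_add]
    congr 2
    push_cast
    ring
  rw [h, norm_mul]
  have h1 : ‖expc κ s u x‖ = 1 := by rw [expc, Complex.norm_exp_ofReal_mul_I]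
  rw [h1, one_mul]
  refine (Real.norm_exp_I_mul_ofReal_sub_one_le).trans ?_
  rw [Real.norm_eq_abs, abs_mul]

section core

variable {ι : Type*} [Fintype ι] [DecidableEq ι]

/-- The family of twisted matrices over the crossed product. -/
noncomputable def ctwisted (e : ι → ι → G → ℂ) (hsum : ∀ i j, Summable fun g => ‖e i j g‖)
    (κ : G → G → ℝ) (t : ℝ) : Matrix ι ι (cross G) :=
  (toMat e hsum).map (ctwist (expc κ t) 1 (norm_expc κ t))

omit [Fintype ι] [DecidableEq ι] in
theorem ctwisted_sub_apply (e : ι → ι → G → ℂ) (hsum : ∀ i j, Summable fun g => ‖e i j g‖)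
    (κ : G → G → ℝ) (t t0 : ℝ) (i j : ι) (u x : G) :
    (((ctwisted e hsum κ t - ctwisted e hsum κ t0) i j : cross G) : G → G → ℂ) u x
      = e i j u * expc κ t u x - e i j u * expc κ t0 u x := rfl

theorem ctwisted_gauge_tendsto (e : ι → ι → G → ℂ)
    (hsum : ∀ i j, Summable fun g => ‖e i j g‖) (κ : G → G → ℝ)
    (h2 : ∀ u, ∃ M, ∀ x, |κ u x| ≤ M)
    (S : Set G) (hS : ∀ x h : G, h⁻¹ * x * h ∈ S ↔ x ∈ S) (t0 : ℝ) :
    Filter.Tendsto (fun t => ((crossTrace S hS).matrix ι).N
      (ctwisted e hsum κ t - ctwisted e hsum κ t0)) (𝓝 t0) (𝓝 0) := by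
  change Filter.Tendsto (fun t => ∑ i, ∑ j, ∑' u,
    prof (((ctwisted e hsum κ t - ctwisted e hsum κ t0) i j : cross G) : G → G → ℂ) u)
    (𝓝 t0) (𝓝 0)
  have h0 : (0 : ℝ) = ∑ _i : ι, ∑ _j : ι, (0 : ℝ) := by simp
  rw [h0]
  refine tendsto_finsetSum _ fun i _ => tendsto_finsetSum _ fun j _ => ?_
  have h00 : (0 : ℝ) = ∑' _g : G, (0 : ℝ) := by simp
  rw [h00]
  refine tendsto_tsum_of_dominated_convergence (bound := fun u => ‖e i j u‖ * 2)
    ((hsum i j).mul_right _) (fun u => ?_) (Filter.Eventually.of_forall fun t u => ?_)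
  · obtain ⟨M, hM⟩ := h2 u
    have hbound : ∀ t, prof (((ctwisted e hsum κ t - ctwisted e hsum κ t0) i j : cross G) :
        G → G → ℂ) u ≤ ‖e i j u‖ * (|t - t0| * |M|) := by
      intro t
      refine Real.iSup_le (fun x => ?_) (by positivity)
      rw [ctwisted_sub_apply, ← mul_sub, norm_mul]
      refine mul_le_mul_of_nonneg_left ?_ (norm_nonneg _)
      refine (norm_expc_sub_le κ t t0 u x).trans ?_
      exact mul_le_mul_of_nonneg_left ((hM x).trans (le_abs_self M)) (abs_nonneg _)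
    have hlim : Filter.Tendsto (fun t : ℝ => ‖e i j u‖ * (|t - t0| * |M|)) (𝓝 t0) (𝓝 0) := by
      have hc : Continuous fun t : ℝ => ‖e i j u‖ * (|t - t0| * |M|) := by fun_prop
      exact hc.tendsto' t0 0 (by simp)
    exact squeeze_zero (fun t => prof_nonneg _ _) hbound hlim
  · rw [Real.norm_of_nonneg (prof_nonneg _ _)]
    refine Real.iSup_le (fun x => ?_) (by positivity)
    rw [ctwisted_sub_apply, ← mul_sub, norm_mul]
    refine mul_le_mul_of_nonneg_left ?_ (norm_nonneg _)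
    calc ‖expc κ t u x - expc κ t0 u x‖ ≤ ‖expc κ t u x‖ + ‖expc κ t0 u x‖ := norm_sub_le _ _
      _ ≤ 1 + 1 := add_le_add (norm_expc _ _ _ _) (norm_expc _ _ _ _)
      _ = 2 := by norm_num

theorem ctwisted_idem (e : ι → ι → G → ℂ) (hsum : ∀ i j, Summable fun g => ‖e i j g‖)
    (hidem : ∀ i k g, ∑ j, ∑' h, e i j h * e j k (h⁻¹ * g) = e i k g) (κ : G → G → ℝ)
    (h1 : ∀ h v x, κ (h * v) x = κ h (v * x * v⁻¹) + κ v x) (t : ℝ) :
    ctwisted e hsum κ t * ctwisted e hsum κ t = ctwisted e hsum κ t :=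
  map_idem_of_mul _ (ctwist_mul (expc κ t) 1 (norm_expc κ t) (expc_mul κ h1 t)) _
    (toMat_idem e hsum hidem)

theorem ctwisted_tr (e : ι → ι → G → ℂ) (hsum : ∀ i j, Summable fun g => ‖e i j g‖)
    (κ : G → G → ℝ) (S : Set G) (hS : ∀ x h : G, h⁻¹ * x * h ∈ S ↔ x ∈ S)
    (r : ℝ) (h3 : ∀ x ∈ S, κ x x = r) (t : ℝ) :
    ((crossTrace S hS).matrix ι).tr (ctwisted e hsum κ t)
      = (∑' x : S, ∑ i, e i i (x : G)) * Complex.exp ((t * r : ℝ) * Complex.I) := by
  change ∑ i, setSum S (fun x => e i i x * expc κ t x x) = _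
  have h1 : ∀ i, setSum S (fun x => e i i x * expc κ t x x)
      = ∑' x : S, e i i (x : G) * expc κ t (x : G) (x : G) := fun i => (tsum_subtype S _).symm
  simp only [h1]
  have hs : ∀ i, Summable fun x : S => e i i (x : G) * expc κ t (x : G) (x : G) := fun i =>
    (Summable.of_norm (summable_norm_mul_bdd (hsum i i)
      (fun g => norm_expc κ t g g))).subtype S
  rw [← Summable.tsum_finsetSum fun i _ => hs i, ← tsum_mul_right]
  refine tsum_congr fun x => ?_
  rw [Finset.sum_mul]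
  refine Finset.sum_congr rfl fun i _ => ?_
  simp only [expc, h3 x x.2]

/-- Vanishing from a cocycle. -/
theorem core_cocycle (e : ι → ι → G → ℂ) (hsum : ∀ i j, Summable fun g => ‖e i j g‖)
    (hidem : ∀ i k g, ∑ j, ∑' h, e i j h * e j k (h⁻¹ * g) = e i k g)
    (S : Set G) (hS : ∀ x h : G, h⁻¹ * x * h ∈ S ↔ x ∈ S) (κ : G → G → ℝ)
    (h1 : ∀ h v x, κ (h * v) x = κ h (v * x * v⁻¹) + κ v x)
    (h2 : ∀ u, ∃ M, ∀ x, |κ u x| ≤ M)
    (r : ℝ) (hr : r ≠ 0) (h3 : ∀ x ∈ S, κ x x = r) :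
    ∑' x : S, ∑ i, e i i (x : G) = 0 := by
  set T := (crossTrace S hS).matrix ι with hT
  have hloc : IsLocallyConstant fun t => T.tr (ctwisted e hsum κ t) := by
    rw [IsLocallyConstant.iff_eventually_eq]
    intro t0
    have h := (ctwisted_gauge_tendsto e hsum κ h2 S hS t0).eventually
      (Iio_mem_nhds zero_lt_one)
    filter_upwards [h] with t ht
    exact T.tr_eq_of_idem (ctwisted_idem e hsum hidem κ h1 t0)
      (ctwisted_idem e hsum hidem κ h1 t) ht
  have := hloc.apply_eq_of_preconnectedSpace (Real.pi / r) 0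
  rw [hT, ctwisted_tr e hsum κ S hS r h3, ctwisted_tr e hsum κ S hS r h3] at this
  have hpi : ((Real.pi / r * r : ℝ) : ℂ) = Real.pi := by rw [div_mul_cancel₀ _ hr]
  rw [hpi, Complex.exp_pi_mul_I] at this
  simp only [zero_mul, Complex.ofReal_zero, Complex.exp_zero] at this
  have h2' : (2 : ℂ) * ∑' x : S, ∑ i, e i i (x : G) = 0 := by linear_combination -this
  simpa using h2'

end core

end Vale.Agent.Lib.P184
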