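import Mathlib
import Vale.Agent.Lib.P184.Twist

/-!
Vanishing of Hattori-Stallings trace coefficients of idempotent matrices over the
convolution ring of absolutely summable functions on a group, at conjugacy
classes that are moved by a continuous family of unitary representations, and in
particular at classes of infinite order in the abelianization.
-/

namespace Vale.Agent.Lib.P184

open scoped BigOperators Topology

variable {G : Type*} [Group G]

theorem conjClass_invariant (g : G) (x h : G) :
    h⁻¹ * x * h ∈ (ConjClasses.mk g).carrier ↔ x ∈ (ConjClasses.mk g).carrier := by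
  rw [ConjClasses.mem_carrier_iff_mk_eq, ConjClasses.mem_carrier_iff_mk_eq]
  have : ConjClasses.mk (h⁻¹ * x * h) = ConjClasses.mk x := by
    rw [ConjClasses.mk_eq_mk_iff_isConj, isConj_iff]
    exact ⟨h, by group⟩
  rw [this]

theorem exists_conj_of_mem_carrier {g x : G} (hx : x ∈ (ConjClasses.mk g).carrier) :
    ∃ c : G, c * x * c⁻¹ = g := by
  rw [ConjClasses.mem_carrier_iff_mk_eq, ConjClasses.mk_eq_mk_iff_isConj, isConj_iff] at hx
  exact hx

/-- Vanishing along a continuous family of finite-dimensional unitary representations. -/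
theorem unitary_path_vanishing (q n : ℕ) (e : Fin q → Fin q → G → ℂ)
    (hsum : ∀ i j, Summable fun g => ‖e i j g‖)
    (hidem : ∀ i k g, ∑ j, ∑' h, e i j h * e j k (h⁻¹ * g) = e i k g)
    (ρ : ℝ → G →* Matrix.unitaryGroup (Fin n) ℂ)
    (hρ : ∀ x : G, Continuous fun t => (ρ t x : Matrix (Fin n) (Fin n) ℂ))
    (g : G) (s t : ℝ)
    (hg : Matrix.trace (ρ s g : Matrix (Fin n) (Fin n) ℂ)
      ≠ Matrix.trace (ρ t g : Matrix (Fin n) (Fin n) ℂ)) :
    ∑' x : (ConjClasses.mk g).carrier, ∑ i, e i i (x : G) = 0 := by
  have hχ : ∀ t, ∀ x ∈ (ConjClasses.mk g).carrier,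
      Matrix.trace (ρ t x : Matrix (Fin n) (Fin n) ℂ)
        = Matrix.trace (ρ t g : Matrix (Fin n) (Fin n) ℂ) := by
    intro t x hx
    obtain ⟨c, rfl⟩ := exists_conj_of_mem_carrier hx
    have h1 : ρ t (c * x * c⁻¹) = ρ t c * ρ t x * (ρ t c)⁻¹ := by simp
    rw [h1, Submonoid.coe_mul, Matrix.trace_mul_comm, ← Submonoid.coe_mul, inv_mul_cancel_left]
  have h := core (X := ℝ) e hsum hidem (fun t x => (ρ t x : Matrix (Fin n) (Fin n) ℂ))
    (fun t x y => by simp) 1
    (fun t x k l => entry_norm_bound_of_unitary (ρ t x).2 k l)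
    (fun x k l => (hρ x).matrix_elem k l)
    (ConjClasses.mk g).carrier (conjClass_invariant g)
    (fun t => Matrix.trace (ρ t g : Matrix (Fin n) (Fin n) ℂ)) hχ s t
  by_contra hne
  exact hg (mul_left_cancel₀ hne h)

/-- A real-valued additive character detecting an element of infinite order in the
abelianization. -/
theorem exists_real_character {g : G} (hg : ¬ IsOfFinOrder (Abelianization.of g)) :
    ∃ φ : G → ℝ, (∀ x y, φ (x * y) = φ x + φ y) ∧ φ g = 1 := by
  set a : Abelianization G := Abelianization.of g with ha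
  let f : ℤ →+ Additive (Abelianization G) := zmultiplesHom _ (Additive.ofMul a)
  have hf : Function.Injective f := by
    intro n m hnm
    have h1 : a ^ n = a ^ m := by
      have := congrArg Additive.toMul hnm
      simpa [f] using this
    exact (injective_zpow_iff_not_isOfFinOrder.mpr hg) h1
  obtain ⟨h, hh⟩ := (Module.Baer.of_divisible ℝ).extension_property_addMonoidHom f hf
    (Int.castAddHom ℝ)
  refine ⟨fun x => h (Additive.ofMul (Abelianization.of x)), fun x y => ?_, ?_⟩
  · simp
  · have := congrArg (fun F : ℤ →+ ℝ => F 1) hh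
    simpa [f, ha] using this

/-- Vanishing at classes of infinite order in the abelianization. -/
theorem abelianization_vanishing (q : ℕ) (e : Fin q → Fin q → G → ℂ)
    (hsum : ∀ i j, Summable fun g => ‖e i j g‖)
    (hidem : ∀ i k g, ∑ j, ∑' h, e i j h * e j k (h⁻¹ * g) = e i k g)
    (g : G) (hg : ¬ IsOfFinOrder (Abelianization.of g)) :
    ∑' x : (ConjClasses.mk g).carrier, ∑ i, e i i (x : G) = 0 := by
  obtain ⟨φ, hφmul, hφg⟩ := exists_real_character hg
  have hφconj : ∀ x ∈ (ConjClasses.mk g).carrier, φ x = 1 := by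
    intro x hx
    obtain ⟨c, hc⟩ := exists_conj_of_mem_carrier hx
    have h1 : φ 1 = 0 := by
      have := hφmul 1 1
      simp at this
      exact this
    have h2 : φ c + φ c⁻¹ = 0 := by rw [← hφmul, mul_inv_cancel, h1]
    have h3 : φ g = φ c + φ x + φ c⁻¹ := by rw [← hc, hφmul, hφmul]
    rw [hφg] at h3
    linarith
  have h := core (X := ℝ) (κ := Unit) e hsum hidem
    (fun t x => Matrix.of fun _ _ => Complex.exp ((t * φ x : ℝ) * Complex.I))
    (fun t x y => by
      ext i j
      simp only [Matrix.mul_apply, Matrix.of_apply, Finset.univ_unique, Finset.sum_singleton]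
      rw [← Complex.exp_add, hφmul]
      congr 1
      push_cast
      ring) 1
    (fun t x k l => by
      simp only [Matrix.of_apply]
      rw [Complex.norm_exp_ofReal_mul_I])
    (fun x k l => by
      simp only [Matrix.of_apply]
      fun_prop)
    (ConjClasses.mk g).carrier (conjClass_invariant g)
    (fun t => Complex.exp ((t : ℝ) * Complex.I))
    (fun t x hx => by
      simp [Matrix.trace, hφconj x hx]) Real.pi 0
  simp only [Complex.exp_pi_mul_I, Complex.ofReal_zero, zero_mul, Complex.exp_zero] at h
  have h2 : (2 : ℂ) * ∑' x : (ConjClasses.mk g).carrier, ∑ i, e i i (x : G) = 0 := by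
    linear_combination -h
  simpa using h2

end Vale.Agent.Lib.P184
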