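import Mathlib
import Vale.Agent.Lib.P184.Cocycle
import Vale.Agent.Lib.P184.Main

/-!
From an additive real function `φ` on the centralizer of `g`, dominated there by a
subadditive function `L` on the whole group, to a cocycle on the conjugacy class
of `g` that is bounded in the point variable, and the resulting vanishing theorem.
-/

namespace Vale.Agent.Lib.P184

open scoped BigOperators Topology

variable {G : Type*} [Group G]

section psi

variable (g : G) (φ L : G → ℝ)

/-- The infimum of `L (w z) - φ z` over the centralizer of `g`. -/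
noncomputable def psi (w : G) : ℝ := ⨅ z : {z : G // Commute z g}, (L (w * z) - φ z)

variable {g φ L}
variable (hφ : ∀ z z' : G, Commute z g → Commute z' g → φ (z * z') = φ z + φ z')
variable (hL : ∀ x y : G, L (x * y) ≤ L x + L y)
variable (hφL : ∀ z : G, Commute z g → |φ z| ≤ L z)

include hL hφL in
theorem psi_bdd (w : G) :
    BddBelow (Set.range fun z : {z : G // Commute z g} => L (w * z) - φ z) := by
  refine ⟨-L w⁻¹, ?_⟩
  rintro _ ⟨z, rfl⟩
  have h1 : L (z : G) ≤ L w⁻¹ + L (w * z) := by
    have := hL w⁻¹ (w * z)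
    rwa [inv_mul_cancel_left] at this
  have h2 : φ (z : G) ≤ L (z : G) := (le_abs_self _).trans (hφL z z.2)
  show -L w⁻¹ ≤ L (w * z) - φ z
  linarith

include hφ hL hφL in
theorem psi_mul_right (w z' : G) (hz' : Commute z' g) :
    psi g φ L (w * z') = psi g φ L w + φ z' := by
  let E : {z : G // Commute z g} ≃ {z : G // Commute z g} :=
    { toFun := fun z => ⟨z' * z, hz'.mul_left z.2⟩
      invFun := fun z => ⟨z'⁻¹ * z, hz'.inv_left.mul_left z.2⟩
      left_inv := fun z => Subtype.ext (by simp)
      right_inv := fun z => Subtype.ext (by simp) }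
  have h1 : psi g φ L (w * z')
      = ⨅ z : {z : G // Commute z g}, (L (w * ((E z : {z : G // Commute z g}) : G))
        - φ ((E z : {z : G // Commute z g}) : G) + φ z') := by
    unfold psi
    refine iInf_congr fun z => ?_
    show L (w * z' * z) - φ z = L (w * (z' * z)) - φ (z' * z) + φ z'
    rw [hφ z' z hz' z.2, mul_assoc]
    ring
  haveI : Nonempty {z : G // Commute z g} := ⟨⟨1, Commute.one_left g⟩⟩
  rw [h1, E.iInf_comp (g := fun z : {z : G // Commute z g} => L (w * z) - φ z + φ z')]
  unfold psi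
  rw [ciInf_add (psi_bdd hL hφL w)]

include hL hφL in
theorem psi_le (u w : G) : psi g φ L (u * w) ≤ L u + psi g φ L w := by
  haveI : Nonempty {z : G // Commute z g} := ⟨⟨1, Commute.one_left g⟩⟩
  have h : psi g φ L (u * w) - L u ≤ psi g φ L w := by
    refine le_ciInf fun z => ?_
    have h1 : psi g φ L (u * w) ≤ L (u * w * z) - φ z := ciInf_le (psi_bdd hL hφL (u * w)) z
    have h2 : L (u * w * z) ≤ L u + L (w * z) := by
      rw [mul_assoc]
      exact hL u (w * z)
    linarith
  linarith

include hL hφL in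
theorem abs_psi_sub_le (u w : G) :
    |psi g φ L (u * w) - psi g φ L w| ≤ |L u| + |L u⁻¹| := by
  have h1 := psi_le hL hφL u w
  have h2 := psi_le hL hφL u⁻¹ (u * w)
  rw [inv_mul_cancel_left] at h2
  rw [abs_le]
  constructor
  · have := le_abs_self (L u⁻¹)
    have := abs_nonneg (L u)
    linarith
  · have := le_abs_self (L u)
    have := abs_nonneg (L u⁻¹)
    linarith

end psi

section kap

variable (g : G) (φ L : G → ℝ)

/-- A conjugator from `g` to each element of its class. -/
noncomputable def sec (x : G) : G := Classical.epsilon fun w : G => w * g * w⁻¹ = x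

theorem sec_spec {x : G} (hx : x ∈ (ConjClasses.mk g).carrier) :
    sec g x * g * (sec g x)⁻¹ = x := by
  obtain ⟨c, hc⟩ := exists_conj_of_mem_carrier hx
  have hex : ∃ w : G, w * g * w⁻¹ = x := ⟨c⁻¹, by rw [← hc]; group⟩
  exact Classical.epsilon_spec hex

/-- The cocycle on the class of `g`. -/
noncomputable def kap (u x : G) : ℝ :=
  Set.indicator (ConjClasses.mk g).carrier
    (fun y => psi g φ L (u * sec g y) - psi g φ L (sec g y)) x

theorem kap_of_mem (u : G) {x : G} (hx : x ∈ (ConjClasses.mk g).carrier) :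
    kap g φ L u x = psi g φ L (u * sec g x) - psi g φ L (sec g x) := by
  simp [kap, hx]

theorem kap_of_notMem (u : G) {x : G} (hx : ¬ x ∈ (ConjClasses.mk g).carrier) :
    kap g φ L u x = 0 := by
  simp [kap, hx]

variable {g φ L}
variable (hφ : ∀ z z' : G, Commute z g → Commute z' g → φ (z * z') = φ z + φ z')
variable (hL : ∀ x y : G, L (x * y) ≤ L x + L y)
variable (hφL : ∀ z : G, Commute z g → |φ z| ≤ L z)

include hφ hL hφL in
theorem kap_cocycle (h v x : G) :
    kap g φ L (h * v) x = kap g φ L h (v * x * v⁻¹) + kap g φ L v x := by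
  have hinv : v * x * v⁻¹ ∈ (ConjClasses.mk g).carrier ↔ x ∈ (ConjClasses.mk g).carrier := by
    have := conjClass_invariant g x v⁻¹
    rwa [inv_inv] at this
  by_cases hx : x ∈ (ConjClasses.mk g).carrier
  · have hx' := hinv.mpr hx
    rw [kap_of_mem g φ L _ hx, kap_of_mem g φ L _ hx', kap_of_mem g φ L _ hx]
    set w := sec g x with hw
    set w' := sec g (v * x * v⁻¹) with hw'
    have e1 : w * g * w⁻¹ = x := sec_spec g hx
    have e2 : w' * g * w'⁻¹ = v * x * v⁻¹ := sec_spec g hx'
    have hz : Commute (w'⁻¹ * v * w) g := by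
      have hg1 : g = w⁻¹ * x * w := by rw [← e1]; group
      have hx1 : v * x * v⁻¹ = w' * g * w'⁻¹ := e2.symm
      have hx2 : x = v⁻¹ * (w' * g * w'⁻¹) * v := by rw [← hx1]; group
      unfold Commute SemiconjBy
      have : w'⁻¹ * v * w * g = g * (w'⁻¹ * v * w) := by
        have h3 : w * g = x * w := by rw [← e1]; group
        calc w'⁻¹ * v * w * g = w'⁻¹ * v * (w * g) := by group
          _ = w'⁻¹ * v * (x * w) := by rw [h3]
          _ = w'⁻¹ * (v * x * v⁻¹) * v * w := by group
          _ = w'⁻¹ * (w' * g * w'⁻¹) * v * w := by rw [e2]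
          _ = g * (w'⁻¹ * v * w) := by group
      exact this
    have e3 : v * w = w' * (w'⁻¹ * v * w) := by group
    have e4 : h * v * w = h * w' * (w'⁻¹ * v * w) := by group
    rw [e4, psi_mul_right hφ hL hφL _ _ hz, e3, psi_mul_right hφ hL hφL _ _ hz]
    ring
  · have hx' : ¬ v * x * v⁻¹ ∈ (ConjClasses.mk g).carrier := fun h' => hx (hinv.mp h')
    rw [kap_of_notMem g φ L _ hx, kap_of_notMem g φ L _ hx', kap_of_notMem g φ L _ hx]
    simp

include hL hφL in
theorem kap_bdd (u : G) : ∃ M, ∀ x, |kap g φ L u x| ≤ M := by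
  refine ⟨|L u| + |L u⁻¹|, fun x => ?_⟩
  by_cases hx : x ∈ (ConjClasses.mk g).carrier
  · rw [kap_of_mem g φ L _ hx]
    exact abs_psi_sub_le hL hφL u _
  · rw [kap_of_notMem g φ L _ hx, abs_zero]
    positivity

include hφ hL hφL in
theorem kap_diag (x : G) (hx : x ∈ (ConjClasses.mk g).carrier) : kap g φ L x x = φ g := by
  rw [kap_of_mem g φ L _ hx]
  have e1 : sec g x * g * (sec g x)⁻¹ = x := sec_spec g hx
  have e2 : x * sec g x = sec g x * g := by
    nth_rewrite 1 [← e1]
    group
  rw [e2, psi_mul_right hφ hL hφL _ _ (Commute.refl g)]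
  ring

end kap

/-- Vanishing at the class of an element `g` whose centralizer carries an additive
real function `φ` with `φ g ≠ 0` dominated by a subadditive function on the group. -/
theorem undistorted_vanishing (q : ℕ) (e : Fin q → Fin q → G → ℂ)
    (hsum : ∀ i j, Summable fun g => ‖e i j g‖)
    (hidem : ∀ i k g, ∑ j, ∑' h, e i j h * e j k (h⁻¹ * g) = e i k g)
    (g : G) (φ L : G → ℝ)
    (hφ : ∀ z z' : G, Commute z g → Commute z' g → φ (z * z') = φ z + φ z')
    (hL : ∀ x y : G, L (x * y) ≤ L x + L y)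
    (hφL : ∀ z : G, Commute z g → |φ z| ≤ L z)
    (hg : φ g ≠ 0) :
    ∑' x : (ConjClasses.mk g).carrier, ∑ i, e i i (x : G) = 0 :=
  core_cocycle e hsum hidem _ (conjClass_invariant g) (kap g φ L)
    (kap_cocycle hφ hL hφL) (kap_bdd hL hφL) (φ g) hg (kap_diag hφ hL hφL)

end Vale.Agent.Lib.P184
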