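import Mathlib
import Vale.Agent.Lib.P184.Undistorted
import Vale.Agent.Lib.P184.EigComp

/-!
Vanishing of the trace coefficient at an element of a linear group having an eigenvalue
whose absolute value is not one.
-/

namespace Vale.Agent.Lib.P184

open scoped BigOperators

theorem linear_vanishing {G : Type*} [Group G] (q : ℕ) (e : Fin q → Fin q → G → ℂ)
    (hsum : ∀ i j, Summable fun g => ‖e i j g‖)
    (hidem : ∀ i k g, ∑ j, ∑' h, e i j h * e j k (h⁻¹ * g) = e i k g)
    {K : Type*} [Field K] (v : AbsoluteValue K ℝ) {n : ℕ}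
    (ρ : G →* GL (Fin n) K) (g : G) (lam : K) (w : Fin n → K) (hw : w ≠ 0)
    (hev : (ρ g : Matrix (Fin n) (Fin n) K).mulVec w = lam • w) (hlam : v lam ≠ 1) :
    ∑' x : (ConjClasses.mk g).carrier, ∑ i, e i i (x : G) = 0 := by
  classical
  set A : Matrix (Fin n) (Fin n) K := (ρ g : Matrix (Fin n) (Fin n) K) with hA
  set r := eigDim A lam with hr
  have hrpos : 0 < r := eigDim_pos A lam hw hev
  obtain ⟨c, hc0, hc⟩ := comp_bound A lam v
  set M : G → Matrix (Fin n) (Fin n) K := fun z => (ρ z : Matrix (Fin n) (Fin n) K) with hM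
  have hMmul : ∀ x y, M (x * y) = M x * M y := by
    intro x y
    simp [hM]
  have hMone : M 1 = 1 := by simp [hM]
  have hpres : ∀ z : G, Commute z g → ∀ x ∈ eigSub A lam, (M z).mulVec x ∈ eigSub A lam := by
    intro z hz
    apply preserve_of_commute
    have h1 : A = M g := rfl
    rw [h1, ← hMmul, ← hMmul, hz.eq]
  set t : G → ℝ := fun z => v (comp A lam (M z)).det with ht
  have htmul : ∀ z z', Commute z' g → t (z * z') = t z * t z' := by
    intro z z' hz'
    simp only [ht]
    rw [hMmul, comp_mul A lam _ _ (hpres z' hz'), Matrix.det_mul, v.map_mul]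
  have htone : t 1 = 1 := by
    simp only [ht]
    rw [hMone, comp_one, Matrix.det_one, v.map_one]
  have htinv : ∀ z, Commute z g → t z * t z⁻¹ = 1 := by
    intro z hz
    rw [← htmul z z⁻¹ hz.inv_left, mul_inv_cancel, htone]
  have htpos : ∀ z, Commute z g → 0 < t z := by
    intro z hz
    have h1 : t z ≠ 0 := fun h => by
      have h2 := htinv z hz
      rw [h, zero_mul] at h2
      exact zero_ne_one h2
    exact lt_of_le_of_ne (v.nonneg _) (Ne.symm h1)
  set c₀ : ℝ := Real.log r.factorial + r * Real.posLog c with hc₀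
  have hc₀nn : 0 ≤ c₀ := by
    have h1 : 0 ≤ Real.log (r.factorial : ℝ) :=
      Real.log_nonneg (by exact_mod_cast Nat.one_le_iff_ne_zero.mpr (Nat.factorial_ne_zero r))
    have h2 : 0 ≤ (r : ℝ) * Real.posLog c := mul_nonneg (Nat.cast_nonneg r) Real.posLog_nonneg
    rw [hc₀]
    exact add_nonneg h1 h2
  have htle : ∀ z, Real.log (t z) ≤ c₀ + r * Real.posLog (mnorm v (M z)) := by
    intro z
    have h1 : t z ≤ r.factorial * (c * mnorm v (M z)) ^ r :=
      abv_det_le v _ _ (fun i j => hc (M z) i j)
    calc Real.log (t z) ≤ Real.posLog (t z) := by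
          rw [Real.posLog_apply]
          exact le_max_right _ _
      _ ≤ Real.posLog (r.factorial * (c * mnorm v (M z)) ^ r) :=
          Real.posLog_le_posLog (v.nonneg _) h1
      _ ≤ Real.log r.factorial + Real.posLog ((c * mnorm v (M z)) ^ r) := Real.posLog_nat_mul
      _ = Real.log r.factorial + r * Real.posLog (c * mnorm v (M z)) := by
          rw [Real.posLog_pow]
      _ ≤ Real.log r.factorial + r * (Real.posLog c + Real.posLog (mnorm v (M z))) := by
          have h3 : (r : ℝ) * Real.posLog (c * mnorm v (M z)) ≤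
              r * (Real.posLog c + Real.posLog (mnorm v (M z))) :=
            mul_le_mul_of_nonneg_left Real.posLog_mul (Nat.cast_nonneg r)
          linarith
      _ = c₀ + r * Real.posLog (mnorm v (M z)) := by
          rw [hc₀]
          ring
  have hpl : ∀ x y : G, Real.posLog (mnorm v (M (x * y))) ≤
      Real.posLog (mnorm v (M x)) + Real.posLog (mnorm v (M y)) := by
    intro x y
    rw [hMmul]
    exact (Real.posLog_le_posLog (mnorm_nonneg v _) (mnorm_mul_le v _ _)).trans Real.posLog_mul
  refine undistorted_vanishing q e hsum hidem g (fun z => Real.log (t z))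
    (fun z => c₀ + r * (Real.posLog (mnorm v (M z)) + Real.posLog (mnorm v (M z⁻¹))))
    ?_ ?_ ?_ ?_
  · intro z z' hz hz'
    show Real.log (t (z * z')) = Real.log (t z) + Real.log (t z')
    rw [htmul z z' hz', Real.log_mul (htpos z hz).ne' (htpos z' hz').ne']
  · intro x y
    show c₀ + r * (Real.posLog (mnorm v (M (x * y))) + Real.posLog (mnorm v (M (x * y)⁻¹))) ≤
      (c₀ + r * (Real.posLog (mnorm v (M x)) + Real.posLog (mnorm v (M x⁻¹)))) +
      (c₀ + r * (Real.posLog (mnorm v (M y)) + Real.posLog (mnorm v (M y⁻¹))))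
    have h1 := hpl x y
    have h2 := hpl y⁻¹ x⁻¹
    rw [← mul_inv_rev] at h2
    have h3 : (r : ℝ) * (Real.posLog (mnorm v (M (x * y))) +
        Real.posLog (mnorm v (M (x * y)⁻¹))) ≤
        r * ((Real.posLog (mnorm v (M x)) + Real.posLog (mnorm v (M y))) +
          (Real.posLog (mnorm v (M y⁻¹)) + Real.posLog (mnorm v (M x⁻¹)))) :=
      mul_le_mul_of_nonneg_left (add_le_add h1 h2) (Nat.cast_nonneg r)
    linarith
  · intro z hz
    show |Real.log (t z)| ≤
      c₀ + r * (Real.posLog (mnorm v (M z)) + Real.posLog (mnorm v (M z⁻¹)))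
    have h1 := htle z
    have h2 := htle z⁻¹
    have h3 : Real.log (t z⁻¹) = -Real.log (t z) := by
      have h4 : t z⁻¹ = (t z)⁻¹ := eq_inv_of_mul_eq_one_right (htinv z hz)
      rw [h4, Real.log_inv]
    rw [h3] at h2
    have h5 : 0 ≤ (r : ℝ) * Real.posLog (mnorm v (M z)) :=
      mul_nonneg (Nat.cast_nonneg r) Real.posLog_nonneg
    have h6 : 0 ≤ (r : ℝ) * Real.posLog (mnorm v (M z⁻¹)) :=
      mul_nonneg (Nat.cast_nonneg r) Real.posLog_nonneg
    rw [abs_le]
    constructor <;> linarith
  · show Real.log (t g) ≠ 0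
    have h1 : t g = v lam ^ r := by
      simp only [ht]
      have h2 : M g = A := rfl
      rw [h2, comp_self, Matrix.det_smul, Matrix.det_one, mul_one, Fintype.card_fin,
        v.map_pow]
    have h3 : 0 < t g := htpos g (Commute.refl g)
    have h4 : v lam ≠ 0 := by
      intro h
      rw [h1, h, zero_pow hrpos.ne'] at h3
      exact lt_irrefl _ h3
    rw [h1, Real.log_pow]
    refine mul_ne_zero (Nat.cast_ne_zero.mpr hrpos.ne') ?_
    rw [Real.log_ne_zero]
    refine ⟨h4, hlam, ?_⟩
    intro h
    have h5 := v.nonneg lam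
    rw [h] at h5
    linarith

end Vale.Agent.Lib.P184
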