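import Mathlib
import Vale.Agent.Lib.P184.Linear

/-!
Representations over number fields: the trace coefficient vanishes at every element whose
image is not quasi-unipotent (no positive power of it is unipotent).
-/

namespace Vale.Agent.Lib.P184

open scoped BigOperators NNReal
open Polynomial

/-- In a number field, an element no positive power of which is one has absolute value
different from one for some absolute value of the field. -/
theorem exists_abv_ne_one {K : Type*} [Field K] [NumberField K] (lam : K)
    (hlam : ∀ m : ℕ, 0 < m → lam ^ m ≠ 1) : ∃ v : AbsoluteValue K ℝ, v lam ≠ 1 := by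
  classical
  by_cases h1 : ∀ φ : K →+* ℂ, ‖φ lam‖ = 1
  · have h0 : lam ≠ 0 := by
      intro h
      obtain ⟨φ⟩ := (inferInstance : Nonempty (K →+* ℂ))
      have h2 := h1 φ
      rw [h, map_zero, norm_zero] at h2
      exact zero_ne_one h2
    by_cases hint : IsIntegral ℤ lam
    · obtain ⟨m, hm, hpow⟩ := NumberField.Embeddings.pow_eq_one_of_norm_le_one K ℂ h0 hint
        (fun φ => (h1 φ).le)
      exact absurd hpow (hlam m hm)
    · have hex : ∃ v : IsDedekindDomain.HeightOneSpectrum (NumberField.RingOfIntegers K),
          ¬ v.valuation K lam ≤ 1 := by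
        by_contra hcon
        have hcon' : ∀ v : IsDedekindDomain.HeightOneSpectrum (NumberField.RingOfIntegers K),
            v.valuation K lam ≤ 1 := fun v => by
          by_contra hv
          exact hcon ⟨v, hv⟩
        obtain ⟨y, hy⟩ := IsDedekindDomain.HeightOneSpectrum.mem_integers_of_valuation_le_one
          (R := NumberField.RingOfIntegers K) K lam hcon'
        apply hint
        rw [← hy]
        exact NumberField.RingOfIntegers.isIntegral_coe y
      obtain ⟨v, hv⟩ := hex
      have hb : (1 : ℝ≥0) < 2 := by norm_num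
      refine ⟨v.adicAbv (K := K) hb, ?_⟩
      intro h
      apply hv
      have h3 : WithZeroMulInt.toNNReal (ne_zero_of_lt hb) (v.valuation K lam) = 1 := by
        have h4 : ((WithZeroMulInt.toNNReal (ne_zero_of_lt hb) (v.valuation K lam) : ℝ≥0) : ℝ)
            = 1 := h
        exact_mod_cast h4
      rw [WithZeroMulInt.toNNReal_eq_one_iff _ (ne_zero_of_lt hb) hb.ne'] at h3
      exact h3.le
  · obtain ⟨φ, hφ⟩ := not_forall.mp h1
    exact ⟨NumberField.place φ, by rwa [NumberField.place_apply]⟩

/-- A square matrix over a field none of whose positive powers is unipotent has, over any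
extension in which its characteristic polynomial splits, an eigenvalue none of whose
positive powers is one. -/
theorem exists_eigen_of_not_quasiunipotent {K : Type*} [Field K] {n : ℕ}
    (A : Matrix (Fin n) (Fin n) K) (hq : ∀ m : ℕ, 0 < m → (A ^ m - 1) ^ n ≠ 0)
    {L : Type*} [Field L] [Algebra K L] (hsplit : (A.charpoly.map (algebraMap K L)).Splits) :
    ∃ (lam : L) (w : Fin n → L), w ≠ 0 ∧ (A.map (algebraMap K L)).mulVec w = lam • w ∧
      ∀ m : ℕ, 0 < m → lam ^ m ≠ 1 := by
  classical
  set B : Matrix (Fin n) (Fin n) L := A.map (algebraMap K L) with hB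
  have hchar : B.charpoly = A.charpoly.map (algebraMap K L) := Matrix.charpoly_map A _
  rw [← hchar] at hsplit
  by_contra hcon
  -- every eigenvalue is a root of unity
  have hroot : ∀ lam : L, lam ∈ B.charpoly.roots → ∃ m : ℕ, 0 < m ∧ lam ^ m = 1 := by
    intro lam hl
    by_contra hno
    apply hcon
    have hev : B.charpoly.eval lam = 0 := (Polynomial.mem_roots'.mp hl).2
    rw [Matrix.eval_charpoly] at hev
    obtain ⟨w, hw, hw0⟩ := Matrix.exists_mulVec_eq_zero_iff.mpr hev
    refine ⟨lam, w, hw, ?_, fun m hm h => hno ⟨m, hm, h⟩⟩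
    rw [Matrix.sub_mulVec, sub_eq_zero] at hw0
    rw [← hw0]
    ext i
    simp [Matrix.mulVec, dotProduct, Matrix.scalar_apply, Matrix.diagonal_apply]
  choose! ord hordpos hord using hroot
  set M : ℕ := ∏ lam ∈ B.charpoly.roots.toFinset, ord lam with hM
  have hMpos : 0 < M := Finset.prod_pos fun lam hl => hordpos lam (Multiset.mem_toFinset.mp hl)
  have hpowM : ∀ lam ∈ B.charpoly.roots, lam ^ M = 1 := by
    intro lam hl
    obtain ⟨c, hc⟩ := Finset.dvd_prod_of_mem ord (Multiset.mem_toFinset.mpr hl)
    rw [hM, hc, pow_mul, hord lam hl, one_pow]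
  have hdvd : B.charpoly ∣ (X ^ M - 1 : L[X]) ^ n := by
    have h1 : B.charpoly = (B.charpoly.roots.map (X - C ·)).prod :=
      hsplit.eq_prod_roots_of_monic (Matrix.charpoly_monic B)
    have h2 : (B.charpoly.roots.map (X - C ·)).prod ∣
        (B.charpoly.roots.map (fun _ => (X ^ M - 1 : L[X]))).prod := by
      refine Multiset.prod_dvd_prod_of_dvd _ _ fun lam hl => ?_
      rw [Polynomial.dvd_iff_isRoot]
      simp [hpowM lam hl]
    have h3 : (B.charpoly.roots.map (fun _ => (X ^ M - 1 : L[X]))).prod = (X ^ M - 1) ^ n := by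
      rw [Multiset.map_const', Multiset.prod_replicate, ← hsplit.natDegree_eq_card_roots,
        Matrix.charpoly_natDegree_eq_dim, Fintype.card_fin]
    rw [h3] at h2
    rw [h1]
    exact h2
  obtain ⟨r, hr⟩ := hdvd
  have hzero : aeval B ((X ^ M - 1 : L[X]) ^ n) = 0 := by
    rw [hr, map_mul, Matrix.aeval_self_charpoly, zero_mul]
  have hzero' : (B ^ M - 1) ^ n = 0 := by
    simpa using hzero
  have hmap : (B ^ M - 1) ^ n = ((A ^ M - 1) ^ n).map (algebraMap K L) := by
    have h5 : B = (algebraMap K L).mapMatrix A := rfl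
    have h6 : ((A ^ M - 1) ^ n).map (algebraMap K L) = (algebraMap K L).mapMatrix ((A ^ M - 1) ^ n) :=
      rfl
    rw [h5, h6, map_pow, map_sub, map_pow, map_one]
  rw [hmap] at hzero'
  apply hq M hMpos
  apply Matrix.map_injective (algebraMap K L).injective
  show ((A ^ M - 1) ^ n).map (algebraMap K L) = (0 : Matrix (Fin n) (Fin n) K).map (algebraMap K L)
  rw [hzero']
  simp

/-- For a representation of a group by invertible matrices over a number field, the trace
coefficient of an idempotent matrix over the convolution algebra vanishes at every element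
whose image is not quasi-unipotent. -/
theorem number_field_vanishing {G : Type*} [Group G] (q : ℕ) (e : Fin q → Fin q → G → ℂ)
    (hsum : ∀ i j, Summable fun g => ‖e i j g‖)
    (hidem : ∀ i k g, ∑ j, ∑' h, e i j h * e j k (h⁻¹ * g) = e i k g)
    {K : Type*} [Field K] [NumberField K] {n : ℕ}
    (ρ : G →* GL (Fin n) K) (g : G)
    (hq : ∀ m : ℕ, 0 < m → ((ρ g : Matrix (Fin n) (Fin n) K) ^ m - 1) ^ n ≠ 0) :
    ∑' x : (ConjClasses.mk g).carrier, ∑ i, e i i (x : G) = 0 := by
  set A : Matrix (Fin n) (Fin n) K := (ρ g : Matrix (Fin n) (Fin n) K) with hA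
  let L := A.charpoly.SplittingField
  have hfin : FiniteDimensional ℚ L := Module.Finite.trans K L
  have hnf : NumberField L := { to_charZero := inferInstance, to_finiteDimensional := hfin }
  obtain ⟨lam, w, hw, hev, hlam⟩ := exists_eigen_of_not_quasiunipotent A hq (L := L)
    (Polynomial.SplittingField.splits A.charpoly)
  obtain ⟨v, hv⟩ := exists_abv_ne_one lam hlam
  exact linear_vanishing q e hsum hidem v
    ((Matrix.GeneralLinearGroup.map (algebraMap K L)).comp ρ) g lam w hw hev hv

end Vale.Agent.Lib.P184
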