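import Mathlib
import Vale.Agent.Lib.P184.Undistorted

/-!
Isometric actions on spaces satisfying the quadrilateral inequality (as CAT(0) spaces do):
for an element `g` translating the orbit of a point `x₀` like an axis,
`dist x₀ (g ^ n • x₀) = n * ℓ`, the horofunction of the orbit gives a homomorphism on the
centralizer of `g`, dominated by the displacement of `x₀`, and the trace coefficient at
the class of `g` vanishes.
-/

namespace Vale.Agent.Lib.P184

open scoped BigOperators Topology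
open Filter

section axis

variable {G : Type*} [Group G] {X : Type*} [PseudoMetricSpace X] [MulAction G X]

/-- The sequence whose limit is the horofunction of the orbit of `p` under `g`. -/
def axSeq (g : G) (ℓ : ℝ) (p x : X) (n : ℕ) : ℝ := dist x (g ^ n • p) - n * ℓ

/-- The horofunction of the orbit of `p` under the powers of `g`, evaluated at `x`. -/
noncomputable def axBus (g : G) (ℓ : ℝ) (p x : X) : ℝ := ⨅ n : ℕ, axSeq g ℓ p x n

/-- The point `p` is translated by the powers of `g` as along an axis of length `ℓ`. -/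
def IsAxisPt (g : G) (ℓ : ℝ) (p : X) : Prop := ∀ n : ℕ, dist p (g ^ n • p) = n * ℓ

variable (hiso : ∀ (a : G) (x y : X), dist (a • x) (a • y) = dist x y)
variable {g : G} {ℓ : ℝ} {p p' p'' : X}

include hiso in
theorem axSeq_antitone (hp : IsAxisPt g ℓ p) (x : X) : Antitone (axSeq g ℓ p x) := by
  refine antitone_nat_of_succ_le fun n => ?_
  unfold axSeq
  have h1 : dist x (g ^ (n + 1) • p) ≤ dist x (g ^ n • p) + dist (g ^ n • p) (g ^ (n + 1) • p) :=
    dist_triangle _ _ _
  have h2 : dist (g ^ n • p) (g ^ (n + 1) • p) = ℓ := by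
    rw [pow_succ, mul_smul, hiso]
    have h3 := hp 1
    rw [pow_one, Nat.cast_one, one_mul] at h3
    exact h3
  rw [h2] at h1
  push_cast
  linarith

theorem axSeq_ge (hp : IsAxisPt g ℓ p) (x : X) (n : ℕ) : -dist x p ≤ axSeq g ℓ p x n := by
  unfold axSeq
  have h1 : dist p (g ^ n • p) ≤ dist p x + dist x (g ^ n • p) := dist_triangle _ _ _
  rw [hp n, dist_comm p x] at h1
  linarith

theorem axSeq_bddBelow (hp : IsAxisPt g ℓ p) (x : X) :
    BddBelow (Set.range (axSeq g ℓ p x)) :=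
  ⟨-dist x p, by
    rintro _ ⟨n, rfl⟩
    exact axSeq_ge hp x n⟩

include hiso in
theorem tendsto_axSeq (hp : IsAxisPt g ℓ p) (x : X) :
    Tendsto (axSeq g ℓ p x) atTop (𝓝 (axBus g ℓ p x)) :=
  tendsto_atTop_ciInf (axSeq_antitone hiso hp x) (axSeq_bddBelow hp x)

theorem axBus_le_axSeq (hp : IsAxisPt g ℓ p) (x : X) (n : ℕ) :
    axBus g ℓ p x ≤ axSeq g ℓ p x n :=
  ciInf_le (axSeq_bddBelow hp x) n

theorem neg_dist_le_axBus (hp : IsAxisPt g ℓ p) (x : X) : -dist x p ≤ axBus g ℓ p x :=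
  le_ciInf (axSeq_ge hp x)

theorem axBus_le_dist (hp : IsAxisPt g ℓ p) (x : X) : axBus g ℓ p x ≤ dist x p := by
  have h := axBus_le_axSeq hp x 0
  unfold axSeq at h
  rw [pow_zero, one_smul, Nat.cast_zero, zero_mul, sub_zero] at h
  exact h

include hiso in
theorem axBus_le_add_dist (hp : IsAxisPt g ℓ p) (x y : X) :
    axBus g ℓ p x ≤ axBus g ℓ p y + dist x y := by
  refine le_of_tendsto_of_tendsto' (tendsto_axSeq hiso hp x)
    ((tendsto_axSeq hiso hp y).add_const _) fun n => ?_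
  unfold axSeq
  have h1 : dist x (g ^ n • p) ≤ dist x y + dist y (g ^ n • p) := dist_triangle _ _ _
  linarith

include hiso in
theorem axBus_pow_smul (hp : IsAxisPt g ℓ p) (x : X) (m : ℕ) :
    axBus g ℓ p (g ^ m • x) = axBus g ℓ p x - m * ℓ := by
  have h1 : Tendsto (fun n => axSeq g ℓ p (g ^ m • x) (n + m)) atTop
      (𝓝 (axBus g ℓ p (g ^ m • x))) :=
    (tendsto_add_atTop_iff_nat m).mpr (tendsto_axSeq hiso hp (g ^ m • x))
  have h2 : (fun n => axSeq g ℓ p (g ^ m • x) (n + m)) = fun n => axSeq g ℓ p x n - m * ℓ := by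
    funext n
    unfold axSeq
    rw [add_comm n m, pow_add, mul_smul, hiso]
    push_cast
    ring
  rw [h2] at h1
  exact tendsto_nhds_unique h1 ((tendsto_axSeq hiso hp x).sub_const _)

variable (hQ : ∀ x y z w : X,
  dist x z ^ 2 + dist y w ^ 2 ≤ dist x y ^ 2 + dist y z ^ 2 + dist z w ^ 2 + dist w x ^ 2)

include hiso hQ in
theorem axBus_antisymm (hℓ : 0 < ℓ) (hp : IsAxisPt g ℓ p) (hp' : IsAxisPt g ℓ p') :
    axBus g ℓ p' p + axBus g ℓ p p' = 0 := by
  have hlim : Tendsto (fun n => axSeq g ℓ p' p n + axSeq g ℓ p p' n) atTop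
      (𝓝 (axBus g ℓ p' p + axBus g ℓ p p')) :=
    (tendsto_axSeq hiso hp' p).add (tendsto_axSeq hiso hp p')
  have hswap : ∀ n : ℕ, dist (g ^ n • p) p' = dist p' (g ^ n • p) := fun n => dist_comm _ _
  apply le_antisymm
  · -- the upper bound, from the quadrilateral inequality
    by_contra hcon
    rw [not_le] at hcon
    set S := axBus g ℓ p' p + axBus g ℓ p p' with hS
    obtain ⟨n, hn⟩ := exists_nat_gt (dist p p' ^ 2 / (ℓ * S) + 1)
    have hn1 : (1 : ℝ) < n := by
      have : 0 ≤ dist p p' ^ 2 / (ℓ * S) := div_nonneg (sq_nonneg _) (mul_pos hℓ hcon).le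
      linarith
    have hn2 : dist p p' ^ 2 < n * (ℓ * S) := by
      have h3 : dist p p' ^ 2 / (ℓ * S) < n := by linarith
      rwa [div_lt_iff₀ (mul_pos hℓ hcon)] at h3
    have hq := hQ p (g ^ n • p) (g ^ n • p') p'
    rw [hp n, hiso, dist_comm (g ^ n • p') p', hp' n, hswap n, dist_comm p' p] at hq
    have ha := axBus_le_axSeq hp' p n
    have ha' := axBus_le_axSeq hp p' n
    unfold axSeq at ha ha'
    have hN : 0 < (n : ℝ) * ℓ := mul_pos (by linarith) hℓ
    nlinarith [sq_nonneg (dist p (g ^ n • p') - n * ℓ), sq_nonneg (dist p' (g ^ n • p) - n * ℓ)]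
  · -- the lower bound, from the triangle inequality
    refine ge_of_tendsto' hlim fun n => ?_
    unfold axSeq
    have h1 : dist p (g ^ (n + n) • p) ≤ dist p (g ^ n • p') + dist (g ^ n • p') (g ^ (n + n) • p) :=
      dist_triangle _ _ _
    rw [hp (n + n), pow_add, mul_smul, hiso] at h1
    push_cast at h1
    linarith

include hiso hQ in
theorem axBus_cocycle (hℓ : 0 < ℓ) (hp : IsAxisPt g ℓ p) (hp' : IsAxisPt g ℓ p')
    (hp'' : IsAxisPt g ℓ p'') :
    axBus g ℓ p p'' = axBus g ℓ p p' + axBus g ℓ p' p'' := by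
  apply le_antisymm
  · refine ge_of_tendsto' ((tendsto_axSeq hiso hp' p'').const_add (axBus g ℓ p p')) fun m => ?_
    have h1 := axBus_le_add_dist hiso hp p'' (g ^ m • p')
    rw [axBus_pow_smul hiso hp] at h1
    unfold axSeq
    linarith
  · have hanti := axBus_antisymm hiso hQ hℓ hp' hp''
    have h0 : axBus g ℓ p p' + axBus g ℓ p' p'' = axBus g ℓ p p' - axBus g ℓ p'' p' := by
      linarith
    rw [h0]
    refine le_of_tendsto' ((tendsto_axSeq hiso hp'' p').const_sub (axBus g ℓ p p')) fun m => ?_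
    have h1 := axBus_le_add_dist hiso hp p' (g ^ m • p'')
    rw [axBus_pow_smul hiso hp] at h1
    unfold axSeq
    linarith

include hiso in
theorem axBus_smul (z : G) (hz : Commute z g) (p x : X) :
    axBus g ℓ (z • p) (z • x) = axBus g ℓ p x := by
  unfold axBus
  congr 1
  funext n
  unfold axSeq
  rw [← mul_smul, ← (hz.pow_right n).eq, mul_smul, hiso]

include hiso in
theorem isAxisPt_smul (z : G) (hz : Commute z g) (hp : IsAxisPt g ℓ p) :
    IsAxisPt g ℓ (z • p) := by
  intro n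
  rw [← mul_smul, ← (hz.pow_right n).eq, mul_smul, hiso]
  exact hp n

theorem quad_axis_vanishing (q : ℕ) (e : Fin q → Fin q → G → ℂ)
    (hsum : ∀ i j, Summable fun g => ‖e i j g‖)
    (hidem : ∀ i k g, ∑ j, ∑' h, e i j h * e j k (h⁻¹ * g) = e i k g)
    (hiso : ∀ (a : G) (x y : X), dist (a • x) (a • y) = dist x y)
    (hQ : ∀ x y z w : X,
      dist x z ^ 2 + dist y w ^ 2 ≤ dist x y ^ 2 + dist y z ^ 2 + dist z w ^ 2 + dist w x ^ 2)
    (g : G) (x₀ : X) (ℓ : ℝ) (hℓ : 0 < ℓ) (hax : ∀ n : ℕ, dist x₀ (g ^ n • x₀) = n * ℓ) :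
    ∑' x : (ConjClasses.mk g).carrier, ∑ i, e i i (x : G) = 0 := by
  have hp0 : IsAxisPt g ℓ x₀ := hax
  refine undistorted_vanishing q e hsum hidem g (fun z => axBus g ℓ (z • x₀) x₀)
    (fun z => dist x₀ (z • x₀)) ?_ ?_ ?_ ?_
  · intro z z' hz hz'
    show axBus g ℓ ((z * z') • x₀) x₀ = axBus g ℓ (z • x₀) x₀ + axBus g ℓ (z' • x₀) x₀
    have h1 := axBus_cocycle hiso hQ hℓ (isAxisPt_smul hiso (z * z') (hz.mul_left hz') hp0)
      (isAxisPt_smul hiso z hz hp0) hp0
    rw [h1, mul_smul, axBus_smul hiso z hz]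
    ring
  · intro x y
    show dist x₀ ((x * y) • x₀) ≤ dist x₀ (x • x₀) + dist x₀ (y • x₀)
    have h1 : dist x₀ ((x * y) • x₀) ≤ dist x₀ (x • x₀) + dist (x • x₀) ((x * y) • x₀) :=
      dist_triangle _ _ _
    have h2 : dist (x • x₀) ((x * y) • x₀) = dist x₀ (y • x₀) := by
      rw [mul_smul, hiso]
    rw [h2] at h1
    exact h1
  · intro z hz
    show |axBus g ℓ (z • x₀) x₀| ≤ dist x₀ (z • x₀)
    have hpz := isAxisPt_smul hiso z hz hp0
    rw [abs_le]
    exact ⟨neg_dist_le_axBus hpz x₀, axBus_le_dist hpz x₀⟩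
  · show axBus g ℓ (g • x₀) x₀ ≠ 0
    have h1 : axSeq g ℓ (g • x₀) x₀ = fun _ => ℓ := by
      funext n
      unfold axSeq
      rw [← mul_smul, ← pow_succ, hax (n + 1)]
      push_cast
      ring
    unfold axBus
    rw [h1, ciInf_const]
    exact hℓ.ne'

end axis

end Vale.Agent.Lib.P184
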