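import Mathlib
import Vale.Agent.Lib.P184.Axis

/-!
Spaces satisfying the inequality of Bruhat and Tits (the CN inequality, which
characterizes CAT(0) spaces among complete metric spaces): the quadrilateral inequality,
and the axis of an isometry whose displacement function attains a positive minimum.
-/

namespace Vale.Agent.Lib.P184

open scoped BigOperators Topology

section cn

variable {G : Type*} [Group G] {X : Type*} [PseudoMetricSpace X] [MulAction G X]

theorem quad_of_cn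
    (hCN : ∀ x y : X, ∃ m : X, ∀ p : X,
      dist p m ^ 2 ≤ (dist p x ^ 2 + dist p y ^ 2) / 2 - dist x y ^ 2 / 4)
    (x y z w : X) :
    dist x z ^ 2 + dist y w ^ 2 ≤ dist x y ^ 2 + dist y z ^ 2 + dist z w ^ 2 + dist w x ^ 2 := by
  obtain ⟨m, hm⟩ := hCN x z
  have h1 := hm y
  have h2 := hm w
  have h3 : dist y w ≤ dist y m + dist w m := dist_triangle_right y w m
  have h4 : dist y w ^ 2 ≤ 2 * dist y m ^ 2 + 2 * dist w m ^ 2 := by
    nlinarith [sq_nonneg (dist y m - dist w m), dist_nonneg (x := y) (y := w)]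
  rw [dist_comm y x] at h1
  rw [dist_comm w z] at h2
  linarith

variable (hiso : ∀ (a : G) (x y : X), dist (a • x) (a • y) = dist x y)
variable (hCN : ∀ x y : X, ∃ m : X, ∀ p : X,
  dist p m ^ 2 ≤ (dist p x ^ 2 + dist p y ^ 2) / 2 - dist x y ^ 2 / 4)

include hiso hCN in
/-- If every point is moved by at least `c` by `h`, every point is moved by at least
`2 * c` by the square of `h`. -/
theorem double_displacement (h : G) (c : ℝ) (hc : ∀ x : X, c ≤ dist x (h • x)) (x : X) :
    2 * c ≤ dist x ((h * h) • x) := by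
  obtain ⟨m, hm⟩ := hCN x (h • x)
  have hm' : ∀ p : X, dist p (h • m) ^ 2 ≤
      (dist p (h • x) ^ 2 + dist p ((h * h) • x) ^ 2) / 2 - dist x (h • x) ^ 2 / 4 := by
    intro p
    have h1 := hm (h⁻¹ • p)
    have e1 : dist (h⁻¹ • p) m = dist p (h • m) := by
      rw [← hiso h (h⁻¹ • p) m, smul_inv_smul]
    have e2 : dist (h⁻¹ • p) x = dist p (h • x) := by
      rw [← hiso h (h⁻¹ • p) x, smul_inv_smul]
    have e3 : dist (h⁻¹ • p) (h • x) = dist p ((h * h) • x) := by
      rw [← hiso h (h⁻¹ • p) (h • x), smul_inv_smul, mul_smul]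
    rw [e1, e2, e3] at h1
    exact h1
  have k1 := hm (h • m)
  have k2 := hm' x
  have k3 := hm' (h • x)
  rw [dist_self] at k3
  have e4 : dist (h • x) ((h * h) • x) = dist x (h • x) := by
    rw [mul_smul, hiso]
  rw [e4] at k3
  rw [dist_comm (h • m) x, dist_comm (h • m) (h • x), dist_comm (h • m) m] at k1
  have k4 : dist m (h • m) ^ 2 ≤ (dist x ((h * h) • x) / 2) ^ 2 := by
    nlinarith
  have k5 : dist m (h • m) ≤ dist x ((h * h) • x) / 2 := by
    have hnn : 0 ≤ dist x ((h * h) • x) / 2 := by positivity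
    exact le_of_sq_le_sq k4 hnn
  have k6 := hc m
  linarith

include hiso hCN in
theorem pow_two_displacement (g : G) (c : ℝ) (hc : ∀ x : X, c ≤ dist x (g • x)) (k : ℕ) :
    ∀ x : X, 2 ^ k * c ≤ dist x (g ^ 2 ^ k • x) := by
  induction k with
  | zero =>
    intro x
    simpa using hc x
  | succ k ih =>
    intro x
    have h1 := double_displacement hiso hCN (g ^ 2 ^ k) (2 ^ k * c) ih x
    have h2 : g ^ 2 ^ (k + 1) = g ^ 2 ^ k * g ^ 2 ^ k := by
      rw [pow_succ, pow_mul, sq]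
    rw [h2, pow_succ]
    linarith

include hiso in
theorem dist_pow_le (g : G) (x₀ : X) (n : ℕ) :
    dist x₀ (g ^ n • x₀) ≤ n * dist x₀ (g • x₀) := by
  induction n with
  | zero => simp
  | succ n ih =>
    have h1 : dist x₀ (g ^ (n + 1) • x₀) ≤
        dist x₀ (g ^ n • x₀) + dist (g ^ n • x₀) (g ^ (n + 1) • x₀) := dist_triangle _ _ _
    have h2 : dist (g ^ n • x₀) (g ^ (n + 1) • x₀) = dist x₀ (g • x₀) := by
      rw [pow_succ, mul_smul, hiso]
    rw [h2] at h1
    push_cast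
    linarith

include hiso hCN in
/-- A point where the displacement of `g` is minimal is translated as along an axis. -/
theorem axis_of_min (g : G) (x₀ : X) (hmin : ∀ x : X, dist x₀ (g • x₀) ≤ dist x (g • x))
    (n : ℕ) : dist x₀ (g ^ n • x₀) = n * dist x₀ (g • x₀) := by
  apply le_antisymm (dist_pow_le hiso g x₀ n)
  have hn : n ≤ 2 ^ n := Nat.lt_two_pow_self.le
  have h1 := pow_two_displacement hiso hCN g (dist x₀ (g • x₀)) hmin n x₀
  have h2 : dist x₀ (g ^ 2 ^ n • x₀) ≤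
      dist x₀ (g ^ n • x₀) + dist (g ^ n • x₀) (g ^ 2 ^ n • x₀) := dist_triangle _ _ _
  have h3 : dist (g ^ n • x₀) (g ^ 2 ^ n • x₀) = dist x₀ (g ^ (2 ^ n - n) • x₀) := by
    have h4 : g ^ 2 ^ n = g ^ n * g ^ (2 ^ n - n) := by
      rw [← pow_add, Nat.add_sub_cancel' hn]
    rw [h4, mul_smul, hiso]
  have h5 := dist_pow_le hiso g x₀ (2 ^ n - n)
  rw [h3] at h2
  have h6 : ((2 ^ n - n : ℕ) : ℝ) = 2 ^ n - n := by
    rw [Nat.cast_sub hn]
    push_cast
    ring
  rw [h6] at h5
  nlinarith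

theorem cn_hyperbolic_vanishing (q : ℕ) (e : Fin q → Fin q → G → ℂ)
    (hsum : ∀ i j, Summable fun g => ‖e i j g‖)
    (hidem : ∀ i k g, ∑ j, ∑' h, e i j h * e j k (h⁻¹ * g) = e i k g)
    (hiso : ∀ (a : G) (x y : X), dist (a • x) (a • y) = dist x y)
    (hCN : ∀ x y : X, ∃ m : X, ∀ p : X,
      dist p m ^ 2 ≤ (dist p x ^ 2 + dist p y ^ 2) / 2 - dist x y ^ 2 / 4)
    (g : G) (x₀ : X) (hmin : ∀ x : X, dist x₀ (g • x₀) ≤ dist x (g • x))
    (hpos : 0 < dist x₀ (g • x₀)) :
    ∑' x : (ConjClasses.mk g).carrier, ∑ i, e i i (x : G) = 0 :=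
  quad_axis_vanishing q e hsum hidem hiso (quad_of_cn hCN) g x₀ (dist x₀ (g • x₀)) hpos
    (axis_of_min hiso hCN g x₀ hmin)

end cn

end Vale.Agent.Lib.P184
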