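import Mathlib

/-!
Longest common initial segments of lists and the tree inequality they satisfy.
-/

namespace Vale.Agent.Lib.P184

variable {α : Type*} [DecidableEq α]

/-- The length of the longest common initial segment of two lists. -/
def lcp : List α → List α → ℕ
  | a :: u, b :: v => if a = b then lcp u v + 1 else 0
  | _, _ => 0

@[simp] theorem lcp_nil_left (v : List α) : lcp [] v = 0 := by
  cases v <;> rfl

@[simp] theorem lcp_nil_right (u : List α) : lcp u [] = 0 := by
  cases u <;> rfl

theorem lcp_cons (a b : α) (u v : List α) :
    lcp (a :: u) (b :: v) = if a = b then lcp u v + 1 else 0 := rfl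

theorem lcp_comm : ∀ u v : List α, lcp u v = lcp v u
  | [], v => by simp
  | a :: u, [] => by simp
  | a :: u, b :: v => by
    rw [lcp_cons, lcp_cons, lcp_comm u v]
    by_cases h : a = b
    · simp [h]
    · simp [h, Ne.symm h]

theorem lcp_self : ∀ u : List α, lcp u u = u.length
  | [] => by simp
  | a :: u => by simp [lcp_cons, lcp_self u]

theorem lcp_ultra : ∀ u v w : List α, min (lcp u w) (lcp w v) ≤ lcp u v
  | [], v, w => by simp
  | a :: u, [], w => by simp
  | a :: u, b :: v, [] => by simp
  | a :: u, b :: v, c :: w => by
    rw [lcp_cons, lcp_cons, lcp_cons]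
    have ih := lcp_ultra u v w
    by_cases h1 : a = c
    · by_cases h2 : c = b
      · have h3 : a = b := h1.trans h2
        simp only [h1, h2, if_true]
        omega
      · have h3 : ¬ a = b := fun h => h2 (h1.symm.trans h)
        simp [h1, h2]
    · simp [h1]

/-- The tree inequality for any symmetric quantity obeying the ultrametric rule. -/
theorem four_point_nat {X : Type*} (p : X → X → ℕ) (hp : ∀ x y z, min (p x z) (p z y) ≤ p x y)
    (hc : ∀ x y, p x y = p y x) (x y z w : X) :
    min (p x z + p y w) (p x w + p y z) ≤ p x y + p z w := by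
  have h1 := hp x y z
  have h2 := hp x y w
  have h3 := hp z w x
  have h4 := hp z w y
  have h5 := hp x z y
  have h6 := hp x z w
  have h7 := hp y w x
  have h8 := hp y w z
  have h9 := hp x w y
  have h10 := hp x w z
  have h11 := hp y z x
  have h12 := hp y z w
  rw [hc z y] at h1
  rw [hc w y] at h2
  rw [hc z x] at h3
  rw [hc z y] at h4
  rw [hc w z] at h6
  rw [hc y x] at h7
  rw [hc y x] at h11
  rw [hc w z] at h12
  omega

end Vale.Agent.Lib.P184
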