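import Mathlib
import Vale.Agent.Lib.P184.Undistorted

/-!
Isometric actions on metric spaces satisfying the four-point condition (trees):
the horofunction of an element with positive translation length restricts to a
homomorphism on its centralizer, dominated by the displacement function.
-/

namespace Vale.Agent.Lib.P184

open scoped BigOperators Topology

section tree

variable {G : Type*} [Group G] {X : Type*} [PseudoMetricSpace X] [MulAction G X]

theorem four_point_swap
    (hX : ∀ x y z w : X, dist x y + dist z w ≤ max (dist x z + dist y w) (dist x w + dist y z))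
    (y y' a b : X) (h1 : dist y y' + dist a b < dist y a + dist y' b)
    (h2 : dist y y' + dist a b < dist y b + dist y' a) :
    dist y a + dist y' b = dist y b + dist y' a := by
  have e1 := hX y a y' b
  have e2 := hX y b y' a
  rw [dist_comm a y'] at e1
  rw [dist_comm b y', dist_comm b a] at e2
  rcases le_max_iff.mp e1 with h | h
  · linarith
  · rcases le_max_iff.mp e2 with h' | h'
    · linarith
    · linarith

variable (g : G) (x₀ : X)

/-- The horofunction difference along the orbit of `x₀` under the powers of `g`. -/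
noncomputable def bus (y y' : X) : ℝ :=
  Filter.limUnder Filter.atTop (fun n : ℕ => dist y (g ^ n • x₀) - dist y' (g ^ n • x₀))

variable {g x₀}
variable (hiso : ∀ (a : G) (x y : X), dist (a • x) (a • y) = dist x y)
variable (hX : ∀ x y z w : X,
  dist x y + dist z w ≤ max (dist x z + dist y w) (dist x w + dist y z))
variable {c : ℝ} (hc : 0 < c) (hg : ∀ n : ℕ, c * n ≤ dist x₀ (g ^ n • x₀))

include hiso hX hc hg in
theorem bus_shift (y y' w : X) : ∀ᶠ n : ℕ in Filter.atTop,
    dist y (g ^ n • w) - dist y' (g ^ n • w) = dist y (g ^ n • x₀) - dist y' (g ^ n • x₀) := by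
  obtain ⟨N, hN⟩ := exists_nat_gt ((dist y y' + dist x₀ w + dist x₀ y + dist x₀ y' + dist x₀ w) / c)
  rw [div_lt_iff₀ hc] at hN
  filter_upwards [Filter.eventually_ge_atTop N] with n hn
  have hcn : (N : ℝ) * c ≤ c * n := by
    have : (N : ℝ) ≤ n := by exact_mod_cast hn
    nlinarith
  have hab : dist (g ^ n • x₀) (g ^ n • w) = dist x₀ w := hiso _ _ _
  have ha := hg n
  have t1 : dist x₀ (g ^ n • x₀) ≤ dist x₀ y + dist y (g ^ n • x₀) := dist_triangle _ _ _
  have t2 : dist x₀ (g ^ n • x₀) ≤ dist x₀ y' + dist y' (g ^ n • x₀) := dist_triangle _ _ _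
  have t3 : dist x₀ (g ^ n • x₀) ≤ dist x₀ (g ^ n • w) + dist (g ^ n • w) (g ^ n • x₀) :=
    dist_triangle _ _ _
  rw [dist_comm (g ^ n • w) (g ^ n • x₀), hab] at t3
  have t4 : dist x₀ (g ^ n • w) ≤ dist x₀ y + dist y (g ^ n • w) := dist_triangle _ _ _
  have t5 : dist x₀ (g ^ n • w) ≤ dist x₀ y' + dist y' (g ^ n • w) := dist_triangle _ _ _
  have p1 : 0 ≤ dist y (g ^ n • x₀) := dist_nonneg
  have p2 : 0 ≤ dist y' (g ^ n • x₀) := dist_nonneg
  have p3 : 0 ≤ dist y (g ^ n • w) := dist_nonneg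
  have p4 : 0 ≤ dist y' (g ^ n • w) := dist_nonneg
  have p5 : 0 ≤ dist x₀ w := dist_nonneg
  have p6 : 0 ≤ dist x₀ y := dist_nonneg
  have p7 : 0 ≤ dist x₀ y' := dist_nonneg
  have key := four_point_swap hX y y' (g ^ n • x₀) (g ^ n • w)
    (by rw [hab]; linarith) (by rw [hab]; linarith)
  linarith

include hiso hX hc hg in
theorem bus_step (y y' : X) : ∀ᶠ n : ℕ in Filter.atTop,
    dist y (g ^ (n + 1) • x₀) - dist y' (g ^ (n + 1) • x₀)
      = dist y (g ^ n • x₀) - dist y' (g ^ n • x₀) := by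
  have h := bus_shift hiso hX hc hg y y' (g • x₀)
  filter_upwards [h] with n hn
  have e : g ^ (n + 1) • x₀ = g ^ n • g • x₀ := by rw [pow_succ, mul_smul]
  rw [e]
  exact hn

include hiso hX hc hg in
theorem bus_spec (y y' : X) : ∀ᶠ n : ℕ in Filter.atTop,
    dist y (g ^ n • x₀) - dist y' (g ^ n • x₀) = bus g x₀ y y' := by
  obtain ⟨N, hN⟩ := Filter.eventually_atTop.mp (bus_step hiso hX hc hg y y')
  have hconst : ∀ n ≥ N, dist y (g ^ n • x₀) - dist y' (g ^ n • x₀)
      = dist y (g ^ N • x₀) - dist y' (g ^ N • x₀) := by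
    intro n hn
    induction n, hn using Nat.le_induction with
    | base => rfl
    | succ n hn ih => rw [hN n hn, ih]
  have hev : ∀ᶠ n : ℕ in Filter.atTop, dist y (g ^ n • x₀) - dist y' (g ^ n • x₀)
      = dist y (g ^ N • x₀) - dist y' (g ^ N • x₀) :=
    Filter.eventually_atTop.mpr ⟨N, hconst⟩
  have hlim : Filter.Tendsto (fun n : ℕ => dist y (g ^ n • x₀) - dist y' (g ^ n • x₀))
      Filter.atTop (𝓝 (dist y (g ^ N • x₀) - dist y' (g ^ N • x₀))) := by
    refine Filter.Tendsto.congr' ?_ tendsto_const_nhds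
    filter_upwards [hev] with n hn
    exact hn.symm
  have hb : bus g x₀ y y' = dist y (g ^ N • x₀) - dist y' (g ^ N • x₀) := hlim.limUnder_eq
  rw [hb]
  exact hev

include hiso hX hc hg in
theorem bus_add (z z' : G) (hz : Commute z g) :
    bus g x₀ ((z * z') • x₀) x₀ = bus g x₀ (z • x₀) x₀ + bus g x₀ (z' • x₀) x₀ := by
  have h1 := bus_spec hiso hX hc hg ((z * z') • x₀) x₀
  have h2 := bus_spec hiso hX hc hg (z • x₀) x₀
  have h3 := bus_spec hiso hX hc hg (z' • x₀) x₀
  have h4 := bus_shift hiso hX hc hg (z' • x₀) x₀ (z⁻¹ • x₀)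
  obtain ⟨n, hn1, hn2, hn3, hn4⟩ := (h1.and (h2.and (h3.and h4))).exists
  have hcomm : z⁻¹ • g ^ n • x₀ = g ^ n • z⁻¹ • x₀ := by
    rw [← mul_smul, ← mul_smul, (hz.inv_left.pow_right n).eq]
  have e1 : dist ((z * z') • x₀) (g ^ n • x₀) = dist (z' • x₀) (g ^ n • z⁻¹ • x₀) := by
    have h := hiso z (z' • x₀) (z⁻¹ • g ^ n • x₀)
    rw [smul_inv_smul, ← mul_smul, hcomm] at h
    exact h
  have e2 : dist x₀ (g ^ n • z⁻¹ • x₀) = dist (z • x₀) (g ^ n • x₀) := by
    have h := hiso z x₀ (z⁻¹ • g ^ n • x₀)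
    rw [smul_inv_smul, hcomm] at h
    exact h.symm
  rw [← hn1, ← hn2, ← hn3, ← hn4, e1, e2]
  ring

include hiso hX hc hg in
theorem abs_bus_le (z : G) : |bus g x₀ (z • x₀) x₀| ≤ dist x₀ (z • x₀) := by
  obtain ⟨n, hn⟩ := (bus_spec hiso hX hc hg (z • x₀) x₀).exists
  rw [← hn, dist_comm x₀ (z • x₀)]
  exact abs_dist_sub_le _ _ _

include hiso hX hc hg in
theorem bus_self_ne : bus g x₀ (g • x₀) x₀ ≠ 0 := by
  intro h0
  obtain ⟨N, hN⟩ := Filter.eventually_atTop.mp (bus_spec hiso hX hc hg (g • x₀) x₀)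
  have hstep : ∀ n ≥ N, dist x₀ (g ^ (n + 1) • x₀) = dist x₀ (g ^ n • x₀) := by
    intro n hn
    have h := hN (n + 1) (Nat.le_succ_of_le hn)
    rw [h0] at h
    have e : dist (g • x₀) (g ^ (n + 1) • x₀) = dist x₀ (g ^ n • x₀) := by
      rw [pow_succ', mul_smul]
      exact hiso _ _ _
    rw [e] at h
    linarith
  have hconst : ∀ n ≥ N, dist x₀ (g ^ n • x₀) = dist x₀ (g ^ N • x₀) := by
    intro n hn
    induction n, hn using Nat.le_induction with
    | base => rfl
    | succ n hn ih => rw [hstep n hn, ih]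
  obtain ⟨M, hM⟩ := exists_nat_gt (dist x₀ (g ^ N • x₀) / c)
  rw [div_lt_iff₀ hc] at hM
  have h1 := hg (max N M)
  rw [hconst (max N M) (le_max_left _ _)] at h1
  have h2 : (M : ℝ) ≤ ((max N M : ℕ) : ℝ) := by exact_mod_cast le_max_right N M
  nlinarith

include hiso in
theorem displacement_subadd (x y : G) :
    dist x₀ ((x * y) • x₀) ≤ dist x₀ (x • x₀) + dist x₀ (y • x₀) := by
  rw [mul_smul]
  have h := dist_triangle x₀ (x • x₀) (x • y • x₀)
  rw [hiso] at h
  exact h

end tree

/-- Vanishing at the class of an element acting with positive translation length on a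
metric space with the four-point condition. -/
theorem tree_vanishing {G : Type*} [Group G] (q : ℕ) (e : Fin q → Fin q → G → ℂ)
    (hsum : ∀ i j, Summable fun g => ‖e i j g‖)
    (hidem : ∀ i k g, ∑ j, ∑' h, e i j h * e j k (h⁻¹ * g) = e i k g)
    {X : Type*} [PseudoMetricSpace X] [MulAction G X]
    (hiso : ∀ (a : G) (x y : X), dist (a • x) (a • y) = dist x y)
    (hX : ∀ x y z w : X,
      dist x y + dist z w ≤ max (dist x z + dist y w) (dist x w + dist y z))
    (g : G) (x₀ : X) (c : ℝ) (hc : 0 < c) (hg : ∀ n : ℕ, c * n ≤ dist x₀ (g ^ n • x₀)) :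
    ∑' x : (ConjClasses.mk g).carrier, ∑ i, e i i (x : G) = 0 :=
  undistorted_vanishing q e hsum hidem g (fun z => bus g x₀ (z • x₀) x₀)
    (fun z => dist x₀ (z • x₀))
    (fun z z' hz _ => bus_add hiso hX hc hg z z' hz)
    (fun x y => displacement_subadd hiso x y)
    (fun z _ => abs_bus_le hiso hX hc hg z)
    (bus_self_ne hiso hX hc hg)

end Vale.Agent.Lib.P184
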