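import Mathlib

/-!
Two elementary facts about isometries of metric spaces with the four-point condition:
an isometry whose square moves a point further than the isometry itself has linear
orbit growth, and otherwise a neighbouring point is moved strictly less.
-/

namespace Vale.Agent.Lib.P184

variable {G : Type*} [Group G] {X : Type*} [PseudoMetricSpace X] [MulAction G X]

theorem growth_of_square
    (hiso : ∀ (a : G) (x y : X), dist (a • x) (a • y) = dist x y)
    (hX : ∀ x y z w : X,
      dist x y + dist z w ≤ max (dist x z + dist y w) (dist x w + dist y z))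
    (g : G) (x : X) (h : dist x (g • x) < dist x (g ^ 2 • x)) (n : ℕ) :
    (dist x (g ^ 2 • x) - dist x (g • x)) * n ≤ dist x (g ^ n • x) := by
  set τ := dist x (g ^ 2 • x) - dist x (g • x) with hτ
  have hτ0 : 0 < τ := by linarith
  have shift : ∀ a b : ℕ, dist (g ^ a • x) (g ^ (a + b) • x) = dist x (g ^ b • x) := by
    intro a b
    rw [pow_add, mul_smul, hiso]
  have key : ∀ n : ℕ, τ ≤ dist x (g ^ (n + 2) • x) - dist x (g ^ (n + 1) • x) ∧
      dist x (g • x) + (n + 1) * τ ≤ dist x (g ^ (n + 2) • x) := by
    intro n
    induction n with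
    | zero =>
      constructor
      · simp [hτ]
      · simp only [Nat.cast_zero, zero_add, one_mul]
        rw [hτ]
        simp
    | succ n ih =>
      obtain ⟨ih1, ih2⟩ := ih
      have e := hX x (g ^ (n + 2) • x) (g • x) (g ^ (n + 3) • x)
      have s1 : dist (g • x) (g ^ (n + 3) • x) = dist x (g ^ (n + 2) • x) := by
        have := shift 1 (n + 2)
        rw [pow_one] at this
        rw [show n + 3 = 1 + (n + 2) by ring]
        exact this
      have s2 : dist (g ^ (n + 2) • x) (g ^ (n + 3) • x) = dist x (g • x) := by
        have := shift (n + 2) 1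
        rw [pow_one] at this
        exact this
      have s3 : dist (g ^ (n + 2) • x) (g • x) = dist x (g ^ (n + 1) • x) := by
        rw [dist_comm]
        have := shift 1 (n + 1)
        rw [pow_one] at this
        rw [show n + 2 = 1 + (n + 1) by ring]
        exact this
      rw [s1, s2, s3] at e
      have hn0 : (0 : ℝ) ≤ n := Nat.cast_nonneg n
      have hpos : dist x (g • x) + dist x (g • x) < dist x (g ^ (n + 2) • x) +
          dist x (g ^ (n + 2) • x) := by nlinarith
      rcases le_max_iff.mp e with h' | h'
      · linarith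
      · refine ⟨by linarith, ?_⟩
        push_cast
        nlinarith
  have hτle : τ ≤ dist x (g • x) := by
    have t := dist_triangle x (g • x) (g ^ 2 • x)
    have s : dist (g • x) (g ^ 2 • x) = dist x (g • x) := by
      have := shift 1 1
      rw [pow_one] at this
      exact this
    rw [s] at t
    linarith
  rcases n with _ | _ | n
  · simp
  · simpa using hτle
  · have := (key n).2
    push_cast
    nlinarith

theorem closer_of_square_le
    (hiso : ∀ (a : G) (x y : X), dist (a • x) (a • y) = dist x y)
    (hX : ∀ x y z w : X,
      dist x y + dist z w ≤ max (dist x z + dist y w) (dist x w + dist y z))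
    (g : G) (x y : X) (m : ℝ) (hm : 2 ≤ m) (hx : dist x (g • x) = m) (hxy : dist x y = 1)
    (hy : dist y (g • x) = m - 1) (h : dist x (g ^ 2 • x) ≤ m) :
    dist y (g • y) ≤ m - 2 := by
  have a1 : dist (g • x) (g ^ 2 • x) = m := by
    rw [pow_two, mul_smul, hiso, hx]
  have a2 : dist (g • x) (g • y) = 1 := by rw [hiso, hxy]
  have a3 : dist (g • y) (g ^ 2 • x) = m - 1 := by
    rw [pow_two, mul_smul, hiso, hy]
  have e1 := hX y (g ^ 2 • x) x (g • x)
  rw [dist_comm y x, hxy, hx, hy, dist_comm (g ^ 2 • x) (g • x), a1,
    dist_comm (g ^ 2 • x) x] at e1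
  have b1 : dist y (g ^ 2 • x) ≤ m - 1 := by
    rcases le_max_iff.mp e1 with h' | h'
    · linarith
    · linarith
  have e2 := hX y (g • y) (g • x) (g ^ 2 • x)
  rw [a1, hy, a3, dist_comm (g • y) (g • x), a2] at e2
  rcases le_max_iff.mp e2 with h' | h'
  · linarith
  · linarith

end Vale.Agent.Lib.P184
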