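import Mathlib
import Vale.Agent.Lib.P184.ListTree
import Vale.Agent.Lib.P184.TreeGrowth
import Vale.Agent.Lib.P184.Tree

/-!
The free product of a family of groups acts by isometries on its set of reduced words,
equipped with a metric satisfying the four-point condition.
-/

namespace Vale.Agent.Lib.P184

open Monoid CoprodI

variable {ι : Type*} {M : ι → Type*}

/-- Each letter of a word is recorded twice: first its index, then the letter itself. -/
def enc (l : List (Σ i, M i)) : List (ι ⊕ (Σ i, M i)) :=
  l.flatMap fun s => [Sum.inl s.1, Sum.inr s]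

@[simp] theorem enc_nil : enc ([] : List (Σ i, M i)) = [] := rfl

@[simp] theorem enc_cons (s : Σ i, M i) (l : List (Σ i, M i)) :
    enc (s :: l) = Sum.inl s.1 :: Sum.inr s :: enc l := rfl

theorem length_enc (l : List (Σ i, M i)) : (enc l).length = 2 * l.length := by
  induction l with
  | nil => rfl
  | cons s l ih => simp [ih]; ring

variable [∀ i, Group (M i)] [DecidableEq ι] [∀ i, DecidableEq (M i)]

/-- The distance between two reduced words. -/
def wdist (w w' : Word M) : ℝ :=
  (w.toList.length : ℝ) + w'.toList.length - lcp (enc w.toList) (enc w'.toList)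

theorem lcp_enc_of_fstIdx_ne {i : ι} (t : Word M) (h : t.fstIdx ≠ some i)
    (u : List (ι ⊕ (Σ i, M i))) : lcp (Sum.inl i :: u) (enc t.toList) = 0 := by
  rcases t with ⟨l, h1, h2⟩
  cases l with
  | nil => simp
  | cons s l =>
    have : i ≠ s.1 := by
      intro hi
      apply h
      simp [Word.fstIdx, hi]
    simp [lcp_cons, this]

theorem wdist_rcons {i : ι} (P P' : Word.Pair M i) :
    wdist (Word.rcons P) (Word.rcons P') =
      if P.head = P'.head then wdist P.tail P'.tail
      else (P.tail.toList.length : ℝ) + P'.tail.toList.length + 1 := by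
  unfold Word.rcons wdist
  by_cases h : P.head = 1
  · by_cases h' : P'.head = 1
    · simp [h, h']
    · have hne : ¬ (1 : M i) = P'.head := fun e => h' e.symm
      rw [dif_pos h, dif_neg h', h, if_neg hne]
      simp only [Word.cons_toList, enc_cons, List.length_cons]
      rw [lcp_comm, lcp_enc_of_fstIdx_ne P.tail P.fstIdx_ne]
      push_cast
      ring
  · by_cases h' : P'.head = 1
    · have hne : ¬ P.head = 1 := h
      rw [dif_neg h, dif_pos h', h', if_neg hne]
      simp only [Word.cons_toList, enc_cons, List.length_cons]
      rw [lcp_enc_of_fstIdx_ne P'.tail P'.fstIdx_ne]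
      push_cast
      ring
    · rw [dif_neg h, dif_neg h']
      simp only [Word.cons_toList, enc_cons, List.length_cons, lcp_cons, if_true]
      by_cases hh : P.head = P'.head
      · have : (Sum.inr ⟨i, P.head⟩ : ι ⊕ (Σ i, M i)) = Sum.inr ⟨i, P'.head⟩ := by rw [hh]
        rw [if_pos this, if_pos hh]
        push_cast
        ring
      · have : ¬ (Sum.inr ⟨i, P.head⟩ : ι ⊕ (Σ i, M i)) = Sum.inr ⟨i, P'.head⟩ := by
          intro e
          apply hh
          have e2 := Sum.inr.inj e
          simpa using e2
        rw [if_neg this, if_neg hh]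
        push_cast
        ring

theorem wdist_of_smul {i : ι} (m : M i) (w w' : Word M) :
    wdist (of m • w) (of m • w') = wdist w w' := by
  have e1 : w = Word.rcons (Word.equivPair i w) := ((Word.equivPair i).symm_apply_apply w).symm
  have e2 : w' = Word.rcons (Word.equivPair i w') :=
    ((Word.equivPair i).symm_apply_apply w').symm
  rw [Word.of_smul_def, Word.of_smul_def, wdist_rcons]
  conv_rhs => rw [e1, e2, wdist_rcons]
  simp

theorem wdist_smul (x : CoprodI M) : ∀ w w' : Word M, wdist (x • w) (x • w') = wdist w w' := by
  refine CoprodI.induction_on (motive := fun x : CoprodI M =>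
    ∀ w w' : Word M, wdist (x • w) (x • w') = wdist w w') x ?_ ?_ ?_
  · intro w w'
    rw [one_smul, one_smul]
  · intro i m w w'
    exact wdist_of_smul m w w'
  · intro x y hx hy w w'
    rw [mul_smul, mul_smul, hx, hy]

theorem wdist_self (w : Word M) : wdist w w = 0 := by
  unfold wdist
  rw [lcp_self, length_enc]
  push_cast
  ring

theorem wdist_comm (w w' : Word M) : wdist w w' = wdist w' w := by
  unfold wdist
  rw [lcp_comm]
  ring

theorem wdist_four (x y z w : Word M) :
    wdist x y + wdist z w ≤ max (wdist x z + wdist y w) (wdist x w + wdist y z) := by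
  have h := four_point_nat (fun a b : Word M => lcp (enc a.toList) (enc b.toList))
    (fun a b c => lcp_ultra _ _ _) (fun a b => lcp_comm _ _) x y z w
  have h' : min ((lcp (enc x.toList) (enc z.toList) : ℝ) + lcp (enc y.toList) (enc w.toList))
      ((lcp (enc x.toList) (enc w.toList) : ℝ) + lcp (enc y.toList) (enc z.toList)) ≤
      (lcp (enc x.toList) (enc y.toList) : ℝ) + lcp (enc z.toList) (enc w.toList) := by
    exact_mod_cast h
  unfold wdist
  rcases min_le_iff.mp h' with h1 | h1
  · exact le_max_of_le_left (by linarith)
  · exact le_max_of_le_right (by linarith)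

theorem wdist_triangle (x y z : Word M) : wdist x z ≤ wdist x y + wdist y z := by
  have h := wdist_four x z y y
  rw [wdist_self, wdist_comm z y, max_self] at h
  linarith

theorem wdist_empty (w : Word M) : wdist Word.empty w = w.toList.length := by
  unfold wdist
  simp

/-- The metric structure on reduced words. -/
@[reducible] noncomputable def wordMetric : PseudoMetricSpace (Word M) where
  dist := wdist
  dist_self := wdist_self
  dist_comm := wdist_comm
  dist_triangle := wdist_triangle

end Vale.Agent.Lib.P184
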