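import Mathlib
import Vale.Agent.Lib.P184.FreeProd

/-!
In a free product, an element that is not conjugate into a factor moves some reduced
word linearly fast, hence its class carries no trace.
-/

namespace Vale.Agent.Lib.P184

open Monoid CoprodI

variable {ι : Type*} {M : ι → Type*} [∀ i, Group (M i)] [DecidableEq ι] [∀ i, DecidableEq (M i)]

/-- The number of letters of the reduced word of an element. -/
def nlen (x : CoprodI M) : ℕ := (x • (Word.empty : Word M)).toList.length

theorem wdist_empty_smul (x : CoprodI M) :
    wdist (Word.empty : Word M) (x • Word.empty) = nlen x := wdist_empty _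

theorem eq_one_of_nlen_eq_zero {x : CoprodI M} (h : nlen x = 0) : x = 1 := by
  have h1 : (x • (Word.empty : Word M)).toList = [] := List.length_eq_zero_iff.mp h
  have h2 : x • (Word.empty : Word M) = Word.empty := Word.ext h1
  have h3 := congrArg Word.prod h2
  rw [Word.prod_smul, Word.prod_empty, mul_one] at h3
  exact h3

omit [DecidableEq ι] [∀ i, DecidableEq (M i)] in
theorem exists_cons (W : Word M) (h : W.toList ≠ []) :
    ∃ (i : ι) (a : M i) (w : Word M) (h1 : w.fstIdx ≠ some i) (h2 : a ≠ 1),
      W = Word.cons a w h1 h2 := by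
  rcases W with ⟨l, hne, hch⟩
  cases l with
  | nil => exact absurd rfl h
  | cons s l =>
    refine ⟨s.1, s.2, ⟨l, fun t ht => hne t (List.mem_cons_of_mem _ ht), hch.tail⟩, ?_, ?_, ?_⟩
    · rw [Word.fstIdx_ne_iff]
      intro t ht
      cases l with
      | nil => simp at ht
      | cons t' l' =>
        simp only [List.head?_cons, Option.mem_def, Option.some.injEq] at ht
        subst ht
        exact (List.isChain_cons_cons.mp hch).1
    · exact hne s (List.mem_cons_self)
    · rfl

theorem exists_of_nlen_eq_one {x : CoprodI M} (h : nlen x = 1) :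
    ∃ (i : ι) (m : M i), x = of m := by
  have hne : (x • (Word.empty : Word M)).toList ≠ [] := by
    intro h0
    unfold nlen at h
    rw [h0] at h
    simp at h
  obtain ⟨i, a, w, h1, h2, hW⟩ := exists_cons _ hne
  refine ⟨i, a, ?_⟩
  have hw : w.toList = [] := by
    have := congrArg (fun W : Word M => W.toList.length) hW
    simp only [Word.cons_toList, List.length_cons] at this
    unfold nlen at h
    rw [h] at this
    exact List.length_eq_zero_iff.mp (by omega)
  have hw' : w = Word.empty := Word.ext hw
  have h3 := congrArg Word.prod hW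
  rw [Word.prod_smul, Word.prod_empty, mul_one, Word.prod_cons, hw', Word.prod_empty,
    mul_one] at h3
  exact h3

theorem inv_conj_pow {G : Type*} [Group G] (u g : G) (n : ℕ) :
    (u⁻¹ * g * u) ^ n = u⁻¹ * g ^ n * u := by
  induction n with
  | zero => simp
  | succ n ih => rw [pow_succ, ih, pow_succ]; group

theorem exists_growth (g : CoprodI M) (hg1 : g ≠ 1)
    (hg : ∀ (i : ι) (m : M i) (u : CoprodI M), g ≠ u * of m * u⁻¹) :
    ∃ (x₀ : Word M) (c : ℝ), 0 < c ∧ ∀ n : ℕ, c * n ≤ wdist x₀ (g ^ n • x₀) := by
  classical
  have hex : ∃ k, ∃ u : CoprodI M, nlen (u⁻¹ * g * u) = k := ⟨_, 1, rfl⟩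
  obtain ⟨u, hu⟩ := Nat.find_spec hex
  have hmin : ∀ v : CoprodI M, Nat.find hex ≤ nlen (v⁻¹ * g * v) :=
    fun v => Nat.find_min' hex ⟨v, rfl⟩
  set k := Nat.find hex with hk
  set g' := u⁻¹ * g * u with hg'
  have hgu : g = u * g' * u⁻¹ := by rw [hg']; group
  have hk2 : 2 ≤ k := by
    by_contra hlt
    have hk01 : k = 0 ∨ k = 1 := by omega
    rcases hk01 with h0 | h1
    · have : g' = 1 := eq_one_of_nlen_eq_zero (hu.trans h0)
      apply hg1
      rw [hgu, this]
      group
    · obtain ⟨i, m, hm⟩ := exists_of_nlen_eq_one (hu.trans h1)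
      exact hg i m u (by rw [hgu, hm])
  have hne : (g' • (Word.empty : Word M)).toList ≠ [] := by
    intro h0
    have : nlen g' = 0 := by unfold nlen; rw [h0]; rfl
    omega
  obtain ⟨i, a, w, h1, h2, hW⟩ := exists_cons _ hne
  have hwlen : (w.toList.length : ℝ) = k - 1 := by
    have := congrArg (fun W : Word M => W.toList.length) hW
    simp only [Word.cons_toList, List.length_cons] at this
    have h3 : nlen g' = w.toList.length + 1 := this
    rw [hu] at h3
    rw [h3]
    push_cast
    ring
  let inst : PseudoMetricSpace (Word M) := wordMetric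
  have hiso : ∀ (b : CoprodI M) (x y : Word M), dist (b • x) (b • y) = dist x y :=
    fun b x y => wdist_smul b x y
  have hX : ∀ x y z t : Word M,
      dist x y + dist z t ≤ max (dist x z + dist y t) (dist x t + dist y z) := wdist_four
  have d1 : dist (Word.empty : Word M) (g' • Word.empty) = k := by
    change wdist _ _ = _
    rw [wdist_empty_smul, hu]
  have hya : of a • (Word.empty : Word M) = Word.cons a Word.empty (by simp [Word.fstIdx]) h2 :=
    Word.cons_eq_smul.symm
  have d2 : dist (Word.empty : Word M) (of a • Word.empty) = 1 := by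
    change wdist _ _ = _
    rw [wdist_empty, hya]
    simp
  have d3 : dist (of a • (Word.empty : Word M)) (g' • Word.empty) = k - 1 := by
    change wdist _ _ = _
    rw [hW, Word.cons_eq_smul, wdist_smul, wdist_empty, hwlen]
  have d4 : (k : ℝ) ≤ dist (of a • (Word.empty : Word M)) (g' • of a • Word.empty) := by
    change _ ≤ wdist _ _
    have hgrp : g' * of a = of a * ((u * of a)⁻¹ * g * (u * of a)) := by rw [hg']; group
    have e : wdist (of a • (Word.empty : Word M)) (g' • of a • Word.empty) =
        nlen ((u * of a)⁻¹ * g * (u * of a)) := by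
      rw [← wdist_empty_smul, ← wdist_smul (of a) Word.empty, ← mul_smul, ← mul_smul, hgrp]
    rw [e]
    exact_mod_cast hmin (u * of a)
  have hsq : dist (Word.empty : Word M) (g' • Word.empty) <
      dist (Word.empty : Word M) (g' ^ 2 • Word.empty) := by
    by_contra hle
    rw [not_lt, d1] at hle
    have hk2' : (2 : ℝ) ≤ k := by exact_mod_cast hk2
    have := closer_of_square_le hiso hX g' Word.empty (of a • Word.empty) k hk2' d1 d2 d3 hle
    linarith
  refine ⟨u • Word.empty, dist (Word.empty : Word M) (g' ^ 2 • Word.empty) -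
    dist (Word.empty : Word M) (g' • Word.empty), by linarith, fun n => ?_⟩
  have h := growth_of_square hiso hX g' Word.empty hsq n
  have e : wdist (u • (Word.empty : Word M)) (g ^ n • u • Word.empty) =
      dist (Word.empty : Word M) (g' ^ n • Word.empty) := by
    change _ = wdist _ _
    rw [← wdist_smul u Word.empty (g' ^ n • Word.empty)]
    congr 1
    rw [← mul_smul, ← mul_smul, hg', inv_conj_pow]
    congr 1
    group
  rw [e]
  exact h

/-- Vanishing at every class of a free product that is not conjugate into a factor. -/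
theorem freeprod_vanishing {ι : Type*} {M : ι → Type*} [∀ i, Group (M i)] (q : ℕ)
    (e : Fin q → Fin q → CoprodI M → ℂ)
    (hsum : ∀ i j, Summable fun g => ‖e i j g‖)
    (hidem : ∀ i k g, ∑ j, ∑' h, e i j h * e j k (h⁻¹ * g) = e i k g)
    (g : CoprodI M) (hg1 : g ≠ 1)
    (hg : ∀ (i : ι) (m : M i) (u : CoprodI M), g ≠ u * of m * u⁻¹) :
    ∑' x : (ConjClasses.mk g).carrier, ∑ i, e i i (x : CoprodI M) = 0 := by
  classical
  obtain ⟨x₀, c, hc, hgrow⟩ := exists_growth g hg1 hg
  let inst : PseudoMetricSpace (Word M) := wordMetric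
  exact tree_vanishing q e hsum hidem (X := Word M) (fun b x y => wdist_smul b x y) wdist_four
    g x₀ c hc hgrow

end Vale.Agent.Lib.P184
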