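import Mathlib
import Vale.Agent.Lib.P184.Conv

/-!
Summation along the fibres of a map, and its compatibility with convolution when the
map is a group homomorphism.
-/

namespace Vale.Agent.Lib.P184

open scoped BigOperators

section general

variable {α β γ : Type*}

/-- Summation of a function along the fibres of a map. -/
noncomputable def pushS (φ : α → β) (f : α → ℂ) : β → ℂ := by
  classical
  exact fun b => ∑' x, if φ x = b then f x else 0

open Classical in
theorem pushS_apply (φ : α → β) (f : α → ℂ) (b : β) :
    pushS φ f b = ∑' x, if φ x = b then f x else 0 := by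
  rfl

open Classical in
theorem summable_graph {E : Type*} [NormedAddCommGroup E] (φ : α → β) {f : α → E}
    (hf : Summable f) : Summable fun p : β × α => if φ p.2 = p.1 then f p.2 else 0 := by
  have hinj : Function.Injective fun x : α => (φ x, x) := fun x y h => (Prod.mk.inj h).2
  refine (hinj.summable_iff ?_).mp ?_
  · rintro ⟨b, x⟩ hx
    have : ¬ φ x = b := fun h => hx ⟨x, by simp [h]⟩
    simp [this]
  · simpa [Function.comp_def] using hf

open Classical in
theorem summable_fibre {f : α → ℂ} (hf : Summable fun x => ‖f x‖) (φ : α → β) (b : β) :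
    Summable fun x => if φ x = b then f x else 0 := by
  refine Summable.of_norm (Summable.of_nonneg_of_le (fun _ => norm_nonneg _) (fun x => ?_) hf)
  by_cases h : φ x = b <;> simp [h]

open Classical in
theorem norm_pushS_le {f : α → ℂ} (hf : Summable fun x => ‖f x‖) (φ : α → β) (b : β) :
    ‖pushS φ f b‖ ≤ ∑' x, if φ x = b then ‖f x‖ else 0 := by
  rw [pushS_apply]
  have h1 : Summable fun x => ‖if φ x = b then f x else 0‖ := (summable_fibre hf φ b).norm
  refine (norm_tsum_le_tsum_norm h1).trans_eq (tsum_congr fun x => ?_)
  by_cases h : φ x = b <;> simp [h]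

theorem summable_norm_pushS {f : α → ℂ} (hf : Summable fun x => ‖f x‖) (φ : α → β) :
    Summable fun b => ‖pushS φ f b‖ := by
  classical
  exact Summable.of_nonneg_of_le (fun _ => norm_nonneg _) (norm_pushS_le hf φ)
    (summable_graph φ hf).prod

theorem tsum_norm_pushS_le {f : α → ℂ} (hf : Summable fun x => ‖f x‖) (φ : α → β) :
    ∑' b, ‖pushS φ f b‖ ≤ ∑' x, ‖f x‖ := by
  classical
  have hg := summable_graph φ hf
  have h1 : ∑' b, ‖pushS φ f b‖ ≤ ∑' b, ∑' x, if φ x = b then ‖f x‖ else 0 :=
    (summable_norm_pushS hf φ).tsum_le_tsum (norm_pushS_le hf φ) hg.prod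
  refine h1.trans_eq ?_
  rw [← hg.tsum_prod]
  have hinj : Function.Injective fun x : α => (φ x, x) := fun x y h => (Prod.mk.inj h).2
  have := hinj.tsum_eq (f := fun p : β × α => if φ p.2 = p.1 then ‖f p.2‖ else 0) ?_
  · rw [← this]
    simp
  · intro p hp
    rcases p with ⟨b, x⟩
    have hb : φ x = b := by
      by_contra h
      simp [h] at hp
    exact ⟨x, by simp [hb]⟩

theorem pushS_comp {f : α → ℂ} (hf : Summable fun x => ‖f x‖) (φ : α → β) (ψ : β → γ) :
    pushS ψ (pushS φ f) = pushS (ψ ∘ φ) f := by
  classical
  funext c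
  rw [pushS_apply, pushS_apply]
  have h1 : ∀ b, (if ψ b = c then pushS φ f b else 0) =
      ∑' x, if ψ b = c ∧ φ x = b then f x else 0 := by
    intro b
    by_cases hb : ψ b = c
    · simp [hb, pushS_apply]
    · simp [hb]
  simp_rw [h1]
  have hs : Summable (Function.uncurry fun (b : β) (x : α) =>
      if ψ b = c ∧ φ x = b then f x else 0) := by
    refine Summable.of_norm (Summable.of_nonneg_of_le (fun _ => norm_nonneg _) (fun p => ?_)
      (summable_graph φ hf))
    rcases p with ⟨b, x⟩
    by_cases h1 : φ x = b <;> by_cases h2 : ψ b = c <;> simp [Function.uncurry, h1, h2]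
  rw [← hs.tsum_comm]
  refine tsum_congr fun x => ?_
  rw [tsum_eq_single (φ x)]
  · simp
  · intro b hb
    have : ¬ φ x = b := fun h => hb h.symm
    simp [this]

end general

section group

variable {G H : Type*} [Group G] [Group H]

omit [Group G] in
theorem summable_tensor {a b : G → ℂ} (ha : Summable fun g => ‖a g‖)
    (hb : Summable fun g => ‖b g‖) : Summable fun p : G × G => ‖a p.1 * b p.2‖ := by
  have h := Summable.mul_of_nonneg ha hb (fun _ => norm_nonneg _) (fun _ => norm_nonneg _)
  simpa [norm_mul] using h

theorem conv_eq_pushS {a b : G → ℂ} (ha : Summable fun g => ‖a g‖)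
    (hb : Summable fun g => ‖b g‖) :
    conv a b = pushS (fun p : G × G => p.1 * p.2) (fun p => a p.1 * b p.2) := by
  classical
  funext g
  rw [pushS_apply]
  have hs : Summable fun p : G × G => if p.1 * p.2 = g then a p.1 * b p.2 else 0 :=
    summable_fibre (summable_tensor ha hb) _ g
  rw [hs.tsum_prod]
  unfold conv
  refine tsum_congr fun y => ?_
  rw [tsum_eq_single (y⁻¹ * g)]
  · simp
  · intro z hz
    have : ¬ y * z = g := by
      intro h
      apply hz
      rw [← h]
      group
    simp [this]

omit [Group G] [Group H] in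
theorem pushS_tensor {a b : G → ℂ} (ha : Summable fun g => ‖a g‖)
    (hb : Summable fun g => ‖b g‖) (π : G → H) :
    pushS (Prod.map π π) (fun p : G × G => a p.1 * b p.2) =
      fun q : H × H => pushS π a q.1 * pushS π b q.2 := by
  classical
  funext q
  rcases q with ⟨k, l⟩
  rw [pushS_apply, pushS_apply, pushS_apply]
  have h1 : Summable fun x => ‖if π x = k then a x else 0‖ := (summable_fibre ha π k).norm
  have h2 : Summable fun x => ‖if π x = l then b x else 0‖ := (summable_fibre hb π l).norm
  rw [tsum_mul_tsum_of_summable_norm h1 h2]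
  refine tsum_congr fun p => ?_
  rcases p with ⟨y, z⟩
  by_cases hy : π y = k <;> by_cases hz : π z = l <;> simp [Prod.map, hy, hz]

/-- Summation along the fibres of a group homomorphism is multiplicative for convolution. -/
theorem pushS_conv {a b : G → ℂ} (ha : Summable fun g => ‖a g‖)
    (hb : Summable fun g => ‖b g‖) (π : G →* H) :
    pushS π (conv a b) = conv (pushS π a) (pushS π b) := by
  rw [conv_eq_pushS ha hb, pushS_comp (summable_tensor ha hb),
    conv_eq_pushS (summable_norm_pushS ha π) (summable_norm_pushS hb π),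
    ← pushS_tensor ha hb π, pushS_comp (summable_tensor ha hb)]
  congr 1
  funext p
  simp [Prod.map]

omit [Group G] [Group H] in
theorem setSum_pushS {a : G → ℂ} (ha : Summable fun g => ‖a g‖) (π : G → H) (T : Set H) :
    setSum T (pushS π a) = setSum (π ⁻¹' T) a := by
  classical
  unfold setSum
  have h1 : ∀ h, T.indicator (pushS π a) h = ∑' x, if h ∈ T ∧ π x = h then a x else 0 := by
    intro h
    by_cases hh : h ∈ T
    · simp [hh, pushS_apply]
    · simp [hh]
  simp_rw [h1]
  have hs : Summable (Function.uncurry fun (h : H) (x : G) =>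
      if h ∈ T ∧ π x = h then a x else 0) := by
    refine Summable.of_norm (Summable.of_nonneg_of_le (fun _ => norm_nonneg _) (fun p => ?_)
      (summable_graph π ha))
    rcases p with ⟨h, x⟩
    by_cases h1 : π x = h <;> by_cases h2 : h ∈ T <;> simp [Function.uncurry, h1, h2]
  rw [← hs.tsum_comm]
  refine tsum_congr fun x => ?_
  rw [tsum_eq_single (π x)]
  · by_cases hx : π x ∈ T <;> simp [hx]
  · intro h hh
    have : ¬ π x = h := fun e => hh e.symm
    simp [this]

end group

end Vale.Agent.Lib.P184
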