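import Mathlib
import Vale.Agent.Lib.P184.Push
import Vale.Agent.Lib.P184.Main

/-!
Matrices of summable functions pushed along a group homomorphism, and sums over
conjugation invariant sets decomposed into conjugacy classes.
-/

namespace Vale.Agent.Lib.P184

open scoped BigOperators

section general

variable {α β : Type*}

theorem pushS_add {f g : α → ℂ} (hf : Summable fun x => ‖f x‖) (hg : Summable fun x => ‖g x‖)
    (φ : α → β) (b : β) : pushS φ (fun x => f x + g x) b = pushS φ f b + pushS φ g b := by
  classical
  rw [pushS_apply, pushS_apply, pushS_apply,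
    ← (summable_fibre hf φ b).tsum_add (summable_fibre hg φ b)]
  refine tsum_congr fun x => ?_
  by_cases h : φ x = b <;> simp [h]

theorem pushS_sum {κ : Type*} (s : Finset κ) (f : κ → α → ℂ)
    (hf : ∀ k ∈ s, Summable fun x => ‖f k x‖) (φ : α → β) (b : β) :
    pushS φ (fun x => ∑ k ∈ s, f k x) b = ∑ k ∈ s, pushS φ (f k) b := by
  classical
  rw [pushS_apply]
  simp_rw [pushS_apply]
  rw [← Summable.tsum_finsetSum fun k hk => summable_fibre (hf k hk) φ b]
  refine tsum_congr fun x => ?_
  by_cases h : φ x = b <;> simp [h]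

theorem tsum_pushS {f : α → ℂ} (hf : Summable fun x => ‖f x‖) (φ : α → β) :
    ∑' b, pushS φ f b = ∑' x, f x := by
  classical
  have h := congrFun (pushS_comp hf φ (fun _ : β => ())) ()
  rw [pushS_apply, pushS_apply] at h
  simpa using h

end general

section group

variable {G H : Type*} [Group G] [Group H] {q : ℕ}

/-- The sum of the diagonal entries of a matrix of functions. -/
def diag (e : Fin q → Fin q → G → ℂ) : G → ℂ := fun x => ∑ i, e i i x

omit [Group G] in
theorem summable_diag {e : Fin q → Fin q → G → ℂ} (hsum : ∀ i j, Summable fun g => ‖e i j g‖) :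
    Summable fun x => ‖diag e x‖ := by
  refine Summable.of_nonneg_of_le (fun _ => norm_nonneg _) (fun x => norm_sum_le _ _) ?_
  exact summable_sum fun i _ => hsum i i

omit [Group G] in
theorem tsum_class_eq (e : Fin q → Fin q → G → ℂ) (S : Set G) :
    ∑' x : S, ∑ i, e i i (x : G) = setSum S (diag e) :=
  tsum_subtype S (diag e)

/-- A matrix of functions pushed entrywise along a map. -/
noncomputable def pushM (π : G → H) (e : Fin q → Fin q → G → ℂ) : Fin q → Fin q → H → ℂ :=
  fun i j => pushS π (e i j)

omit [Group G] [Group H] in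
theorem pushM_summable {e : Fin q → Fin q → G → ℂ}
    (hsum : ∀ i j, Summable fun g => ‖e i j g‖) (π : G → H) (i j : Fin q) :
    Summable fun h => ‖pushM π e i j h‖ := summable_norm_pushS (hsum i j) π

theorem pushM_idem {e : Fin q → Fin q → G → ℂ}
    (hsum : ∀ i j, Summable fun g => ‖e i j g‖)
    (hidem : ∀ i k g, ∑ j, ∑' h, e i j h * e j k (h⁻¹ * g) = e i k g) (π : G →* H)
    (i k : Fin q) (h : H) :
    ∑ j, ∑' h', pushM π e i j h' * pushM π e j k (h'⁻¹ * h) = pushM π e i k h := by
  have h1 : ∀ j, ∑' h', pushM π e i j h' * pushM π e j k (h'⁻¹ * h) =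
      pushS π (conv (e i j) (e j k)) h := by
    intro j
    rw [pushS_conv (hsum i j) (hsum j k) π]
    rfl
  simp_rw [h1]
  rw [← pushS_sum Finset.univ (fun j => conv (e i j) (e j k))
    (fun j _ => summable_norm_conv (hsum i j) (hsum j k)) π h]
  have h2 : (fun x => ∑ j, conv (e i j) (e j k) x) = e i k := by
    funext x
    exact hidem i k x
  rw [h2]
  rfl

omit [Group G] [Group H] in
theorem diag_pushM {e : Fin q → Fin q → G → ℂ} (hsum : ∀ i j, Summable fun g => ‖e i j g‖)
    (π : G → H) : diag (pushM π e) = pushS π (diag e) := by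
  funext h
  exact (pushS_sum Finset.univ (fun i => e i i) (fun i _ => hsum i i) π h).symm

omit [Group G] in
theorem setSum_union {f : G → ℂ} (hf : Summable fun x => ‖f x‖) {S T : Set G}
    (hST : Disjoint S T) : setSum (S ∪ T) f = setSum S f + setSum T f := by
  unfold setSum
  rw [← (Summable.of_norm (summable_indicator_norm hf S)).tsum_add
    (Summable.of_norm (summable_indicator_norm hf T))]
  refine tsum_congr fun x => ?_
  rw [Set.indicator_union_of_disjoint hST]

theorem conj_mem_iff_of_mk_eq {T : Set G} (hT : ∀ x h : G, h⁻¹ * x * h ∈ T ↔ x ∈ T) {x g : G}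
    (h : ConjClasses.mk x = ConjClasses.mk g) : x ∈ T ↔ g ∈ T := by
  rw [ConjClasses.mk_eq_mk_iff_isConj, isConj_iff] at h
  obtain ⟨c, rfl⟩ := h
  have := hT x c⁻¹
  rw [inv_inv] at this
  exact this.symm

/-- A sum over a conjugation invariant set vanishes as soon as the sum over each
conjugacy class contained in it vanishes. -/
theorem setSum_eq_zero_of_classes {f : G → ℂ} (hf : Summable fun x => ‖f x‖) (T : Set G)
    (hT : ∀ x h : G, h⁻¹ * x * h ∈ T ↔ x ∈ T)
    (h0 : ∀ g ∈ T, setSum (ConjClasses.mk g).carrier f = 0) : setSum T f = 0 := by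
  classical
  have hF : Summable fun x => ‖T.indicator f x‖ := summable_indicator_norm hf T
  unfold setSum
  rw [← tsum_pushS hF (ConjClasses.mk : G → ConjClasses G)]
  have hz : ∀ C : ConjClasses G, pushS ConjClasses.mk (T.indicator f) C = 0 := by
    intro C
    obtain ⟨g, rfl⟩ := ConjClasses.mk_surjective C
    rw [pushS_apply]
    by_cases hg : g ∈ T
    · refine Eq.trans ?_ (h0 g hg)
      unfold setSum
      refine tsum_congr fun x => ?_
      by_cases hx : ConjClasses.mk x = ConjClasses.mk g
      · have hxT : x ∈ T := (conj_mem_iff_of_mk_eq hT hx).mpr hg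
        have hxc : x ∈ (ConjClasses.mk g).carrier := ConjClasses.mem_carrier_iff_mk_eq.mpr hx
        simp [hx, hxT, hxc]
      · have hxc : x ∉ (ConjClasses.mk g).carrier := fun h =>
          hx (ConjClasses.mem_carrier_iff_mk_eq.mp h)
        simp [hx, hxc]
    · refine (tsum_congr fun x => ?_).trans tsum_zero
      by_cases hx : ConjClasses.mk x = ConjClasses.mk g
      · have hxT : x ∉ T := fun h => hg ((conj_mem_iff_of_mk_eq hT hx).mp h)
        simp [hxT]
      · simp [hx]
  simp [hz]

end group

end Vale.Agent.Lib.P184
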