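import Mathlib
import Vale.Agent.Lib.P184.PushMat
import Vale.Agent.Lib.P184.FreeProdHyp

/-!
Free products: the trace of an idempotent matrix at the class of an element of a factor
is a trace of its image under the retraction onto that factor.
-/

namespace Vale.Agent.Lib.P184

open scoped BigOperators
open Monoid CoprodI

section tail

variable {G : Type*}

theorem exists_finset_tail {u : G → ℝ} (hu : Summable u) {ε : ℝ} (hε : 0 < ε) :
    ∃ K : Finset G, ∑' x, ((K : Set G)ᶜ).indicator u x < ε := by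
  classical
  have h := hu.hasSum
  rw [HasSum, SummationFilter.unconditional_filter, Metric.tendsto_atTop] at h
  obtain ⟨K, hK⟩ := h ε hε
  refine ⟨K, ?_⟩
  have h1 := hK K le_rfl
  have h2 := hu.sum_add_tsum_compl (s := K)
  have h3 : ∑' x : ((K : Set G)ᶜ : Set G), u x = ∑' x, ((K : Set G)ᶜ).indicator u x :=
    tsum_subtype _ u
  rw [Real.dist_eq] at h1
  have := abs_lt.mp h1
  linarith

theorem tsum_norm_push_sub_le {a : G → ℂ} (ha : Summable fun x => ‖a x‖) (π : G → G)
    (K : Finset G) (hK : ∀ x ∈ K, π x = x) :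
    Summable (fun h => ‖pushS π a h - a h‖) ∧
    ∑' h, ‖pushS π a h - a h‖ ≤ 2 * ∑' x, ((K : Set G)ᶜ).indicator (fun x => ‖a x‖) x := by
  classical
  set f : G → ℂ := (K : Set G).indicator a with hf
  set r : G → ℂ := ((K : Set G)ᶜ).indicator a with hr
  have hfs : Summable fun x => ‖f x‖ := summable_indicator_norm ha _
  have hrs : Summable fun x => ‖r x‖ := summable_indicator_norm ha _
  have hsplit : ∀ x, a x = f x + r x := by
    intro x
    by_cases hx : x ∈ (K : Set G) <;> simp [hf, hr, hx]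
  have hpf : ∀ h, pushS π f h = f h := by
    intro h
    rw [pushS_apply, tsum_eq_single h]
    · by_cases hh : h ∈ (K : Set G)
      · simp [hK h hh]
      · simp [hf, hh]
    · intro x hx
      by_cases hxK : x ∈ (K : Set G)
      · have : ¬ π x = h := by rw [hK x hxK]; exact hx
        simp [this]
      · simp [hf, hxK]
  have hdiff : ∀ h, pushS π a h - a h = pushS π r h - r h := by
    intro h
    have : a = fun x => f x + r x := funext hsplit
    rw [this, pushS_add hfs hrs, hpf]
    ring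
  have hrn : ∀ x, ‖r x‖ = ((K : Set G)ᶜ).indicator (fun x => ‖a x‖) x := by
    intro x
    by_cases hx : x ∈ (K : Set G)ᶜ <;> simp [hr, hx]
  have hsum1 : Summable fun h => ‖pushS π r h‖ + ‖r h‖ := (summable_norm_pushS hrs π).add hrs
  have hle : ∀ h, ‖pushS π a h - a h‖ ≤ ‖pushS π r h‖ + ‖r h‖ := by
    intro h
    rw [hdiff]
    exact norm_sub_le _ _
  have hs : Summable fun h => ‖pushS π a h - a h‖ :=
    Summable.of_nonneg_of_le (fun _ => norm_nonneg _) hle hsum1
  refine ⟨hs, ?_⟩
  calc ∑' h, ‖pushS π a h - a h‖ ≤ ∑' h, (‖pushS π r h‖ + ‖r h‖) := hs.tsum_le_tsum hle hsum1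
    _ = ∑' h, ‖pushS π r h‖ + ∑' h, ‖r h‖ := (summable_norm_pushS hrs π).tsum_add hrs
    _ ≤ ∑' h, ‖r h‖ + ∑' h, ‖r h‖ := by linarith [tsum_norm_pushS_le hrs π]
    _ = 2 * ∑' x, ((K : Set G)ᶜ).indicator (fun x => ‖a x‖) x := by
      rw [tsum_congr hrn]
      ring

end tail

section close

variable {G : Type*} [Group G] {q : ℕ}

omit [Group G] in
theorem setSum_diag (e : Fin q → Fin q → G → ℂ) (hsum : ∀ i j, Summable fun g => ‖e i j g‖)
    (S : Set G) : setSum S (diag e) = ∑ i, setSum S (e i i) := by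
  unfold setSum
  rw [← Summable.tsum_finsetSum fun i _ => Summable.of_norm (summable_indicator_norm (hsum i i) S)]
  refine tsum_congr fun x => ?_
  by_cases hx : x ∈ S <;> simp [hx, diag]

/-- Idempotent matrices at distance less than one have the same traces. -/
theorem setSum_diag_eq_of_close {e e' : Fin q → Fin q → G → ℂ}
    (hsum : ∀ i j, Summable fun g => ‖e i j g‖)
    (hidem : ∀ i k g, ∑ j, ∑' h, e i j h * e j k (h⁻¹ * g) = e i k g)
    (hsum' : ∀ i j, Summable fun g => ‖e' i j g‖)
    (hidem' : ∀ i k g, ∑ j, ∑' h, e' i j h * e' j k (h⁻¹ * g) = e' i k g)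
    (hclose : ∑ i, ∑ j, ∑' g, ‖e' i j g - e i j g‖ < 1)
    (S : Set G) (hS : ∀ x h : G, h⁻¹ * x * h ∈ S ↔ x ∈ S) :
    setSum S (diag e') = setSum S (diag e) := by
  rw [setSum_diag e' hsum', setSum_diag e hsum]
  exact ((l1Trace S hS).matrix (Fin q)).tr_eq_of_idem (toMat_idem e hsum hidem)
    (toMat_idem e' hsum' hidem') hclose

end close

end Vale.Agent.Lib.P184
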