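import Mathlib
import Vale.Agent.Lib.P184.CN

/-!
Proper cocompact isometric actions on spaces satisfying the CN inequality: every element
attains its minimal displacement, the elements of infinite order translate an axis, the
elements of finite order form finitely many conjugacy classes, and hence the trace of an
idempotent matrix over the convolution algebra vanishes outside finitely many classes of
elements of finite order.
-/

namespace Vale.Agent.Lib.P184

open scoped BigOperators Topology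

section cocompact

variable {G : Type*} [Group G] {X : Type*} [PseudoMetricSpace X] [MulAction G X]

variable (hiso : ∀ (a : G) (x y : X), dist (a • x) (a • y) = dist x y)

include hiso in
theorem dist_conj_eq (y : X) (b h : G) :
    dist (b • y) ((b * h * b⁻¹) • (b • y)) = dist y (h • y) := by
  have e1 : (b * h * b⁻¹) • (b • y) = b • h • y := by
    rw [← mul_smul, inv_mul_cancel_right, mul_smul]
  rw [e1, hiso]

include hiso in
theorem dist_conj_le (x₀ y : X) (b h : G) :
    dist x₀ ((b * h * b⁻¹) • x₀) ≤ 2 * dist x₀ (b • y) + dist y (h • y) := by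
  have t1 : dist x₀ ((b * h * b⁻¹) • x₀) ≤
      dist x₀ (b • y) + dist (b • y) ((b * h * b⁻¹) • x₀) := dist_triangle _ _ _
  have t2 : dist (b • y) ((b * h * b⁻¹) • x₀) ≤
      dist (b • y) ((b * h * b⁻¹) • (b • y)) +
        dist ((b * h * b⁻¹) • (b • y)) ((b * h * b⁻¹) • x₀) := dist_triangle _ _ _
  rw [hiso, dist_conj_eq hiso, dist_comm (b • y) x₀] at t2
  linarith

include hiso in
/-- For a proper cocompact action every element attains its minimal displacement. -/
theorem exists_min_displacement (x₀ : X)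
    (hproper : ∀ r : ℝ, {a : G | dist x₀ (a • x₀) ≤ r}.Finite)
    (K : Set X) (hK : IsCompact K) (hcov : ∀ x : X, ∃ a : G, a • x ∈ K) (g : G) :
    ∃ x : X, ∀ y : X, dist x (g • x) ≤ dist y (g • y) := by
  classical
  obtain ⟨R, hR⟩ := hK.isBounded.subset_closedBall x₀
  have hR' : ∀ y ∈ K, dist x₀ y ≤ R := fun y hy => by
    have h := hR hy
    rw [Metric.mem_closedBall, dist_comm] at h
    exact h
  have hne : K.Nonempty := by
    obtain ⟨a, ha⟩ := hcov x₀
    exact ⟨_, ha⟩
  set D₀ := dist x₀ (g • x₀) with hD₀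
  have hmin : ∀ k : G, ∃ y ∈ K, ∀ y' ∈ K, dist y (k • y) ≤ dist y' (k • y') := by
    intro k
    have hcont : Continuous fun y : X => dist y (k • y) :=
      continuous_id.dist (Isometry.of_dist_eq (hiso k)).continuous
    obtain ⟨y, hy, hmin⟩ := hK.exists_isMinOn hne hcont.continuousOn
    exact ⟨y, hy, fun y' hy' => hmin hy'⟩
  choose ymin hyK hymin using hmin
  have hkey : ∀ (y : X) (b : G), b • y ∈ K →
      dist x₀ ((b * g * b⁻¹) • x₀) ≤ 2 * R + dist y (g • y) := by
    intro y b hb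
    have h1 := dist_conj_le hiso x₀ y b g
    have h2 := hR' _ hb
    linarith
  set Ψ : Set G := {k : G | dist x₀ (k • x₀) ≤ 2 * R + D₀ ∧ IsConj g k} with hΨ
  have hΨfin : Ψ.Finite := (hproper (2 * R + D₀)).subset fun k hk => hk.1
  obtain ⟨a₀, ha₀⟩ := hcov x₀
  have hk₀ : a₀ * g * a₀⁻¹ ∈ Ψ := ⟨hkey x₀ a₀ ha₀, isConj_iff.mpr ⟨a₀, rfl⟩⟩
  obtain ⟨k, hkΨ, hkmin⟩ := hΨfin.toFinset.exists_min_image
    (fun k => dist (ymin k) (k • ymin k)) ⟨_, hΨfin.mem_toFinset.mpr hk₀⟩
  rw [Set.Finite.mem_toFinset] at hkΨ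
  obtain ⟨a, ha⟩ := isConj_iff.mp hkΨ.2
  refine ⟨a⁻¹ • ymin k, ?_⟩
  have hval : dist (a⁻¹ • ymin k) (g • a⁻¹ • ymin k) = dist (ymin k) (k • ymin k) := by
    rw [← hiso a, smul_inv_smul, ← ha, mul_smul, mul_smul]
  have hsmall : ∀ y : X, dist y (g • y) ≤ D₀ →
      dist (ymin k) (k • ymin k) ≤ dist y (g • y) := by
    intro y hy
    obtain ⟨b, hb⟩ := hcov y
    have h1 := hkey y b hb
    have hmem : b * g * b⁻¹ ∈ Ψ := ⟨by linarith, isConj_iff.mpr ⟨b, rfl⟩⟩
    have h3 := hkmin _ (hΨfin.mem_toFinset.mpr hmem)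
    have h4 := hymin (b * g * b⁻¹) (b • y) hb
    rw [dist_conj_eq hiso] at h4
    exact h3.trans h4
  intro y
  rw [hval]
  by_cases hy : dist y (g • y) ≤ D₀
  · exact hsmall y hy
  · have h5 := hsmall x₀ le_rfl
    have h6 := not_le.mp hy
    linarith

/-- The l1-Bass statement for a group acting properly and cocompactly by isometries on a
space satisfying the CN inequality. -/
theorem cn_cocompact_bass
    (hiso : ∀ (a : G) (x y : X), dist (a • x) (a • y) = dist x y)
    (hCN : ∀ x y : X, ∃ m : X, ∀ p : X,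
      dist p m ^ 2 ≤ (dist p x ^ 2 + dist p y ^ 2) / 2 - dist x y ^ 2 / 4)
    (x₀ : X) (hproper : ∀ r : ℝ, {a : G | dist x₀ (a • x₀) ≤ r}.Finite)
    (K : Set X) (hK : IsCompact K) (hcov : ∀ x : X, ∃ a : G, a • x ∈ K)
    (q : ℕ) (e : Fin q → Fin q → G → ℂ)
    (hsum : ∀ i j, Summable fun g => ‖e i j g‖)
    (hidem : ∀ i k g, ∑ j, ∑' h, e i j h * e j k (h⁻¹ * g) = e i k g) :
    ∃ F : Finset (ConjClasses G),
      (∀ C ∈ F, ∀ x ∈ C.carrier, IsOfFinOrder x) ∧
      ∀ C : ConjClasses G, C ∉ F → ∑' x : C.carrier, ∑ i, e i i (x : G) = 0 := by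
  classical
  obtain ⟨R, hR⟩ := hK.isBounded.subset_closedBall x₀
  have hR' : ∀ y ∈ K, dist x₀ y ≤ R := fun y hy => by
    have h := hR hy
    rw [Metric.mem_closedBall, dist_comm] at h
    exact h
  set Φ : Set G := {k : G | dist x₀ (k • x₀) ≤ 2 * R ∧ IsOfFinOrder k} with hΦ
  have hΦfin : Φ.Finite := (hproper (2 * R)).subset fun k hk => hk.1
  refine ⟨hΦfin.toFinset.image ConjClasses.mk, ?_, ?_⟩
  · intro C hC x hx
    rw [Finset.mem_image] at hC
    obtain ⟨k, hk, rfl⟩ := hC
    rw [Set.Finite.mem_toFinset] at hk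
    rw [ConjClasses.mem_carrier_iff_mk_eq, ConjClasses.mk_eq_mk_iff_isConj, isConj_iff] at hx
    obtain ⟨c, hc⟩ := hx
    obtain ⟨n, hn, hkn⟩ := isOfFinOrder_iff_pow_eq_one.mp hk.2
    refine isOfFinOrder_iff_pow_eq_one.mpr ⟨n, hn, ?_⟩
    have h1 : c * x ^ n * c⁻¹ = 1 := by rw [← conj_pow, hc, hkn]
    calc x ^ n = c⁻¹ * (c * x ^ n * c⁻¹) * c := by group
      _ = 1 := by rw [h1]; group
  · intro C hC
    obtain ⟨g, rfl⟩ := ConjClasses.exists_rep C
    obtain ⟨x, hx⟩ := exists_min_displacement hiso x₀ hproper K hK hcov g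
    by_cases hpos : 0 < dist x (g • x)
    · exact cn_hyperbolic_vanishing q e hsum hidem hiso hCN g x hx hpos
    · exfalso
      apply hC
      have hzero : dist x (g • x) = 0 := le_antisymm (not_lt.mp hpos) dist_nonneg
      obtain ⟨a, ha⟩ := hcov x
      have hpow : ∀ n : ℕ, dist x₀ ((a * g * a⁻¹) ^ n • x₀) ≤ 2 * R := by
        intro n
        have h1 := dist_pow_le hiso g x n
        rw [hzero, mul_zero] at h1
        rw [conj_pow]
        have h2 := dist_conj_le hiso x₀ x a (g ^ n)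
        have h3 := hR' _ ha
        linarith
      have hfin : IsOfFinOrder (a * g * a⁻¹) := by
        rw [← finite_powers]
        refine (hproper (2 * R)).subset ?_
        intro y hy
        obtain ⟨n, rfl⟩ := (Submonoid.mem_powers_iff y (a * g * a⁻¹)).mp hy
        exact hpow n
      rw [Finset.mem_image]
      refine ⟨a * g * a⁻¹, hΦfin.mem_toFinset.mpr ⟨?_, hfin⟩, ?_⟩
      · have h4 := hpow 1
        rw [pow_one] at h4
        exact h4
      · rw [ConjClasses.mk_eq_mk_iff_isConj]
        exact (isConj_iff.mpr ⟨a, rfl⟩).symm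

include hiso in
/-- For a proper action, an element with a point of zero displacement has finite order. -/
theorem isOfFinOrder_of_dist_eq_zero (x₀ : X)
    (hproper : ∀ r : ℝ, {a : G | dist x₀ (a • x₀) ≤ r}.Finite)
    (g : G) (x : X) (h0 : dist x (g • x) = 0) : IsOfFinOrder g := by
  rw [← finite_powers]
  refine (hproper (2 * dist x₀ x)).subset ?_
  intro y hy
  obtain ⟨n, rfl⟩ := (Submonoid.mem_powers_iff y g).mp hy
  have h1 := dist_pow_le hiso g x n
  rw [h0, mul_zero] at h1
  have t1 : dist x₀ (g ^ n • x₀) ≤ dist x₀ x + dist x (g ^ n • x₀) := dist_triangle _ _ _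
  have t2 : dist x (g ^ n • x₀) ≤ dist x (g ^ n • x) + dist (g ^ n • x) (g ^ n • x₀) :=
    dist_triangle _ _ _
  rw [hiso, dist_comm x x₀] at t2
  show dist x₀ (g ^ n • x₀) ≤ 2 * dist x₀ x
  linarith

/-- For a group acting properly and cocompactly by isometries on a space satisfying the CN
inequality, and every subgroup `H`, the trace coefficients of idempotent matrices over the
convolution algebra of `H` vanish at the classes of the elements of infinite order. -/
theorem cn_cocompact_subgroup_vanishing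
    (hiso : ∀ (a : G) (x y : X), dist (a • x) (a • y) = dist x y)
    (hCN : ∀ x y : X, ∃ m : X, ∀ p : X,
      dist p m ^ 2 ≤ (dist p x ^ 2 + dist p y ^ 2) / 2 - dist x y ^ 2 / 4)
    (x₀ : X) (hproper : ∀ r : ℝ, {a : G | dist x₀ (a • x₀) ≤ r}.Finite)
    (K : Set X) (hK : IsCompact K) (hcov : ∀ x : X, ∃ a : G, a • x ∈ K)
    (H : Subgroup G) (q : ℕ) (e : Fin q → Fin q → H → ℂ)
    (hsum : ∀ i j, Summable fun g => ‖e i j g‖)
    (hidem : ∀ i k g, ∑ j, ∑' h, e i j h * e j k (h⁻¹ * g) = e i k g)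
    (h : H) (hh : ¬ IsOfFinOrder h) :
    ∑' x : (ConjClasses.mk h).carrier, ∑ i, e i i (x : H) = 0 := by
  obtain ⟨x, hx⟩ := exists_min_displacement hiso x₀ hproper K hK hcov (h : G)
  have hisoH : ∀ (a : H) (x y : X), dist (a • x) (a • y) = dist x y := fun a x y => hiso a x y
  have hpos : 0 < dist x (h • x) := by
    by_contra hcon
    have hzero : dist x ((h : G) • x) = 0 := le_antisymm (not_lt.mp hcon) dist_nonneg
    have h1 := isOfFinOrder_of_dist_eq_zero hiso x₀ hproper (h : G) x hzero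
    exact hh (Submonoid.isOfFinOrder_coe.mp h1)
  exact cn_hyperbolic_vanishing q e hsum hidem hisoH hCN h x (fun y => hx y) hpos

end cocompact

end Vale.Agent.Lib.P184
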