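import Mathlib

namespace Vale.Agent.Lib.P184

/-- `L1Bass G` is the statement of the l1-Bass conjecture for the group `G`: for every
`q` and every `q × q` matrix `e` of absolutely summable complex functions on `G` that is
idempotent for convolution, `∑ j, ∑' h, e i j h * e j k (h⁻¹ * g) = e i k g`, there is a
finite set `F` of conjugacy classes of `G`, all consisting of elements of finite order,
such that the Hattori-Stallings coefficient `∑' x : C.carrier, ∑ i, e i i x` of `e`
vanishes at every conjugacy class `C` outside `F`. -/
def L1Bass (G : Type*) [Group G] : Prop :=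
  ∀ (q : ℕ) (e : Fin q → Fin q → G → ℂ),
    (∀ i j, Summable fun g => ‖e i j g‖) →
    (∀ i k g, ∑ j, ∑' h, e i j h * e j k (h⁻¹ * g) = e i k g) →
    ∃ F : Finset (ConjClasses G),
      (∀ C ∈ F, ∀ x ∈ C.carrier, IsOfFinOrder x) ∧
      ∀ C : ConjClasses G, C ∉ F → ∑' x : C.carrier, ∑ i, e i i (x : G) = 0

end Vale.Agent.Lib.P184
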