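import Mathlib
import Vale.Agent.Lib.P184.Close
import Vale.Agent.Lib.P184.Defs

/-!
The l1-Bass statement passes to free products.
-/

namespace Vale.Agent.Lib.P184

open scoped BigOperators
open Monoid CoprodI

variable {ι : Type*} {M : ι → Type*} [∀ i, Group (M i)]

section maps

variable [DecidableEq ι]

/-- The retraction of the free product onto a factor. -/
def retr (i : ι) : CoprodI M →* M i := CoprodI.lift (Pi.mulSingle i (MonoidHom.id (M i)))

theorem retr_of_same (i : ι) (m : M i) : retr i (of m) = m := by
  simp [retr]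

theorem retr_of_ne {i j : ι} (h : j ≠ i) (m : M j) : retr i (of m) = 1 := by
  simp [retr, Pi.mulSingle_eq_of_ne h]

/-- The endomorphism of the free product that kills the factors outside `J`. -/
def killOut (J : Finset ι) : CoprodI M →* CoprodI M :=
  CoprodI.lift fun j => if j ∈ J then of else 1

theorem killOut_of_mem {J : Finset ι} {j : ι} (h : j ∈ J) (m : M j) :
    killOut J (of m) = of m := by
  simp [killOut, h]

theorem killOut_of_notMem {J : Finset ι} {j : ι} (h : j ∉ J) (m : M j) :
    killOut J (of m) = 1 := by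
  simp [killOut, h]

theorem retr_killOut {J : Finset ι} {i : ι} (hi : i ∉ J) (x : CoprodI M) :
    retr i (killOut J x) = 1 := by
  have h : (retr i).comp (killOut J) = (1 : CoprodI M →* M i) := by
    refine CoprodI.ext_hom _ _ fun j => ?_
    ext m
    simp only [MonoidHom.comp_apply, MonoidHom.one_apply]
    by_cases hj : j ∈ J
    · rw [killOut_of_mem hj]
      exact retr_of_ne (fun e : j = i => hi (e ▸ hj)) m
    · rw [killOut_of_notMem hj, map_one]
  exact DFunLike.congr_fun h x

theorem killOut_fix [∀ i, DecidableEq (M i)] {J : Finset ι} (x : CoprodI M)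
    (hx : ∀ l ∈ (Word.equiv x).toList, l.1 ∈ J) : killOut J x = x := by
  have h1 : (Word.equiv x).prod = x := Word.equiv.symm_apply_apply x
  rw [← h1]
  unfold Word.prod
  rw [map_list_prod, List.map_map]
  congr 1
  refine List.map_congr_left fun l hl => ?_
  exact killOut_of_mem (hx l hl) l.2

end maps

section factor

variable [DecidableEq ι] {q : ℕ}

theorem retr_preimage_invariant (i : ι) (a : M i) (x h : CoprodI M) :
    h⁻¹ * x * h ∈ retr i ⁻¹' (ConjClasses.mk a).carrier ↔
      x ∈ retr i ⁻¹' (ConjClasses.mk a).carrier := by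
  simp only [Set.mem_preimage, map_mul, map_inv]
  exact conjClass_invariant a (retr i x) (retr i h)

/-- The trace at the class of a nontrivial element of a factor equals a trace of the
image of the matrix under the retraction onto that factor. -/
theorem factor_trace (e : Fin q → Fin q → CoprodI M → ℂ)
    (hsum : ∀ i j, Summable fun g => ‖e i j g‖)
    (hidem : ∀ i k g, ∑ j, ∑' h, e i j h * e j k (h⁻¹ * g) = e i k g)
    (i : ι) (a : M i) (ha : a ≠ 1) :
    setSum (ConjClasses.mk (of a : CoprodI M)).carrier (diag e) =
      setSum (ConjClasses.mk a).carrier (diag (pushM (retr i) e)) := by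
  rw [diag_pushM hsum, setSum_pushS (summable_diag hsum)]
  have hCS : (ConjClasses.mk (of a : CoprodI M)).carrier ⊆
      retr i ⁻¹' (ConjClasses.mk a).carrier := by
    intro x hx
    have h1 := ConjClasses.mem_carrier_iff_mk_eq.mp hx
    rw [ConjClasses.mk_eq_mk_iff_isConj] at h1
    have h2 := (retr i).map_isConj h1
    rw [retr_of_same] at h2
    exact ConjClasses.mem_carrier_iff_mk_eq.mpr (ConjClasses.mk_eq_mk_iff_isConj.mpr h2)
  have hz : setSum (retr i ⁻¹' (ConjClasses.mk a).carrier \
      (ConjClasses.mk (of a : CoprodI M)).carrier) (diag e) = 0 := by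
    refine setSum_eq_zero_of_classes (summable_diag hsum) _ ?_ ?_
    · intro x h
      rw [Set.mem_sdiff, Set.mem_sdiff, retr_preimage_invariant, conjClass_invariant]
    · intro g hg
      rw [← tsum_class_eq]
      have hg1 : retr i g ∈ (ConjClasses.mk a).carrier := hg.1
      refine freeprod_vanishing q e hsum hidem g ?_ ?_
      · rintro rfl
        rw [map_one, ConjClasses.mem_carrier_iff_mk_eq, ConjClasses.mk_eq_mk_iff_isConj,
          isConj_one_right] at hg1
        exact ha hg1
      · intro j m u hgu
        by_cases hj : j = i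
        · subst hj
          apply hg.2
          rw [hgu, map_mul, map_mul, map_inv, retr_of_same, ConjClasses.mem_carrier_iff_mk_eq,
            ConjClasses.mk_eq_mk_iff_isConj] at hg1
          have h2 : IsConj m a := (isConj_iff.mpr ⟨retr j u, rfl⟩).trans hg1
          have h3 : IsConj (of m : CoprodI M) (of a) := (of : M j →* CoprodI M).map_isConj h2
          rw [hgu, ConjClasses.mem_carrier_iff_mk_eq, ConjClasses.mk_eq_mk_iff_isConj]
          exact (isConj_iff.mpr ⟨u, rfl⟩).symm.trans h3
        · rw [hgu, map_mul, map_mul, map_inv, retr_of_ne hj, mul_one, mul_inv_cancel,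
            ConjClasses.mem_carrier_iff_mk_eq, ConjClasses.mk_eq_mk_iff_isConj,
            isConj_one_right] at hg1
          exact ha hg1
  have hunion : retr i ⁻¹' (ConjClasses.mk a).carrier =
      (ConjClasses.mk (of a : CoprodI M)).carrier ∪
        (retr i ⁻¹' (ConjClasses.mk a).carrier \ (ConjClasses.mk (of a : CoprodI M)).carrier) :=
    (Set.union_sdiff_cancel hCS).symm
  conv_rhs => rw [hunion]
  rw [setSum_union (summable_diag hsum) Set.disjoint_sdiff_right, hz, add_zero]

end factor

section main

variable {q : ℕ}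

theorem exists_close_killOut [DecidableEq ι] (e : Fin q → Fin q → CoprodI M → ℂ)
    (hsum : ∀ i j, Summable fun g => ‖e i j g‖) :
    ∃ J : Finset ι, ∑ i, ∑ j, ∑' g, ‖pushM (killOut J) e i j g - e i j g‖ < 1 := by
  classical
  set ε : ℝ := 1 / (2 * ((q : ℝ) * q) + 1) with hε_def
  have hq : (0 : ℝ) ≤ (q : ℝ) * q := by positivity
  have hε : 0 < ε := by positivity
  choose K hK using fun i j => exists_finset_tail (hsum i j) hε
  let J : Finset ι := Finset.univ.biUnion fun i => Finset.univ.biUnion fun j =>
    (K i j).biUnion fun x => ((Word.equiv x).toList.map Sigma.fst).toFinset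
  refine ⟨J, ?_⟩
  have hfix : ∀ i j, ∀ x ∈ K i j, killOut J x = x := by
    intro i j x hx
    refine killOut_fix x fun l hl => ?_
    simp only [J, Finset.mem_biUnion, Finset.mem_univ, true_and, List.mem_toFinset, List.mem_map]
    exact ⟨i, j, x, hx, l, hl, rfl⟩
  have hb : ∀ i j, ∑' g, ‖pushM (killOut J) e i j g - e i j g‖ ≤ 2 * ε := by
    intro i j
    have h1 := (tsum_norm_push_sub_le (hsum i j) (killOut J) (K i j) (hfix i j)).2
    have h2 := hK i j
    exact h1.trans (by linarith)
  calc ∑ i, ∑ j, ∑' g, ‖pushM (killOut J) e i j g - e i j g‖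
      ≤ ∑ _i : Fin q, ∑ _j : Fin q, 2 * ε :=
        Finset.sum_le_sum fun i _ => Finset.sum_le_sum fun j _ => hb i j
    _ = (q : ℝ) * q * (2 * ε) := by
        simp only [Finset.sum_const, Finset.card_univ, Fintype.card_fin, nsmul_eq_mul]
        ring
    _ < 1 := by
        rw [hε_def]
        have hpos : (0 : ℝ) < 2 * ((q : ℝ) * q) + 1 := by positivity
        rw [show (q : ℝ) * q * (2 * (1 / (2 * ((q : ℝ) * q) + 1))) =
          (2 * ((q : ℝ) * q)) / (2 * ((q : ℝ) * q) + 1) by field_simp]
        rw [div_lt_one hpos]
        linarith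

/-- The l1-Bass statement passes from a family of groups to its free product. -/
theorem l1bass_coprodI (h : ∀ i, L1Bass (M i)) : L1Bass (CoprodI M) := by
  classical
  intro q e hsum hidem
  obtain ⟨J, hJ⟩ := exists_close_killOut e hsum
  have hsumJ : ∀ i j, Summable fun g => ‖pushM (killOut J) e i j g‖ :=
    fun i j => pushM_summable hsum (killOut J) i j
  have hidemJ := pushM_idem hsum hidem (killOut J)
  have htr : ∀ S : Set (CoprodI M), (∀ x h : CoprodI M, h⁻¹ * x * h ∈ S ↔ x ∈ S) →
      setSum S (diag (pushM (killOut J) e)) = setSum S (diag e) :=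
    fun S hS => setSum_diag_eq_of_close hsum hidem hsumJ hidemJ hJ S hS
  choose F hF1 hF2 using fun i => h i q (pushM (retr i) e)
    (fun k l => pushM_summable hsum (retr i) k l) (pushM_idem hsum hidem (retr i))
  refine ⟨insert (ConjClasses.mk 1) (J.biUnion fun i => (F i).image (ConjClasses.map of)),
    ?_, ?_⟩
  · intro C hC x hx
    rw [Finset.mem_insert, Finset.mem_biUnion] at hC
    rcases hC with rfl | ⟨i, hi, hC⟩
    · rw [ConjClasses.mem_carrier_iff_mk_eq, ConjClasses.mk_eq_mk_iff_isConj,
        isConj_one_left] at hx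
      rw [hx]
      exact IsOfFinOrder.one
    · rw [Finset.mem_image] at hC
      obtain ⟨C', hC', rfl⟩ := hC
      obtain ⟨a, rfl⟩ := ConjClasses.mk_surjective C'
      have ha : IsOfFinOrder a := hF1 i _ hC' a ConjClasses.mem_carrier_mk
      have hx' : x ∈ (ConjClasses.mk (of a : CoprodI M)).carrier := hx
      rw [ConjClasses.mem_carrier_iff_mk_eq, ConjClasses.mk_eq_mk_iff_isConj] at hx'
      exact hx'.symm.isOfFinOrder ((of : M i →* CoprodI M).isOfFinOrder ha)
  · intro C hC
    obtain ⟨g, rfl⟩ := ConjClasses.mk_surjective C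
    rw [Finset.mem_insert, not_or] at hC
    obtain ⟨hC1, hC2⟩ := hC
    by_cases hconj : ∃ (i : ι) (m : M i) (u : CoprodI M), g = u * of m * u⁻¹
    · obtain ⟨i, m, u, hgu⟩ := hconj
      have hcls : ConjClasses.mk g = ConjClasses.mk (of m : CoprodI M) := by
        rw [ConjClasses.mk_eq_mk_iff_isConj, hgu]
        exact (isConj_iff.mpr ⟨u, rfl⟩).symm
      have hm1 : m ≠ 1 := by
        rintro rfl
        apply hC1
        rw [hcls, map_one]
      rw [hcls, tsum_class_eq]
      by_cases hi : i ∈ J
      · have hmF : ConjClasses.mk m ∉ F i := by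
          intro hmem
          apply hC2
          rw [Finset.mem_biUnion]
          exact ⟨i, hi, Finset.mem_image.mpr ⟨ConjClasses.mk m, hmem, hcls.symm⟩⟩
        rw [factor_trace e hsum hidem i m hm1, ← tsum_class_eq]
        exact hF2 i _ hmF
      · rw [← htr _ (conjClass_invariant _), diag_pushM hsum,
          setSum_pushS (summable_diag hsum)]
        have hempty : killOut J ⁻¹' (ConjClasses.mk (of m : CoprodI M)).carrier = ∅ := by
          ext x
          simp only [Set.mem_preimage, Set.mem_empty_iff_false, iff_false]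
          intro hx
          rw [ConjClasses.mem_carrier_iff_mk_eq, ConjClasses.mk_eq_mk_iff_isConj] at hx
          have h2 := (retr i).map_isConj hx
          rw [retr_killOut hi, retr_of_same, isConj_one_right] at h2
          exact hm1 h2
        rw [hempty]
        simp [setSum]
    · have hg1 : g ≠ 1 := by
        rintro rfl
        exact hC1 rfl
      exact freeprod_vanishing q e hsum hidem g hg1 (fun i m u hgu => hconj ⟨i, m, u, hgu⟩)

end main

end Vale.Agent.Lib.P184
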