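import Mathlib

/-!
Length functions on a group that are hyperbolic in the sense of Gromov: the Gromov
product based at the identity, and the chain estimate for the powers of an element
whose square is longer than the element by more than three times the constant.
-/

namespace Vale.Agent.Lib.P184

variable {G : Type*} [Group G]

/-- The Gromov product based at the identity for a length function. -/
noncomputable def gp (ℓ : G → ℝ) (a b : G) : ℝ := (ℓ a + ℓ b - ℓ (a⁻¹ * b)) / 2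

theorem len_eq_gp (ℓ : G → ℝ) (a b : G) : ℓ (a⁻¹ * b) = ℓ a + ℓ b - 2 * gp ℓ a b := by
  unfold gp
  ring

/-- A symmetric subadditive length function which is hyperbolic with constant `δ`. -/
structure HypLen (ℓ : G → ℝ) (δ : ℝ) : Prop where
  one : ℓ 1 = 0
  inv : ∀ x, ℓ x⁻¹ = ℓ x
  mul : ∀ x y, ℓ (x * y) ≤ ℓ x + ℓ y
  hyp : ∀ a b c, min (gp ℓ a b) (gp ℓ b c) - δ ≤ gp ℓ a c

namespace HypLen

variable {ℓ : G → ℝ} {δ : ℝ} (H : HypLen ℓ δ)

include H

theorem nonneg (x : G) : 0 ≤ ℓ x := by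
  have h := H.mul x x⁻¹
  rw [mul_inv_cancel, H.one, H.inv] at h
  linarith

theorem gp_self (a : G) : gp ℓ a a = ℓ a := by
  unfold gp
  rw [inv_mul_cancel, H.one]
  ring

theorem delta_nonneg : 0 ≤ δ := by
  have h := H.hyp 1 1 1
  rw [H.gp_self, min_self] at h
  linarith

theorem gp_comm (a b : G) : gp ℓ a b = gp ℓ b a := by
  unfold gp
  have h : ℓ (a⁻¹ * b) = ℓ (b⁻¹ * a) := by
    rw [← H.inv (a⁻¹ * b)]
    congr 1
    group
  rw [h]
  ring

theorem gp_nonneg (a b : G) : 0 ≤ gp ℓ a b := by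
  unfold gp
  have h := H.mul a⁻¹ b
  rw [H.inv] at h
  linarith

theorem gp_le_left (a b : G) : gp ℓ a b ≤ ℓ a := by
  unfold gp
  have h := H.mul a (a⁻¹ * b)
  rw [mul_inv_cancel_left] at h
  linarith

theorem gp_le_right (a b : G) : gp ℓ a b ≤ ℓ b := by
  rw [H.gp_comm]
  exact H.gp_le_left b a

theorem gp_one_right (a : G) : gp ℓ a 1 = 0 := by
  unfold gp
  rw [mul_one, H.inv, H.one]
  ring

theorem gp_one_left (a : G) : gp ℓ 1 a = 0 := by
  rw [H.gp_comm, H.gp_one_right]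

theorem gp_add (a b : G) : gp ℓ a b + gp ℓ a⁻¹ (a⁻¹ * b) = ℓ a := by
  unfold gp
  rw [inv_inv, mul_inv_cancel_left, H.inv]
  ring

theorem len_pow_le (h : G) (n : ℕ) : ℓ (h ^ n) ≤ n * ℓ h := by
  induction n with
  | zero => simp [H.one]
  | succ n ih =>
    rw [pow_succ]
    have := H.mul (h ^ n) h
    push_cast
    linarith

/-- First chain estimate. -/
theorem stepA (h : G) (hρ : 2 * gp ℓ h⁻¹ h + 2 * δ < ℓ h) (k : ℕ) :
    gp ℓ (h ^ (k + 1))⁻¹ h ≤ gp ℓ h⁻¹ h + δ := by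
  have hδ := H.delta_nonneg
  induction k with
  | zero =>
    rw [zero_add, pow_one]
    linarith
  | succ k ih =>
    set a := (h ^ (k + 1 + 1))⁻¹ with ha
    have h1 := H.hyp h⁻¹ a h
    have h2 := H.gp_add h⁻¹ a
    rw [inv_inv, H.inv] at h2
    have h3 : h * a = (h ^ (k + 1))⁻¹ := by
      rw [ha, pow_succ (h) (k + 1)]
      group
    rw [h3, H.gp_comm h] at h2
    by_contra hcon
    rw [not_le] at hcon
    have h4 : gp ℓ h⁻¹ h + δ < min (gp ℓ h⁻¹ a) (gp ℓ a h) := by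
      rw [lt_min_iff]
      constructor
      · linarith
      · exact hcon
    linarith

/-- First chain estimate, mirrored. -/
theorem stepA' (h : G) (hρ : 2 * gp ℓ h⁻¹ h + 2 * δ < ℓ h) (k : ℕ) :
    gp ℓ (h ^ (k + 1)) h⁻¹ ≤ gp ℓ h⁻¹ h + δ := by
  have h1 := H.stepA h⁻¹ (by rw [inv_inv, H.gp_comm h, H.inv]; exact hρ) k
  rw [inv_inv, H.gp_comm h h⁻¹] at h1
  have h2 : ((h⁻¹) ^ (k + 1))⁻¹ = h ^ (k + 1) := by simp
  rw [h2] at h1
  exact h1

/-- Second chain estimate. -/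
theorem stepB (h : G) (hρ : 2 * gp ℓ h⁻¹ h + 3 * δ < ℓ h) (m n : ℕ) :
    gp ℓ (h ^ (m + 1))⁻¹ (h ^ (n + 1)) ≤ gp ℓ h⁻¹ h + 2 * δ := by
  have hδ := H.delta_nonneg
  have hρ' : 2 * gp ℓ h⁻¹ h + 2 * δ < ℓ h := by linarith
  have hρ0 := H.gp_nonneg h⁻¹ h
  set a := (h ^ (m + 1))⁻¹ with ha
  set b := h ^ (n + 1) with hb
  have h1 := H.hyp a b h
  have h2 := H.stepA h hρ' m
  have h3 := H.gp_add h b
  have h4 : h⁻¹ * b = h ^ n := by
    rw [hb, pow_succ']
    group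
  rw [h4] at h3
  have h5 : gp ℓ h⁻¹ (h ^ n) ≤ gp ℓ h⁻¹ h + δ := by
    rcases n with _ | n
    · rw [pow_zero, H.gp_one_right]
      linarith
    · rw [H.gp_comm]
      exact H.stepA' h hρ' n
  rw [H.gp_comm h b] at h3
  by_contra hcon
  rw [not_le] at hcon
  have h6 : gp ℓ h⁻¹ h + 2 * δ < min (gp ℓ a b) (gp ℓ b h) := by
    rw [lt_min_iff]
    constructor
    · exact hcon
    · linarith
  linarith

/-- Almost additivity of the length along the powers of `h`. -/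
theorem len_pow_add (h : G) (hρ : 2 * gp ℓ h⁻¹ h + 3 * δ < ℓ h) (m n : ℕ) :
    ℓ (h ^ (m + 1)) + ℓ (h ^ (n + 1)) - 2 * gp ℓ h⁻¹ h - 4 * δ
      ≤ ℓ (h ^ (m + 1) * h ^ (n + 1)) := by
  have h1 := H.stepB h hρ m n
  have h2 := len_eq_gp ℓ (h ^ (m + 1))⁻¹ (h ^ (n + 1))
  rw [inv_inv, H.inv] at h2
  linarith

/-- Linear growth of the length of the powers of `h`. -/
theorem len_pow_ge (h : G) (hρ : 2 * gp ℓ h⁻¹ h + 3 * δ < ℓ h) (j : ℕ) :
    j * (ℓ h - 2 * gp ℓ h⁻¹ h - 4 * δ) ≤ ℓ (h ^ j) := by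
  have hδ := H.delta_nonneg
  have hρ0 := H.gp_nonneg h⁻¹ h
  induction j with
  | zero => simp [H.one]
  | succ j ih =>
    rcases j with _ | j
    · simp only [zero_add, pow_one, Nat.cast_one, one_mul]
      linarith
    · have h1 := H.len_pow_add h hρ j 0
      rw [zero_add, pow_one, ← pow_succ] at h1
      push_cast at ih ⊢
      linarith

end HypLen

end Vale.Agent.Lib.P184
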