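import Mathlib
import Vale.Agent.Lib.P184.Gromov

/-!
For a hyperbolic length function on a group and an element `h` whose powers grow
linearly: every element commuting with `h` lies within a bounded distance of the
powers of `h`.
-/

namespace Vale.Agent.Lib.P184

variable {G : Type*} [Group G]

namespace HypLen

variable {ℓ : G → ℝ} {δ : ℝ} (H : HypLen ℓ δ)

include H

/-- If the identity is a nearest point to `z` among the nonnegative powers of `h`, then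
the Gromov products of `z` with these powers are bounded. -/
theorem proj_gp (h z : G) (hρ : 2 * gp ℓ h⁻¹ h + 3 * δ < ℓ h)
    (hz : ∀ i : ℕ, ℓ z ≤ ℓ (z⁻¹ * h ^ i)) (j : ℕ) :
    gp ℓ z (h ^ j) ≤ 2 * (ℓ h + gp ℓ h⁻¹ h + 3 * δ) := by
  classical
  have hδ := H.delta_nonneg
  have hρ0 := H.gp_nonneg h⁻¹ h
  have hℓ := H.nonneg h
  set t := gp ℓ z (h ^ j) with ht
  have ht0 : 0 ≤ t := H.gp_nonneg _ _
  have htj : t ≤ ℓ (h ^ j) := H.gp_le_right _ _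
  set i := Nat.findGreatest (fun i => ℓ (h ^ i) ≤ t) j with hi
  have hP0 : ℓ (h ^ 0) ≤ t := by
    rw [pow_zero, H.one]
    exact ht0
  have hi1 : ℓ (h ^ i) ≤ t :=
    Nat.findGreatest_spec (P := fun i => ℓ (h ^ i) ≤ t) (Nat.zero_le j) hP0
  have hij : i ≤ j := Nat.findGreatest_le j
  have key : t - ℓ h - gp ℓ h⁻¹ h - 2 * δ ≤ gp ℓ (h ^ i) (h ^ j) := by
    rcases hij.eq_or_lt with heq | hlt
    · rw [heq, H.gp_self]
      linarith
    · have h1 : ¬ ℓ (h ^ (i + 1)) ≤ t :=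
        Nat.findGreatest_is_greatest (P := fun i => ℓ (h ^ i) ≤ t) (Nat.lt_succ_self i) hlt
      rw [not_le] at h1
      have h2 : ℓ (h ^ (i + 1)) ≤ ℓ (h ^ i) + ℓ h := by
        rw [pow_succ]
        exact H.mul _ _
      rcases Nat.eq_zero_or_pos i with hi0 | hipos
      · rw [hi0, pow_zero, H.gp_one_left]
        rw [hi0, zero_add, pow_one] at h1
        linarith
      · obtain ⟨m, hm⟩ : ∃ m, i = m + 1 := ⟨i - 1, by omega⟩
        obtain ⟨n, hn⟩ : ∃ n, j = i + (n + 1) := ⟨j - i - 1, by omega⟩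
        have h3 := H.gp_add (h ^ i) (h ^ j)
        have h4 : (h ^ i)⁻¹ * h ^ j = h ^ (n + 1) := by
          rw [hn, pow_add]
          group
        rw [h4] at h3
        have h5 := H.stepB h hρ m n
        rw [← hm] at h5
        linarith
  have h6 := H.hyp z (h ^ j) (h ^ i)
  rw [H.gp_comm (h ^ j) (h ^ i)] at h6
  have h7 : t - ℓ h - gp ℓ h⁻¹ h - 3 * δ ≤ gp ℓ z (h ^ i) := by
    have : t - ℓ h - gp ℓ h⁻¹ h - 2 * δ ≤ min t (gp ℓ (h ^ i) (h ^ j)) := by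
      rw [le_min_iff]
      constructor <;> linarith
    linarith
  have h8 := len_eq_gp ℓ z (h ^ i)
  have h9 := hz i
  linarith

/-- An element commuting with `h` for which the identity is a nearest point among all
powers of `h` has bounded length. -/
theorem proj_bound (h z : G) (hρ : 2 * gp ℓ h⁻¹ h + 4 * δ < ℓ h) (hc : Commute z h)
    (hz : ∀ k : ℤ, ℓ z ≤ ℓ (z⁻¹ * h ^ k)) :
    ℓ z ≤ 4 * (ℓ h + gp ℓ h⁻¹ h + 3 * δ) + δ := by
  have hδ := H.delta_nonneg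
  have hρ0 := H.gp_nonneg h⁻¹ h
  have hℓ := H.nonneg h
  have hρ3 : 2 * gp ℓ h⁻¹ h + 3 * δ < ℓ h := by linarith
  set K₁ := 2 * (ℓ h + gp ℓ h⁻¹ h + 3 * δ) with hK₁
  set ε₀ := ℓ h - 2 * gp ℓ h⁻¹ h - 4 * δ with hε₀
  have hε : 0 < ε₀ := by rw [hε₀]; linarith
  obtain ⟨j, hj⟩ := exists_nat_gt ((2 * K₁ + δ) / ε₀)
  have hj' : 2 * K₁ + δ < j * ε₀ := by
    rw [div_lt_iff₀ hε] at hj
    exact hj
  set p := h ^ j with hp
  have hpl : 2 * K₁ + δ < ℓ p := lt_of_lt_of_le hj' (H.len_pow_ge h hρ3 j)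
  have hzpos : ∀ i : ℕ, ℓ z ≤ ℓ (z⁻¹ * h ^ i) := fun i => by
    have := hz (i : ℤ)
    rwa [zpow_natCast] at this
  have hzneg : ∀ i : ℕ, ℓ z ≤ ℓ (z⁻¹ * h⁻¹ ^ i) := fun i => by
    have := hz (-(i : ℤ))
    rwa [zpow_neg, zpow_natCast, ← inv_pow] at this
  have hA : gp ℓ z p ≤ K₁ := H.proj_gp h z hρ3 hzpos j
  have hB : gp ℓ z p⁻¹ ≤ K₁ := by
    have h1 := H.proj_gp h⁻¹ z (by rw [inv_inv, H.gp_comm h, H.inv]; exact hρ3) hzneg j
    rw [inv_inv, H.gp_comm h h⁻¹, H.inv, inv_pow] at h1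
    exact h1
  have h1 := H.hyp p⁻¹ (p⁻¹ * z) z
  have h2 := H.gp_add p z
  rw [H.gp_comm p z] at h2
  rw [H.gp_comm p⁻¹ z] at h1
  have h3 : gp ℓ (p⁻¹ * z) z ≤ K₁ + δ := by
    by_contra hcon
    rw [not_le] at hcon
    have : K₁ + δ < min (gp ℓ p⁻¹ (p⁻¹ * z)) (gp ℓ (p⁻¹ * z) z) := by
      rw [lt_min_iff]
      constructor
      · linarith
      · exact hcon
    linarith
  have hcp : Commute z p := hc.pow_right j
  have h4 := len_eq_gp ℓ (p⁻¹ * z) z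
  have h5 : (p⁻¹ * z)⁻¹ * z = p := by
    have : z * p = p * z := hcp.eq
    calc (p⁻¹ * z)⁻¹ * z = z⁻¹ * (p * z) := by group
      _ = z⁻¹ * (z * p) := by rw [this]
      _ = p := by group
  rw [h5] at h4
  have h6 := len_eq_gp ℓ z p
  have h7 : ℓ (p⁻¹ * z) = ℓ (z⁻¹ * p) := by
    rw [← H.inv (p⁻¹ * z)]
    congr 1
    group
  have : 4 * (ℓ h + gp ℓ h⁻¹ h + 3 * δ) + δ = 2 * K₁ + δ := by rw [hK₁]; ring
  rw [this]
  linarith

/-- Linear growth of the length of all integer powers. -/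
theorem len_zpow_ge (h : G) (hρ : 2 * gp ℓ h⁻¹ h + 3 * δ < ℓ h) (k : ℤ) :
    (k.natAbs : ℝ) * (ℓ h - 2 * gp ℓ h⁻¹ h - 4 * δ) ≤ ℓ (h ^ k) := by
  rcases Int.natAbs_eq k with hk | hk
  · have h1 := H.len_pow_ge h hρ k.natAbs
    have h2 : h ^ k = h ^ k.natAbs := by
      conv_lhs => rw [hk]
      rw [zpow_natCast]
    rw [h2]
    exact h1
  · have h1 := H.len_pow_ge h hρ k.natAbs
    have h2 : h ^ k = (h ^ k.natAbs)⁻¹ := by
      conv_lhs => rw [hk]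
      rw [zpow_neg, zpow_natCast]
    rw [h2, H.inv]
    exact h1

/-- Among the powers of `h` there is a nearest one to any given element. -/
theorem exists_nearest (h z : G) (hρ : 2 * gp ℓ h⁻¹ h + 4 * δ < ℓ h) :
    ∃ k₀ : ℤ, ∀ k : ℤ, ℓ (z⁻¹ * h ^ k₀) ≤ ℓ (z⁻¹ * h ^ k) := by
  have hδ := H.delta_nonneg
  have hρ3 : 2 * gp ℓ h⁻¹ h + 3 * δ < ℓ h := by linarith
  set ε₀ := ℓ h - 2 * gp ℓ h⁻¹ h - 4 * δ with hε₀
  have hε : 0 < ε₀ := by rw [hε₀]; linarith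
  set f : ℤ → ℝ := fun k => ℓ (z⁻¹ * h ^ k) with hf
  have hlow : ∀ k : ℤ, (k.natAbs : ℝ) * ε₀ - ℓ z ≤ f k := by
    intro k
    have h1 := H.len_zpow_ge h hρ3 k
    have h2 := H.mul z (z⁻¹ * h ^ k)
    rw [mul_inv_cancel_left] at h2
    show (k.natAbs : ℝ) * ε₀ - ℓ z ≤ ℓ (z⁻¹ * h ^ k)
    linarith
  set N : ℕ := ⌈2 * ℓ z / ε₀⌉₊ with hN
  have hfin : {k : ℤ | f k ≤ f 0}.Finite := by
    refine Set.Finite.subset (Finset.finite_toSet (Finset.Icc (-(N : ℤ)) N)) ?_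
    intro k hk
    have h1 : f k ≤ f 0 := hk
    have h2 : f 0 = ℓ z := by
      show ℓ (z⁻¹ * h ^ (0 : ℤ)) = ℓ z
      rw [zpow_zero, mul_one, H.inv]
    have h3 := hlow k
    have h4 : (k.natAbs : ℝ) ≤ 2 * ℓ z / ε₀ := by
      rw [le_div_iff₀ hε]
      linarith
    have h5 : (k.natAbs : ℝ) ≤ N := h4.trans (Nat.le_ceil _)
    have h6 : k.natAbs ≤ N := by exact_mod_cast h5
    rw [Finset.coe_Icc, Set.mem_Icc]
    constructor <;> omega
  obtain ⟨k₀, hk₀, hmin⟩ := Set.exists_min_image {k : ℤ | f k ≤ f 0} f hfin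
    ⟨0, show f 0 ≤ f 0 from le_refl _⟩
  refine ⟨k₀, fun k => ?_⟩
  by_cases hk : f k ≤ f 0
  · exact hmin k hk
  · rw [not_le] at hk
    have : f k₀ ≤ f 0 := hk₀
    exact (this.trans hk.le)

/-- Every element commuting with `h` is a power of `h` times an element of bounded length
commuting with `h`. -/
theorem centralizer_decomp (h z : G) (hρ : 2 * gp ℓ h⁻¹ h + 4 * δ < ℓ h) (hc : Commute z h) :
    ∃ k₀ : ℤ, ∃ z' : G, z = h ^ k₀ * z' ∧ Commute z' h ∧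
      ℓ z' ≤ 4 * (ℓ h + gp ℓ h⁻¹ h + 3 * δ) + δ := by
  obtain ⟨k₀, hk₀⟩ := H.exists_nearest h z hρ
  refine ⟨k₀, (h ^ k₀)⁻¹ * z, by group, ?_, ?_⟩
  · exact ((Commute.refl h).zpow_left k₀).inv_left.mul_left hc
  · refine H.proj_bound h _ hρ (((Commute.refl h).zpow_left k₀).inv_left.mul_left hc) ?_
    intro k
    have h1 : ((h ^ k₀)⁻¹ * z)⁻¹ * h ^ k = z⁻¹ * h ^ (k₀ + k) := by
      rw [zpow_add]
      group
    have h2 : ℓ ((h ^ k₀)⁻¹ * z) = ℓ (z⁻¹ * h ^ k₀) := by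
      rw [← H.inv ((h ^ k₀)⁻¹ * z)]
      congr 1
      group
    rw [h1, h2]
    exact hk₀ (k₀ + k)

end HypLen

end Vale.Agent.Lib.P184
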