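import Mathlib
import Vale.Agent.Lib.P184.Undistorted

/-!
Vanishing of the trace at the class of an element `g` whose centralizer is covered by
finitely many cosets of the powers of a power `h` of `g`, when the powers of `h` grow
linearly with respect to a symmetric subadditive function.
-/

namespace Vale.Agent.Lib.P184

open scoped BigOperators IsMulCommutative

variable {G : Type*} [Group G]

theorem len_pow_succ_le (ℓ : G → ℝ) (hmul : ∀ x y, ℓ (x * y) ≤ ℓ x + ℓ y) (z : G) (m : ℕ) :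
    ℓ (z ^ (m + 1)) ≤ (m + 1 : ℕ) * ℓ z := by
  induction m with
  | zero => simp
  | succ m ih =>
    rw [pow_succ]
    have := hmul (z ^ (m + 1)) z
    push_cast at ih ⊢
    linarith

theorem not_isOfFinOrder_of_growth (ℓ : G → ℝ) (h : G) (ε : ℝ) (hε : 0 < ε)
    (hgrow : ∀ j : ℕ, j * ε ≤ ℓ (h ^ j)) : ¬ IsOfFinOrder h := by
  intro hfin
  obtain ⟨n, hn, hn1⟩ := isOfFinOrder_iff_pow_eq_one.mp hfin
  obtain ⟨i, hi⟩ := exists_nat_gt (ℓ 1 / ε)
  have h1 := hgrow (n * i)
  rw [pow_mul, hn1, one_pow] at h1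
  rw [div_lt_iff₀ hε] at hi
  have h2 : (i : ℝ) * ε ≤ ((n * i : ℕ) : ℝ) * ε := by
    have : (i : ℝ) ≤ ((n * i : ℕ) : ℝ) := by
      exact_mod_cast Nat.le_mul_of_pos_left i hn
    exact mul_le_mul_of_nonneg_right this hε.le
  linarith

theorem len_zpow_growth (ℓ : G → ℝ) (hinv : ∀ x, ℓ x⁻¹ = ℓ x) (h : G) (ε : ℝ)
    (hgrow : ∀ j : ℕ, j * ε ≤ ℓ (h ^ j)) (k : ℤ) : |(k : ℝ)| * ε ≤ ℓ (h ^ k) := by
  have habs : |(k : ℝ)| = (k.natAbs : ℝ) := by
    rw [Nat.cast_natAbs, Int.cast_abs]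
  rw [habs]
  rcases Int.natAbs_eq k with hk | hk
  · have h2 : h ^ k = h ^ k.natAbs := by
      conv_lhs => rw [hk]
      rw [zpow_natCast]
    rw [h2]
    exact hgrow _
  · have h2 : h ^ k = (h ^ k.natAbs)⁻¹ := by
      conv_lhs => rw [hk]
      rw [zpow_neg, zpow_natCast]
    rw [h2, hinv]
    exact hgrow _

/-- Vanishing at the class of `g` when the centralizer of `g` is covered by finitely many
cosets of the powers of `g ^ n`, whose lengths grow linearly. -/
theorem vcyclic_vanishing (q : ℕ) (e : Fin q → Fin q → G → ℂ)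
    (hsum : ∀ i j, Summable fun g => ‖e i j g‖)
    (hidem : ∀ i k g, ∑ j, ∑' h, e i j h * e j k (h⁻¹ * g) = e i k g)
    (g : G) (n : ℕ) (ℓ : G → ℝ)
    (hmul : ∀ x y, ℓ (x * y) ≤ ℓ x + ℓ y) (hinv : ∀ x, ℓ x⁻¹ = ℓ x)
    (ε : ℝ) (hε : 0 < ε) (hgrow : ∀ j : ℕ, j * ε ≤ ℓ ((g ^ n) ^ j))
    (F : Set G) (hF : F.Finite)
    (hcov : ∀ z : G, Commute z g → ∃ k : ℤ, ∃ f ∈ F, z = (g ^ n) ^ k * f) :
    ∑' x : (ConjClasses.mk g).carrier, ∑ i, e i i (x : G) = 0 := by
  classical
  set C : Subgroup G := Subgroup.centralizer {g} with hCdef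
  have hmemC : ∀ z : G, z ∈ C ↔ Commute z g := by
    intro z
    rw [hCdef, Subgroup.mem_centralizer_iff]
    constructor
    · intro h
      exact (h g rfl).symm
    · intro h x hx
      rw [Set.mem_singleton_iff] at hx
      rw [hx]
      exact h.eq.symm
  have hgC : g ∈ C := (hmemC g).mpr (Commute.refl g)
  set gC : C := ⟨g, hgC⟩ with hgCdef
  set hC : C := gC ^ n with hhC
  have hhCval : (hC : G) = g ^ n := by rw [hhC]; rfl
  set Z : Subgroup C := Subgroup.zpowers hC with hZ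
  have hninf : ¬ IsOfFinOrder (g ^ n) := not_isOfFinOrder_of_growth ℓ (g ^ n) ε hε hgrow
  have hginf : ¬ IsOfFinOrder g := fun h => hninf h.pow
  have hinjg : Function.Injective fun k : ℤ => g ^ k :=
    injective_zpow_iff_not_isOfFinOrder.mpr hginf
  -- the central cyclic subgroup has finite index
  have hcentral : ∀ (z : C) (k : ℤ), z * hC ^ k = hC ^ k * z := by
    intro z k
    apply Subtype.ext
    have h1 : Commute (z : G) g := (hmemC z).mp z.2
    have h2 : Commute (z : G) ((g ^ n) ^ k) := (h1.pow_right n).zpow_right k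
    simp only [Subgroup.coe_mul, Subgroup.coe_zpow, hhCval]
    exact h2.eq
  have : Finite F := hF.to_subtype
  have hfinq : Finite (C ⧸ Z) := by
    let ψ : F → C ⧸ Z := fun f =>
      if hf : (f : G) ∈ C then ((⟨f, hf⟩ : C) : C ⧸ Z) else ((1 : C) : C ⧸ Z)
    refine Finite.of_surjective ψ ?_
    intro x
    obtain ⟨z, rfl⟩ := QuotientGroup.mk_surjective x
    obtain ⟨k, f, hf, hz⟩ := hcov z ((hmemC z).mp z.2)
    have hfC : f ∈ C := by
      have : f = ((g ^ n) ^ k)⁻¹ * z := by rw [hz]; group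
      rw [this]
      exact C.mul_mem (C.inv_mem (C.zpow_mem (C.pow_mem hgC n) k)) z.2
    refine ⟨⟨f, hf⟩, ?_⟩
    show (if hf' : f ∈ C then ((⟨f, hf'⟩ : C) : C ⧸ Z) else ((1 : C) : C ⧸ Z)) = _
    rw [dif_pos hfC, QuotientGroup.eq]
    have h1 : z = hC ^ k * ⟨f, hfC⟩ := by
      apply Subtype.ext
      simp only [Subgroup.coe_mul, Subgroup.coe_zpow, hhCval]
      exact hz
    have h2 : (⟨f, hfC⟩ : C)⁻¹ * z = hC ^ k := by
      rw [h1, ← hcentral, inv_mul_cancel_left]
    rw [h2]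
    exact Subgroup.zpow_mem_zpowers hC k
  have : Z.FiniteIndex := Subgroup.finiteIndex_iff_finite_quotient.mpr hfinq
  set m := Z.index with hm
  have hm0 : m ≠ 0 := Subgroup.FiniteIndex.index_ne_zero
  let V : C →* Z := MonoidHom.transfer (MonoidHom.id Z)
  have hkey : ∀ (z : C) (k : ℕ) (c₀ : C), c₀⁻¹ * z ^ k * c₀ ∈ Z → c₀⁻¹ * z ^ k * c₀ = z ^ k := by
    intro z k c₀ hmem
    obtain ⟨j, hj⟩ := Subgroup.mem_zpowers_iff.mp hmem
    have h2 : z ^ k = hC ^ j := by
      have h1 : z ^ k = c₀ * (c₀⁻¹ * z ^ k * c₀) * c₀⁻¹ := by group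
      rw [h1, ← hj, hcentral, mul_inv_cancel_right]
    exact hj.symm.trans h2.symm
  have hV : ∀ z : C, ((V z : Z) : C) = z ^ m := by
    intro z
    have := MonoidHom.transfer_eq_pow (MonoidHom.id Z) z (hkey z)
    show ((MonoidHom.transfer (MonoidHom.id Z) z : Z) : C) = z ^ m
    rw [this]
    rfl
  have hex : ∀ z : C, ∃ k : ℤ, hC ^ k = z ^ m := by
    intro z
    have h1 : ((V z : Z) : C) ∈ Z := (V z).2
    rw [hV z] at h1
    exact Subgroup.mem_zpowers_iff.mp h1
  choose κ hκ using hex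
  have hinjh : Function.Injective fun k : ℤ => hC ^ k := by
    intro a b hab
    have h1 : (g ^ n) ^ a = (g ^ n) ^ b := by
      have := congrArg (fun c : C => (c : G)) hab
      simpa only [Subgroup.coe_zpow, hhCval] using this
    exact (injective_zpow_iff_not_isOfFinOrder.mpr hninf) h1
  have hκmul : ∀ z z' : C, κ (z * z') = κ z + κ z' := by
    intro z z'
    apply hinjh
    show hC ^ κ (z * z') = hC ^ (κ z + κ z')
    rw [zpow_add, hκ, hκ, hκ, ← hV, ← hV, ← hV, map_mul]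
    rfl
  set φ : G → ℝ := fun z => if hz : z ∈ C then (κ ⟨z, hz⟩ : ℝ) else 0 with hφdef
  set L : G → ℝ := fun z => (m : ℝ) / ε * ℓ z with hLdef
  have hφ : ∀ z z' : G, Commute z g → Commute z' g → φ (z * z') = φ z + φ z' := by
    intro z z' hz hz'
    have h1 : z ∈ C := (hmemC z).mpr hz
    have h2 : z' ∈ C := (hmemC z').mpr hz'
    have h3 : z * z' ∈ C := C.mul_mem h1 h2
    simp only [hφdef, dif_pos h1, dif_pos h2, dif_pos h3]
    have := hκmul ⟨z, h1⟩ ⟨z', h2⟩
    rw [← Int.cast_add, ← this]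
    rfl
  have hL : ∀ x y : G, L (x * y) ≤ L x + L y := by
    intro x y
    simp only [hLdef]
    have h1 : 0 ≤ (m : ℝ) / ε := div_nonneg (Nat.cast_nonneg m) hε.le
    have h2 := hmul x y
    nlinarith
  have hφL : ∀ z : G, Commute z g → |φ z| ≤ L z := by
    intro z hz
    have h1 : z ∈ C := (hmemC z).mpr hz
    simp only [hφdef, dif_pos h1, hLdef]
    have h2 := len_zpow_growth ℓ hinv (g ^ n) ε hgrow (κ ⟨z, h1⟩)
    have h3 : (g ^ n) ^ κ ⟨z, h1⟩ = z ^ m := by
      have := congrArg (fun c : C => (c : G)) (hκ ⟨z, h1⟩)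
      simpa only [Subgroup.coe_zpow, hhCval, Subgroup.coe_pow] using this
    rw [h3] at h2
    obtain ⟨m', hm'⟩ : ∃ m', m = m' + 1 := ⟨m - 1, by omega⟩
    have h4 := len_pow_succ_le ℓ hmul z m'
    rw [← hm'] at h4
    rw [div_mul_eq_mul_div, le_div_iff₀ hε]
    linarith
  have hg : φ g ≠ 0 := by
    simp only [hφdef, dif_pos hgC]
    have h1 := hκ gC
    have h2 : g ^ ((n : ℤ) * κ gC) = g ^ (m : ℤ) := by
      have := congrArg (fun c : C => (c : G)) h1
      simp only [Subgroup.coe_zpow, hhCval, Subgroup.coe_pow] at this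
      rw [zpow_mul, zpow_natCast, zpow_natCast]
      exact this
    have h3 : (n : ℤ) * κ gC = (m : ℤ) := hinjg h2
    intro h0
    have h4 : κ gC = 0 := by exact_mod_cast h0
    rw [h4, mul_zero] at h3
    exact hm0 (by exact_mod_cast h3.symm)
  exact undistorted_vanishing q e hsum hidem g φ L hφ hL hφL hg

end Vale.Agent.Lib.P184
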