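import Mathlib
import Vale.Agent.Lib.P184.GromovProj
import Vale.Agent.Lib.P184.VCyc

/-!
Vanishing of the trace at the class of an element that acts loxodromically in an
isometric action on a Gromov hyperbolic space and whose centralizer acts properly.
-/

namespace Vale.Agent.Lib.P184

open scoped BigOperators

variable {G : Type*} [Group G]

theorem two_gp_inv_self {ℓ : G → ℝ} {δ : ℝ} (H : HypLen ℓ δ) (h : G) :
    2 * gp ℓ h⁻¹ h = 2 * ℓ h - ℓ (h * h) := by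
  unfold gp
  rw [inv_inv, H.inv]
  ring

/-- Core statement for a hyperbolic length function. -/
theorem hyplen_vanishing {ℓ : G → ℝ} {δ : ℝ} (H : HypLen ℓ δ) (q : ℕ)
    (e : Fin q → Fin q → G → ℂ)
    (hsum : ∀ i j, Summable fun g => ‖e i j g‖)
    (hidem : ∀ i k g, ∑ j, ∑' h, e i j h * e j k (h⁻¹ * g) = e i k g)
    (g : G) (n : ℕ) (hρ : 2 * gp ℓ (g ^ n)⁻¹ (g ^ n) + 4 * δ < ℓ (g ^ n))
    (hprop : ∀ r : ℝ, {z : G | Commute z g ∧ ℓ z ≤ r}.Finite) :
    ∑' x : (ConjClasses.mk g).carrier, ∑ i, e i i (x : G) = 0 := by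
  have hδ := H.delta_nonneg
  set h := g ^ n with hh
  refine vcyclic_vanishing q e hsum hidem g n ℓ H.mul H.inv
    (ℓ h - 2 * gp ℓ h⁻¹ h - 4 * δ) (by linarith)
    (fun j => H.len_pow_ge h (by linarith) j)
    {z : G | Commute z g ∧ ℓ z ≤ 4 * (ℓ h + gp ℓ h⁻¹ h + 3 * δ) + δ} (hprop _) ?_
  intro z hz
  obtain ⟨k₀, z', hzz', -, hl⟩ := H.centralizer_decomp h z hρ (hz.pow_right n)
  refine ⟨k₀, z', ⟨?_, hl⟩, hzz'⟩
  have h1 : z' = (h ^ k₀)⁻¹ * z := by rw [hzz']; group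
  rw [h1]
  exact (((Commute.refl g).pow_left n).zpow_left k₀).inv_left.mul_left hz

/-- From linear growth of the powers to a power whose square is much longer. -/
theorem exists_doubling (ℓ : G → ℝ) (hnn : ∀ x, 0 ≤ ℓ x) (g : G) (ε : ℝ) (hε : 0 < ε)
    (hgrow : ∀ n : ℕ, ε * n ≤ ℓ (g ^ n)) (M : ℝ) (_hM : 0 ≤ M) :
    ∃ n : ℕ, ℓ (g ^ n) + M < ℓ (g ^ (2 * n)) := by
  by_contra hcon
  have hall : ∀ n : ℕ, ℓ (g ^ (2 * n)) ≤ ℓ (g ^ n) + M := by
    intro n
    by_contra h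
    exact hcon ⟨n, not_le.mp h⟩
  have hpow : ∀ k : ℕ, ℓ (g ^ (2 ^ k)) ≤ ℓ g + k * M := by
    intro k
    induction k with
    | zero => simp
    | succ k ih =>
      have := hall (2 ^ k)
      rw [← pow_succ'] at this
      push_cast
      linarith
  set A := ℓ g with hA
  have hA0 : 0 ≤ A := hnn g
  obtain ⟨j₀, hj₀⟩ := exists_nat_gt ((2 * M + A + 1) / ε)
  rw [div_lt_iff₀ hε] at hj₀
  set j := j₀ + 1 with hj
  have h1 : (j₀ : ℝ) ≤ (2 : ℝ) ^ j := by
    have h2 : j₀ < 2 ^ j := lt_of_lt_of_le Nat.lt_two_pow_self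
      (Nat.pow_le_pow_right (by norm_num) (Nat.le_succ j₀))
    exact_mod_cast h2.le
  have h3 : 2 * M + A + 1 ≤ ε * (2 : ℝ) ^ j := by
    have : (j₀ : ℝ) * ε ≤ (2 : ℝ) ^ j * ε := mul_le_mul_of_nonneg_right h1 hε.le
    linarith
  have h4 : (j : ℝ) ≤ (2 : ℝ) ^ j := by
    have : j < 2 ^ j := Nat.lt_two_pow_self
    exact_mod_cast this.le
  have h5 : (1 : ℝ) ≤ j := by
    rw [hj]
    push_cast
    linarith [Nat.cast_nonneg (α := ℝ) j₀]
  have h6 := hgrow (2 ^ (2 * j))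
  have h7 := hpow (2 * j)
  have h8 : (((2 : ℕ) ^ (2 * j) : ℕ) : ℝ) = (2 : ℝ) ^ j * (2 : ℝ) ^ j := by
    push_cast
    rw [two_mul, pow_add]
  rw [h8] at h6
  have h9 : ((2 * j : ℕ) : ℝ) = 2 * (j : ℝ) := by push_cast; ring
  rw [h9] at h7
  have h10 : (2 * M + A + 1) * (j : ℝ) ≤ ε * ((2 : ℝ) ^ j * (2 : ℝ) ^ j) := by
    have e1 : (2 * M + A + 1) * (j : ℝ) ≤ (ε * (2 : ℝ) ^ j) * (j : ℝ) :=
      mul_le_mul_of_nonneg_right h3 (by linarith)
    have e2 : (ε * (2 : ℝ) ^ j) * (j : ℝ) ≤ (ε * (2 : ℝ) ^ j) * (2 : ℝ) ^ j :=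
      mul_le_mul_of_nonneg_left h4 (by positivity)
    linarith
  nlinarith

section action

variable {X : Type*} [PseudoMetricSpace X] [MulAction G X]

/-- The displacement of a base point is a hyperbolic length function when the space
satisfies the four point condition. -/
theorem hyplen_of_action (hiso : ∀ (a : G) (x y : X), dist (a • x) (a • y) = dist x y)
    (δ : ℝ)
    (hδ : ∀ x y z w : X,
      dist x z + dist y w ≤ max (dist x y + dist z w) (dist x w + dist y z) + δ)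
    (x₀ : X) : HypLen (fun a : G => dist x₀ (a • x₀)) (δ / 2) := by
  have hlen : ∀ a b : G, dist x₀ ((a⁻¹ * b) • x₀) = dist (a • x₀) (b • x₀) := by
    intro a b
    rw [← hiso a x₀ ((a⁻¹ * b) • x₀), ← mul_smul, mul_inv_cancel_left]
  refine ⟨?_, ?_, ?_, ?_⟩
  · simp
  · intro a
    show dist x₀ (a⁻¹ • x₀) = dist x₀ (a • x₀)
    rw [← hiso a x₀ (a⁻¹ • x₀), smul_inv_smul, dist_comm]
  · intro a b
    show dist x₀ ((a * b) • x₀) ≤ dist x₀ (a • x₀) + dist x₀ (b • x₀)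
    have h1 := dist_triangle x₀ (a • x₀) ((a * b) • x₀)
    rw [mul_smul, hiso] at h1
    rw [mul_smul]
    exact h1
  · intro a b c
    unfold gp
    simp only [hlen]
    have h1 := hδ (a • x₀) (b • x₀) (c • x₀) x₀
    rw [dist_comm (c • x₀) x₀, dist_comm (a • x₀) x₀, dist_comm (b • x₀) x₀] at h1
    rcases le_total (dist (a • x₀) (b • x₀) + dist x₀ (c • x₀))
        (dist x₀ (a • x₀) + dist (b • x₀) (c • x₀)) with h | h
    · rw [max_eq_right h] at h1
      have : min ((dist x₀ (a • x₀) + dist x₀ (b • x₀) - dist (a • x₀) (b • x₀)) / 2)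
          ((dist x₀ (b • x₀) + dist x₀ (c • x₀) - dist (b • x₀) (c • x₀)) / 2)
          ≤ (dist x₀ (b • x₀) + dist x₀ (c • x₀) - dist (b • x₀) (c • x₀)) / 2 :=
        min_le_right _ _
      linarith
    · rw [max_eq_left h] at h1
      have : min ((dist x₀ (a • x₀) + dist x₀ (b • x₀) - dist (a • x₀) (b • x₀)) / 2)
          ((dist x₀ (b • x₀) + dist x₀ (c • x₀) - dist (b • x₀) (c • x₀)) / 2)
          ≤ (dist x₀ (a • x₀) + dist x₀ (b • x₀) - dist (a • x₀) (b • x₀)) / 2 :=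
        min_le_left _ _
      linarith

/-- Vanishing at the class of an element acting loxodromically on a hyperbolic space
whose centralizer acts properly on the orbit of the base point. -/
theorem loxodromic_vanishing (hiso : ∀ (a : G) (x y : X), dist (a • x) (a • y) = dist x y)
    (δ : ℝ)
    (hδ : ∀ x y z w : X,
      dist x z + dist y w ≤ max (dist x y + dist z w) (dist x w + dist y z) + δ)
    (x₀ : X) (g : G) (ε : ℝ) (hε : 0 < ε)
    (hlox : ∀ n : ℕ, ε * n ≤ dist x₀ (g ^ n • x₀))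
    (hprop : ∀ r : ℝ, {z : G | Commute z g ∧ dist x₀ (z • x₀) ≤ r}.Finite)
    (q : ℕ) (e : Fin q → Fin q → G → ℂ)
    (hsum : ∀ i j, Summable fun g => ‖e i j g‖)
    (hidem : ∀ i k g, ∑ j, ∑' h, e i j h * e j k (h⁻¹ * g) = e i k g) :
    ∑' x : (ConjClasses.mk g).carrier, ∑ i, e i i (x : G) = 0 := by
  have H := hyplen_of_action (G := G) hiso δ hδ x₀
  have hδ0 := H.delta_nonneg
  obtain ⟨n, hn⟩ := exists_doubling (fun a : G => dist x₀ (a • x₀)) (fun _ => dist_nonneg) g ε hε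
    hlox (2 * δ) (by linarith)
  refine hyplen_vanishing H q e hsum hidem g n ?_ hprop
  rw [two_gp_inv_self H, ← pow_add, ← two_mul]
  show 2 * dist x₀ (g ^ n • x₀) - dist x₀ (g ^ (2 * n) • x₀) + 4 * (δ / 2) < dist x₀ (g ^ n • x₀)
  have : dist x₀ (g ^ n • x₀) + 2 * δ < dist x₀ (g ^ (2 * n) • x₀) := hn
  linarith

end action

end Vale.Agent.Lib.P184
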