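import Mathlib
import Vale.Agent.Lib.P184.Lox

/-!
Groups with a proper, integer valued, geodesic length function that is hyperbolic in
the sense of Gromov (such as the word length of a hyperbolic group): the elements of
finite order are conjugate into a ball, centralizers are quasiconvex, and a power of
every element of infinite order has a square much longer than itself.
-/

namespace Vale.Agent.Lib.P184

open scoped BigOperators

variable {G : Type*} [Group G]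

/-- A proper, integer valued, geodesic length function on a group satisfying the four
point condition with constant `δ`. -/
structure WordHyp (ℓ : G → ℕ) (δ : ℝ) : Prop where
  eq_zero : ∀ x, ℓ x = 0 ↔ x = 1
  inv : ∀ x, ℓ x⁻¹ = ℓ x
  mul : ∀ x y, ℓ (x * y) ≤ ℓ x + ℓ y
  fin : ∀ n : ℕ, {x | ℓ x ≤ n}.Finite
  geo : ∀ x, ∀ t ≤ ℓ x, ∃ y, ℓ y = t ∧ ℓ (y⁻¹ * x) = ℓ x - t
  hyp : ∀ x y z w : G, (ℓ (x⁻¹ * z) : ℝ) + ℓ (y⁻¹ * w)
      ≤ max ((ℓ (x⁻¹ * y) : ℝ) + ℓ (z⁻¹ * w)) (ℓ (x⁻¹ * w) + ℓ (y⁻¹ * z)) + δ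

namespace WordHyp

variable {ℓ : G → ℕ} {δ : ℝ} (W : WordHyp ℓ δ)

include W

theorem one : ℓ 1 = 0 := (W.eq_zero 1).mpr rfl

theorem symm (a b : G) : ℓ (a⁻¹ * b) = ℓ (b⁻¹ * a) := by
  rw [← W.inv (a⁻¹ * b)]
  congr 1
  group

/-- The associated real valued hyperbolic length function. -/
theorem hypLen : HypLen (fun x : G => (ℓ x : ℝ)) (δ / 2) := by
  refine ⟨?_, ?_, ?_, ?_⟩
  · show ((ℓ 1 : ℕ) : ℝ) = 0
    rw [W.one]
    simp
  · intro x
    show ((ℓ x⁻¹ : ℕ) : ℝ) = ℓ x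
    rw [W.inv]
  · intro x y
    show ((ℓ (x * y) : ℕ) : ℝ) ≤ ℓ x + ℓ y
    exact_mod_cast W.mul x y
  · intro a b c
    unfold gp
    have h1 := W.hyp a b c 1
    rw [mul_one, mul_one, mul_one, W.inv, W.inv, W.inv] at h1
    rcases le_total ((ℓ (a⁻¹ * b) : ℝ) + ℓ c) ((ℓ a : ℝ) + ℓ (b⁻¹ * c)) with h | h
    · rw [max_eq_right h] at h1
      have : min (((ℓ a : ℝ) + ℓ b - ℓ (a⁻¹ * b)) / 2) (((ℓ b : ℝ) + ℓ c - ℓ (b⁻¹ * c)) / 2)
          ≤ ((ℓ b : ℝ) + ℓ c - ℓ (b⁻¹ * c)) / 2 := min_le_right _ _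
      linarith
    · rw [max_eq_left h] at h1
      have : min (((ℓ a : ℝ) + ℓ b - ℓ (a⁻¹ * b)) / 2) (((ℓ b : ℝ) + ℓ c - ℓ (b⁻¹ * c)) / 2)
          ≤ ((ℓ a : ℝ) + ℓ b - ℓ (a⁻¹ * b)) / 2 := min_le_left _ _
      linarith

theorem delta_nonneg : 0 ≤ δ := by
  have := W.hypLen.delta_nonneg
  linarith

theorem len_pow_le (g : G) (j : ℕ) : ℓ (g ^ j) ≤ j * ℓ g := by
  induction j with
  | zero => simp [W.one]
  | succ j ih =>
    rw [pow_succ]
    have := W.mul (g ^ j) g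
    rw [Nat.succ_mul]
    omega

/-- Every element of finite order is conjugate to an element of length at most
`2 δ + 1`. -/
theorem torsion_conj (g : G) (hg : IsOfFinOrder g) :
    ∃ x : G, (ℓ (x⁻¹ * g * x) : ℝ) ≤ 2 * δ + 1 := by
  classical
  set N := orderOf g with hN
  have hNpos : 0 < N := hg.orderOf_pos
  have hgN : g ^ N = 1 := pow_orderOf_eq_one g
  have hbound : ∀ i : ℕ, ℓ (g ^ i) ≤ N * ℓ g := by
    intro i
    rw [← pow_mod_orderOf g i]
    have h1 := W.len_pow_le g (i % orderOf g)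
    have h2 : i % orderOf g ≤ N := (Nat.mod_lt i hNpos).le
    exact h1.trans (Nat.mul_le_mul_right _ h2)
  have hP : ∃ r : ℕ, ∃ x : G, ∀ i : ℕ, ℓ (x⁻¹ * g ^ i) ≤ r :=
    ⟨N * ℓ g, 1, fun i => by simpa using hbound i⟩
  set r₀ := Nat.find hP with hr₀
  obtain ⟨x, hx⟩ := Nat.find_spec hP
  have hmin : ∀ r : ℕ, r < r₀ → ¬ ∃ x : G, ∀ i : ℕ, ℓ (x⁻¹ * g ^ i) ≤ r :=
    fun r hr => Nat.find_min hP hr
  have ginv : g⁻¹ = g ^ (N - 1) := by
    have h1 : g ^ (N - 1) * g = 1 := by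
      rw [← pow_succ, Nat.sub_add_cancel hNpos, hgN]
    exact (eq_inv_of_mul_eq_one_left h1).symm
  have hx' : ∀ i : ℕ, ℓ ((g * x)⁻¹ * g ^ i) ≤ r₀ := by
    intro i
    have h1 : (g * x)⁻¹ * g ^ i = x⁻¹ * g ^ (N - 1 + i) := by
      rw [pow_add, ← ginv]
      group
    rw [h1]
    exact hx _
  refine ⟨x, ?_⟩
  set D := ℓ (x⁻¹ * g * x) with hD
  set t := D / 2 with ht
  obtain ⟨u, hu1, hu2⟩ := W.geo (x⁻¹ * g * x) t (Nat.div_le_self D 2)
  set m := x * u with hm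
  have hmi : ∀ i : ℕ, (ℓ (m⁻¹ * g ^ i) : ℝ) ≤ r₀ - t + δ := by
    intro i
    have h1 := W.hyp (g ^ i) x m (g * x)
    have e1 : ℓ ((g ^ i)⁻¹ * m) = ℓ (m⁻¹ * g ^ i) := W.symm _ _
    have e2 : ℓ (x⁻¹ * (g * x)) = D := by rw [hD, mul_assoc]
    have e3 : ℓ ((g ^ i)⁻¹ * x) ≤ r₀ := by rw [W.symm]; exact hx i
    have e4 : ℓ (m⁻¹ * (g * x)) = D - t := by
      have : m⁻¹ * (g * x) = u⁻¹ * (x⁻¹ * g * x) := by rw [hm]; group
      rw [this]
      exact hu2
    have e5 : ℓ ((g ^ i)⁻¹ * (g * x)) ≤ r₀ := by rw [W.symm]; exact hx' i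
    have e6 : ℓ (x⁻¹ * m) = t := by
      have : x⁻¹ * m = u := by rw [hm]; group
      rw [this]
      exact hu1
    rw [e1, e2, e4, e6] at h1
    have htD : t ≤ D - t := by omega
    have c3 : (ℓ ((g ^ i)⁻¹ * x) : ℝ) ≤ r₀ := by exact_mod_cast e3
    have c5 : (ℓ ((g ^ i)⁻¹ * (g * x)) : ℝ) ≤ r₀ := by exact_mod_cast e5
    have c7 : ((D - t : ℕ) : ℝ) = (D : ℝ) - t := by
      rw [Nat.cast_sub (by omega)]
    have c8 : (t : ℝ) ≤ (D : ℝ) - t := by
      rw [← c7]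
      exact_mod_cast htD
    rw [c7] at h1
    have hmax : max ((ℓ ((g ^ i)⁻¹ * x) : ℝ) + ((D : ℝ) - t))
        ((ℓ ((g ^ i)⁻¹ * (g * x)) : ℝ) + t) ≤ r₀ + ((D : ℝ) - t) := by
      rw [max_le_iff]
      constructor <;> linarith
    linarith
  have htδ : (t : ℝ) ≤ δ := by
    by_contra hcon
    rw [not_le] at hcon
    have hlt : ∀ i : ℕ, ℓ (m⁻¹ * g ^ i) < r₀ := by
      intro i
      have h1 := hmi i
      have h2 : (ℓ (m⁻¹ * g ^ i) : ℝ) < r₀ := by linarith
      exact_mod_cast h2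
    have hr₀pos : 0 < r₀ := lt_of_le_of_lt (Nat.zero_le _) (hlt 0)
    exact hmin (r₀ - 1) (by omega) ⟨m, fun i => by have := hlt i; omega⟩
  have hD2 : D ≤ 2 * t + 1 := by omega
  have hD3 : (D : ℝ) ≤ 2 * t + 1 := by exact_mod_cast hD2
  linarith

/-- A geodesic path from the identity to a given element. -/
theorem exists_path (z : G) :
    ∃ p : ℕ → G, p 0 = 1 ∧ p (ℓ z) = z ∧
      (∀ t ≤ ℓ z, ℓ (p t) = t ∧ ℓ ((p t)⁻¹ * z) = ℓ z - t) ∧
      ∀ t < ℓ z, ℓ ((p t)⁻¹ * p (t + 1)) ≤ 1 := by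
  have key : ∀ L : ℕ, ∀ z : G, ℓ z = L → ∃ p : ℕ → G, p 0 = 1 ∧ p L = z ∧
      (∀ t ≤ L, ℓ (p t) = t ∧ ℓ ((p t)⁻¹ * z) = L - t) ∧
      ∀ t < L, ℓ ((p t)⁻¹ * p (t + 1)) ≤ 1 := by
    intro L
    induction L with
    | zero =>
      intro z hz
      have hz1 : z = 1 := (W.eq_zero z).mp hz
      refine ⟨fun _ => 1, rfl, hz1.symm, ?_, ?_⟩
      · intro t ht
        have ht0 : t = 0 := by omega
        subst ht0
        subst hz1
        simp [W.one]
      · intro t ht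
        omega
    | succ L ih =>
      intro z hz
      obtain ⟨y, hy1, hy2⟩ := W.geo z L (by omega)
      rw [hz] at hy2
      have hy2' : ℓ (y⁻¹ * z) = 1 := by omega
      obtain ⟨p', hp0, hpL, hp1, hp2⟩ := ih y hy1
      refine ⟨fun t => if t ≤ L then p' t else z, ?_, ?_, ?_, ?_⟩
      · simp [hp0]
      · simp
      · intro t ht
        by_cases htL : t ≤ L
        · simp only [if_pos htL]
          obtain ⟨h1, h2⟩ := hp1 t htL
          refine ⟨h1, ?_⟩
          have h3 : ℓ ((p' t)⁻¹ * z) ≤ ℓ ((p' t)⁻¹ * y) + ℓ (y⁻¹ * z) := by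
            have := W.mul ((p' t)⁻¹ * y) (y⁻¹ * z)
            have e : (p' t)⁻¹ * y * (y⁻¹ * z) = (p' t)⁻¹ * z := by group
            rwa [e] at this
          have h4 : ℓ z ≤ ℓ (p' t) + ℓ ((p' t)⁻¹ * z) := by
            have := W.mul (p' t) ((p' t)⁻¹ * z)
            rwa [mul_inv_cancel_left] at this
          omega
        · have ht1 : t = L + 1 := by omega
          simp only [if_neg htL]
          rw [inv_mul_cancel, W.one, hz, ht1]
          simp
      · intro t ht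
        by_cases htL : t + 1 ≤ L
        · have htL' : t ≤ L := by omega
          simp only [if_pos htL, if_pos htL']
          exact hp2 t (by omega)
        · have ht1 : t = L := by omega
          have htL' : t ≤ L := by omega
          simp only [if_neg htL, if_pos htL']
          rw [ht1, hpL, hy2']
  exact key (ℓ z) z rfl

/-- A point on a geodesic from the identity to an element commuting with `g` conjugates
`g` to an element of bounded length. -/
theorem conj_len_le (g z y : G) (hc : Commute z g) (i : ℕ) (hi : i ≤ ℓ z)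
    (hy1 : ℓ y = i) (hy2 : ℓ (y⁻¹ * z) = ℓ z - i) :
    (ℓ (y⁻¹ * g * y) : ℝ) ≤ 3 * ℓ g + 2 * δ := by
  have H := W.hypLen
  have c1 : ((ℓ z - i : ℕ) : ℝ) = (ℓ z : ℝ) - i := by rw [Nat.cast_sub hi]
  have hA : gp (fun x : G => (ℓ x : ℝ)) y z = i := by
    unfold gp
    show ((ℓ y : ℝ) + ℓ z - ℓ (y⁻¹ * z)) / 2 = i
    rw [hy1, hy2, c1]
    ring
  have t1 : (ℓ z : ℝ) ≤ ℓ g + ℓ (g * z) := by
    have := W.mul g⁻¹ (g * z)
    rw [inv_mul_cancel_left, W.inv] at this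
    exact_mod_cast this
  have t2 : (ℓ y : ℝ) ≤ ℓ g + ℓ (g * y) := by
    have := W.mul g⁻¹ (g * y)
    rw [inv_mul_cancel_left, W.inv] at this
    exact_mod_cast this
  have t3 : (ℓ (g * y) : ℝ) ≤ ℓ g + ℓ y := by exact_mod_cast W.mul g y
  have hB : (ℓ z : ℝ) - ℓ g ≤ gp (fun x : G => (ℓ x : ℝ)) z (g * z) := by
    unfold gp
    show (ℓ z : ℝ) - ℓ g ≤ ((ℓ z : ℝ) + ℓ (g * z) - ℓ (z⁻¹ * (g * z))) / 2
    have e : z⁻¹ * (g * z) = g := by
      have : g * z = z * g := hc.eq.symm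
      rw [this]
      group
    rw [e]
    linarith
  have hC : (i : ℝ) - ℓ g ≤ gp (fun x : G => (ℓ x : ℝ)) (g * z) (g * y) := by
    unfold gp
    show (i : ℝ) - ℓ g ≤ ((ℓ (g * z) : ℝ) + ℓ (g * y) - ℓ ((g * z)⁻¹ * (g * y))) / 2
    have e : (g * z)⁻¹ * (g * y) = z⁻¹ * y := by group
    rw [e, W.symm z y, hy2, c1]
    rw [hy1] at t2
    linarith
  have h1 := H.hyp y z (g * y)
  have h2 := H.hyp z (g * z) (g * y)
  have hδ := W.delta_nonneg
  have hi' : (i : ℝ) ≤ ℓ z := by exact_mod_cast hi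
  have hg0 : (0 : ℝ) ≤ ℓ g := Nat.cast_nonneg _
  have h3 : (i : ℝ) - ℓ g - δ / 2 ≤ gp (fun x : G => (ℓ x : ℝ)) z (g * y) := by
    have : (i : ℝ) - ℓ g ≤ min (gp (fun x : G => (ℓ x : ℝ)) z (g * z))
        (gp (fun x : G => (ℓ x : ℝ)) (g * z) (g * y)) := by
      rw [le_min_iff]
      constructor <;> linarith
    linarith
  have h4 : (i : ℝ) - ℓ g - δ ≤ gp (fun x : G => (ℓ x : ℝ)) y (g * y) := by
    have : (i : ℝ) - ℓ g - δ / 2 ≤ min (gp (fun x : G => (ℓ x : ℝ)) y z)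
        (gp (fun x : G => (ℓ x : ℝ)) z (g * y)) := by
      rw [le_min_iff]
      constructor <;> linarith
    linarith
  have h5 := len_eq_gp (fun x : G => (ℓ x : ℝ)) y (g * y)
  have h6 : y⁻¹ * (g * y) = y⁻¹ * g * y := by group
  rw [h6] at h5
  have h5' : (ℓ (y⁻¹ * g * y) : ℝ) = (ℓ y : ℝ) + ℓ (g * y)
      - 2 * gp (fun x : G => (ℓ x : ℝ)) y (g * y) := h5
  rw [hy1] at h5' t3
  linarith

/-- Shortening a path on which the conjugates of `g` stay in a finite set. -/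
theorem exists_short (g : G) (p : ℕ → G) (L : ℕ) (Wf : Finset G)
    (hW : ∀ t ≤ L, (p t)⁻¹ * g * p t ∈ Wf)
    (hstep : ∀ t < L, ℓ ((p t)⁻¹ * p (t + 1)) ≤ 1) (hL : Commute (p L) g) :
    ∀ t ≤ L, ∃ c : G, ℓ c + 1 ≤ Wf.card ∧ Commute (p t * c) g := by
  classical
  set w : ℕ → G := fun s => (p s)⁻¹ * g * p s with hw
  have key : ∀ n : ℕ, ∀ t ≤ L, ((Finset.Icc t L).image w).card ≤ n →
      ∃ c : G, ℓ c + 1 ≤ n ∧ Commute (p t * c) g := by
    intro n
    induction n with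
    | zero =>
      intro t ht hcard
      exfalso
      have hmem : w t ∈ (Finset.Icc t L).image w :=
        Finset.mem_image_of_mem w (Finset.mem_Icc.mpr ⟨le_refl t, ht⟩)
      have := Finset.card_pos.mpr ⟨_, hmem⟩
      omega
    | succ n ih =>
      intro t ht hcard
      set s := Nat.findGreatest (fun s => t ≤ s ∧ w s = w t) L with hs
      have hPs : t ≤ s ∧ w s = w t :=
        Nat.findGreatest_spec (P := fun s => t ≤ s ∧ w s = w t) ht ⟨le_refl t, rfl⟩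
      have hsL : s ≤ L := Nat.findGreatest_le L
      have hgreat : ∀ s', s < s' → s' ≤ L → ¬ (t ≤ s' ∧ w s' = w t) := fun s' h1 h2 =>
        Nat.findGreatest_is_greatest (P := fun s => t ≤ s ∧ w s = w t) h1 h2
      have hu : Commute (p t * (p s)⁻¹) g := by
        have h1 : (p s)⁻¹ * g * p s = (p t)⁻¹ * g * p t := hPs.2
        show p t * (p s)⁻¹ * g = g * (p t * (p s)⁻¹)
        calc p t * (p s)⁻¹ * g = p t * ((p s)⁻¹ * g * p s) * (p s)⁻¹ := by group
          _ = p t * ((p t)⁻¹ * g * p t) * (p s)⁻¹ := by rw [h1]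
          _ = g * (p t * (p s)⁻¹) := by group
      by_cases hsL' : s = L
      · refine ⟨1, by rw [W.one]; omega, ?_⟩
        rw [mul_one]
        rw [hsL'] at hu
        have : p t = p t * (p L)⁻¹ * p L := by group
        rw [this]
        exact hu.mul_left hL
      · have hs1 : s + 1 ≤ L := by omega
        have hsub : (Finset.Icc (s + 1) L).image w ⊆ ((Finset.Icc t L).image w).erase (w t) := by
          intro x hx
          rw [Finset.mem_image] at hx
          obtain ⟨s', hs', rfl⟩ := hx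
          rw [Finset.mem_Icc] at hs'
          rw [Finset.mem_erase]
          refine ⟨fun heq => hgreat s' (by omega) hs'.2 ⟨by omega, heq⟩, ?_⟩
          exact Finset.mem_image_of_mem w (Finset.mem_Icc.mpr ⟨by omega, hs'.2⟩)
        have hmem : w t ∈ (Finset.Icc t L).image w :=
          Finset.mem_image_of_mem w (Finset.mem_Icc.mpr ⟨le_refl t, ht⟩)
        have hcard' : ((Finset.Icc (s + 1) L).image w).card ≤ n := by
          have h1 := Finset.card_le_card hsub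
          rw [Finset.card_erase_of_mem hmem] at h1
          omega
        obtain ⟨c', hc'1, hc'2⟩ := ih (s + 1) hs1 hcard'
        refine ⟨(p s)⁻¹ * p (s + 1) * c', ?_, ?_⟩
        · have h1 := W.mul ((p s)⁻¹ * p (s + 1)) c'
          have h2 := hstep s (by omega)
          omega
        · have : p t * ((p s)⁻¹ * p (s + 1) * c') = p t * (p s)⁻¹ * (p (s + 1) * c') := by
            group
          rw [this]
          exact hu.mul_left hc'2
  intro t ht
  refine key Wf.card t ht (Finset.card_le_card ?_)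
  intro x hx
  rw [Finset.mem_image] at hx
  obtain ⟨s', hs', rfl⟩ := hx
  exact hW s' (Finset.mem_Icc.mp hs').2

end WordHyp

end Vale.Agent.Lib.P184
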