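import Mathlib
import Vale.Agent.Lib.P184.HypGroup

/-!
The trace of an idempotent matrix over the convolution algebra of a hyperbolic group
vanishes outside finitely many classes of elements of finite order; for subgroups of
hyperbolic groups it vanishes at the classes of the elements of infinite order.
-/

namespace Vale.Agent.Lib.P184

open scoped BigOperators

variable {G : Type*} [Group G]

namespace WordHyp

variable {ℓ : G → ℕ} {δ : ℝ} (W : WordHyp ℓ δ)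

include W

/-- Some power of an element of infinite order has a square much longer than itself. -/
theorem exists_pow_rho (g : G) (hg : ¬ IsOfFinOrder g) :
    ∃ n : ℕ, 2 * gp (fun x : G => (ℓ x : ℝ)) (g ^ n)⁻¹ (g ^ n) + 4 * (δ / 2)
      < (ℓ (g ^ n) : ℝ) := by
  classical
  have H := W.hypLen
  have hδ := W.delta_nonneg
  set K₀ : ℝ := 3 * ℓ g + 2 * δ with hK₀
  set Wf : Finset G := (W.fin ⌊K₀⌋₊).toFinset with hWf
  have hWmem : ∀ w : G, (ℓ w : ℝ) ≤ K₀ → w ∈ Wf := by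
    intro w hw
    rw [hWf, Set.Finite.mem_toFinset]
    exact Nat.le_floor hw
  set R : ℕ := Wf.card with hR
  set M : ℝ := 4 * R + 1 + 4 * δ with hM
  obtain ⟨n, hn⟩ : ∃ n : ℕ, M < (ℓ (g ^ n) : ℝ) := by
    have hinf : (Set.range fun n : ℕ => g ^ n).Infinite :=
      Set.infinite_range_of_injective (injective_pow_iff_not_isOfFinOrder.mpr hg)
    obtain ⟨a, ⟨n, rfl⟩, hna⟩ := hinf.exists_notMem_finset (W.fin ⌊M⌋₊).toFinset
    refine ⟨n, ?_⟩
    rw [Set.Finite.mem_toFinset] at hna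
    have h1 : ¬ ℓ (g ^ n) ≤ ⌊M⌋₊ := hna
    rw [not_le] at h1
    have h2 : M < ⌊M⌋₊ + 1 := Nat.lt_floor_add_one M
    have h3 : ((⌊M⌋₊ + 1 : ℕ) : ℝ) ≤ ℓ (g ^ n) := by exact_mod_cast h1
    push_cast at h3
    linarith
  refine ⟨n, ?_⟩
  set h := g ^ n with hh
  have hcg : Commute h g := (Commute.refl g).pow_left n
  obtain ⟨p, -, hpL, hp1, hp2⟩ := W.exists_path h
  set t := ℓ h / 2 with ht
  have htL : t ≤ ℓ h := Nat.div_le_self _ _
  have hWp : ∀ s ≤ ℓ h, (p s)⁻¹ * g * p s ∈ Wf := fun s hs =>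
    hWmem _ (W.conj_len_le g h (p s) hcg s hs (hp1 s hs).1 (hp1 s hs).2)
  have hLc : Commute (p (ℓ h)) g := by rw [hpL]; exact hcg
  obtain ⟨c, hc1, hc2⟩ := W.exists_short g p (ℓ h) Wf hWp hp2 hLc t htL
  set qq := p t * c with hqq
  have hqh : Commute qq h := hc2.pow_right n
  have hpt := hp1 t htL
  have ha : (ℓ qq : ℝ) ≤ t + R := by
    have h0 : ℓ qq ≤ ℓ (p t) + ℓ c := W.mul (p t) c
    have h00 := hpt.1
    have h' : ℓ qq ≤ t + R := by omega
    exact_mod_cast h'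
  have hb : (ℓ (qq⁻¹ * h) : ℝ) ≤ R + (ℓ h : ℝ) - t := by
    have e : qq⁻¹ * h = c⁻¹ * ((p t)⁻¹ * h) := by rw [hqq]; group
    have h0 := W.mul c⁻¹ ((p t)⁻¹ * h)
    rw [← e, W.inv] at h0
    have h00 := hpt.2
    have h' : ℓ (qq⁻¹ * h) + t ≤ R + ℓ h := by omega
    have h'' : (ℓ (qq⁻¹ * h) : ℝ) + t ≤ R + ℓ h := by exact_mod_cast h'
    linarith
  have hab : (ℓ h : ℝ) ≤ ℓ qq + ℓ (qq⁻¹ * h) := by
    have := W.mul qq (qq⁻¹ * h)
    rw [mul_inv_cancel_left] at this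
    exact_mod_cast this
  have ht2 : (ℓ h : ℝ) ≤ 2 * t + 1 := by
    have : ℓ h ≤ 2 * t + 1 := by omega
    exact_mod_cast this
  have ht3 : 2 * (t : ℝ) ≤ ℓ h := by
    have : 2 * t ≤ ℓ h := by omega
    exact_mod_cast this
  have g1 : gp (fun x : G => (ℓ x : ℝ)) (h⁻¹ * qq) qq
      = ((ℓ (qq⁻¹ * h) : ℝ) + ℓ qq - ℓ h) / 2 := by
    unfold gp
    show ((ℓ (h⁻¹ * qq) : ℝ) + ℓ qq - ℓ ((h⁻¹ * qq)⁻¹ * qq)) / 2 = _
    have e1 : (h⁻¹ * qq)⁻¹ * qq = h := by
      have : qq * h = h * qq := hqh.eq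
      calc (h⁻¹ * qq)⁻¹ * qq = qq⁻¹ * (h * qq) := by group
        _ = qq⁻¹ * (qq * h) := by rw [this]
        _ = h := by group
    rw [e1, W.symm h qq]
  have g2 : gp (fun x : G => (ℓ x : ℝ)) (h⁻¹ * qq) h⁻¹
      = ((ℓ (qq⁻¹ * h) : ℝ) + ℓ h - ℓ qq) / 2 := by
    unfold gp
    show ((ℓ (h⁻¹ * qq) : ℝ) + ℓ h⁻¹ - ℓ ((h⁻¹ * qq)⁻¹ * h⁻¹)) / 2 = _
    have e1 : (h⁻¹ * qq)⁻¹ * h⁻¹ = qq⁻¹ := by group
    rw [e1, W.symm h qq, W.inv, W.inv]
  have g3 : gp (fun x : G => (ℓ x : ℝ)) h qq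
      = ((ℓ h : ℝ) + ℓ qq - ℓ (qq⁻¹ * h)) / 2 := by
    unfold gp
    show ((ℓ h : ℝ) + ℓ qq - ℓ (h⁻¹ * qq)) / 2 = _
    rw [W.symm h qq]
  have y1 := H.hyp (h⁻¹ * qq) h⁻¹ qq
  have y2 := H.hyp h⁻¹ h qq
  rw [g1, g2] at y1
  rw [g3] at y2
  set ρ := gp (fun x : G => (ℓ x : ℝ)) h⁻¹ h with hρ
  have hR0 : (0 : ℝ) ≤ R := Nat.cast_nonneg _
  have hρle : ρ ≤ R + δ := by
    by_contra hcon
    rw [not_le] at hcon
    have z1 : (R : ℝ) + δ / 2 < gp (fun x : G => (ℓ x : ℝ)) h⁻¹ qq := by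
      have : (R : ℝ) + δ < min ρ (((ℓ h : ℝ) + ℓ qq - ℓ (qq⁻¹ * h)) / 2) := by
        rw [lt_min_iff]
        constructor
        · exact hcon
        · linarith
      linarith
    have z2 : (R : ℝ) + δ / 2 < min (((ℓ (qq⁻¹ * h) : ℝ) + ℓ h - ℓ qq) / 2)
        (gp (fun x : G => (ℓ x : ℝ)) h⁻¹ qq) := by
      rw [lt_min_iff]
      constructor
      · linarith
      · exact z1
    linarith
  show 2 * ρ + 4 * (δ / 2) < (ℓ h : ℝ)
  linarith

/-- Vanishing at the classes of the elements of infinite order. -/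
theorem vanishing (q : ℕ) (e : Fin q → Fin q → G → ℂ)
    (hsum : ∀ i j, Summable fun g => ‖e i j g‖)
    (hidem : ∀ i k g, ∑ j, ∑' h, e i j h * e j k (h⁻¹ * g) = e i k g)
    (g : G) (hg : ¬ IsOfFinOrder g) :
    ∑' x : (ConjClasses.mk g).carrier, ∑ i, e i i (x : G) = 0 := by
  obtain ⟨n, hn⟩ := W.exists_pow_rho g hg
  refine hyplen_vanishing W.hypLen q e hsum hidem g n hn ?_
  intro r
  refine (W.fin ⌊r⌋₊).subset ?_
  rintro z ⟨-, hz⟩
  exact Nat.le_floor hz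

/-- Vanishing at the classes of the elements of infinite order of a subgroup. -/
theorem subgroup_vanishing (H' : Subgroup G) (q : ℕ) (e : Fin q → Fin q → H' → ℂ)
    (hsum : ∀ i j, Summable fun g => ‖e i j g‖)
    (hidem : ∀ i k g, ∑ j, ∑' h, e i j h * e j k (h⁻¹ * g) = e i k g)
    (h : H') (hh : ¬ IsOfFinOrder h) :
    ∑' x : (ConjClasses.mk h).carrier, ∑ i, e i i (x : H') = 0 := by
  have hh' : ¬ IsOfFinOrder (h : G) := fun hf => hh (Submonoid.isOfFinOrder_coe.mp hf)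
  obtain ⟨n, hn⟩ := W.exists_pow_rho (h : G) hh'
  have HL := W.hypLen
  have HL' : HypLen (fun x : H' => (ℓ (x : G) : ℝ)) (δ / 2) :=
    ⟨HL.one, fun x => HL.inv x, fun x y => HL.mul x y, fun a b c => HL.hyp a b c⟩
  refine hyplen_vanishing HL' q e hsum hidem h n ?_ ?_
  · exact hn
  · intro r
    refine Set.Finite.subset ((W.fin ⌊r⌋₊).preimage
      (f := fun x : H' => (x : G)) Subtype.coe_injective.injOn) ?_
    rintro z ⟨-, hz⟩
    exact Nat.le_floor hz

/-- The statement for the whole group: vanishing outside finitely many classes of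
elements of finite order. -/
theorem bass (q : ℕ) (e : Fin q → Fin q → G → ℂ)
    (hsum : ∀ i j, Summable fun g => ‖e i j g‖)
    (hidem : ∀ i k g, ∑ j, ∑' h, e i j h * e j k (h⁻¹ * g) = e i k g) :
    ∃ F : Finset (ConjClasses G),
      (∀ C ∈ F, ∀ x ∈ C.carrier, IsOfFinOrder x) ∧
      ∀ C : ConjClasses G, C ∉ F → ∑' x : C.carrier, ∑ i, e i i (x : G) = 0 := by
  classical
  have hΦfin : {x : G | ℓ x ≤ ⌊2 * δ + 1⌋₊ ∧ IsOfFinOrder x}.Finite :=
    (W.fin _).subset fun x hx => hx.1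
  refine ⟨hΦfin.toFinset.image ConjClasses.mk, ?_, ?_⟩
  · intro C hC x hx
    rw [Finset.mem_image] at hC
    obtain ⟨k, hk, rfl⟩ := hC
    rw [Set.Finite.mem_toFinset] at hk
    rw [ConjClasses.mem_carrier_iff_mk_eq, ConjClasses.mk_eq_mk_iff_isConj, isConj_iff] at hx
    obtain ⟨c, hc⟩ := hx
    obtain ⟨n, hn, hkn⟩ := isOfFinOrder_iff_pow_eq_one.mp hk.2
    refine isOfFinOrder_iff_pow_eq_one.mpr ⟨n, hn, ?_⟩
    have h1 : c * x ^ n * c⁻¹ = 1 := by rw [← conj_pow, hc, hkn]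
    calc x ^ n = c⁻¹ * (c * x ^ n * c⁻¹) * c := by group
      _ = 1 := by rw [h1]; group
  · intro C hC
    obtain ⟨g, rfl⟩ := ConjClasses.exists_rep C
    by_cases hg : IsOfFinOrder g
    · exfalso
      apply hC
      obtain ⟨x, hx⟩ := W.torsion_conj g hg
      rw [Finset.mem_image]
      refine ⟨x⁻¹ * g * x, hΦfin.mem_toFinset.mpr ⟨Nat.le_floor hx, ?_⟩, ?_⟩
      · obtain ⟨n, hn, hgn⟩ := isOfFinOrder_iff_pow_eq_one.mp hg
        refine isOfFinOrder_iff_pow_eq_one.mpr ⟨n, hn, ?_⟩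
        have h1 : (x⁻¹ * g * x) ^ n = x⁻¹ * g ^ n * x := by
          have := conj_pow (a := x⁻¹) (b := g) (i := n)
          simpa using this
        rw [h1, hgn]
        group
      · rw [ConjClasses.mk_eq_mk_iff_isConj]
        exact isConj_iff.mpr ⟨x, by group⟩
    · exact W.vanishing q e hsum hidem g hg

end WordHyp

/-- The word length with respect to a finite set, when the word metric satisfies the
four point condition. -/
theorem wordHyp_of_word (S : Finset G) (ℓ : G → ℕ)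
    (hℓ : ∀ (x : G) (n : ℕ), ℓ x ≤ n ↔
      ∃ l : List G, (∀ s ∈ l, s ∈ S ∨ s⁻¹ ∈ S) ∧ l.length ≤ n ∧ l.prod = x)
    (δ : ℝ)
    (hδ : ∀ x y z w : G, (ℓ (x⁻¹ * z) : ℝ) + ℓ (y⁻¹ * w)
      ≤ max ((ℓ (x⁻¹ * y) : ℝ) + ℓ (z⁻¹ * w)) (ℓ (x⁻¹ * w) + ℓ (y⁻¹ * z)) + δ) :
    WordHyp ℓ δ := by
  classical
  have word : ∀ x : G, ∃ l : List G, (∀ s ∈ l, s ∈ S ∨ s⁻¹ ∈ S) ∧ l.length = ℓ x ∧
      l.prod = x := by
    intro x
    obtain ⟨l, hl1, hl2, hl3⟩ := (hℓ x (ℓ x)).mp le_rfl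
    refine ⟨l, hl1, le_antisymm hl2 ?_, hl3⟩
    exact (hℓ x l.length).mpr ⟨l, hl1, le_rfl, hl3⟩
  have le_of_word : ∀ l : List G, (∀ s ∈ l, s ∈ S ∨ s⁻¹ ∈ S) → ℓ l.prod ≤ l.length :=
    fun l hl => (hℓ _ _).mpr ⟨l, hl, le_rfl, rfl⟩
  have hmul : ∀ x y, ℓ (x * y) ≤ ℓ x + ℓ y := by
    intro x y
    obtain ⟨l₁, ha1, ha2, ha3⟩ := word x
    obtain ⟨l₂, hb1, hb2, hb3⟩ := word y
    have h1 := le_of_word (l₁ ++ l₂) (by
      intro s hs
      rcases List.mem_append.mp hs with h | h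
      · exact ha1 s h
      · exact hb1 s h)
    rw [List.prod_append, List.length_append, ha2, ha3, hb2, hb3] at h1
    exact h1
  have hinvle : ∀ x, ℓ x⁻¹ ≤ ℓ x := by
    intro x
    obtain ⟨l, hl1, hl2, hl3⟩ := word x
    have h1 := le_of_word (l.map fun s => s⁻¹).reverse (by
      intro s hs
      rw [List.mem_reverse, List.mem_map] at hs
      obtain ⟨s', hs', rfl⟩ := hs
      rcases hl1 s' hs' with h | h
      · right
        rw [inv_inv]
        exact h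
      · left
        exact h)
    rw [← List.prod_inv_reverse, List.length_reverse, List.length_map, hl2, hl3] at h1
    exact h1
  refine ⟨?_, ?_, hmul, ?_, ?_, hδ⟩
  · intro x
    constructor
    · intro hx
      obtain ⟨l, -, hl2, hl3⟩ := word x
      rw [hx] at hl2
      rw [List.length_eq_zero_iff.mp hl2] at hl3
      exact hl3.symm
    · intro hx
      have := le_of_word [] (by simp)
      rw [List.prod_nil, List.length_nil] at this
      rw [hx]
      omega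
  · intro x
    refine le_antisymm (hinvle x) ?_
    have := hinvle x⁻¹
    rwa [inv_inv] at this
  · intro n
    have hT : {s : G | s ∈ S ∨ s⁻¹ ∈ S}.Finite := by
      have h1 : {s : G | s ∈ S ∨ s⁻¹ ∈ S} = (S : Set G) ∪ (fun s : G => s⁻¹) ⁻¹' (S : Set G) := by
        ext s
        simp
      rw [h1]
      exact S.finite_toSet.union (S.finite_toSet.preimage inv_injective.injOn)
    have : Finite {s : G // s ∈ S ∨ s⁻¹ ∈ S} := hT.to_subtype
    have hfin := (List.finite_length_le {s : G // s ∈ S ∨ s⁻¹ ∈ S} n).image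
      (fun l : List {s : G // s ∈ S ∨ s⁻¹ ∈ S} => (l.map Subtype.val).prod)
    refine hfin.subset ?_
    intro x hx
    obtain ⟨l, hl1, hl2, hl3⟩ := (hℓ x n).mp hx
    refine ⟨l.attach.map (fun s => ⟨s.1, hl1 s.1 s.2⟩), ?_, ?_⟩
    · show (l.attach.map _).length ≤ n
      rw [List.length_map, List.length_attach]
      exact hl2
    · show ((l.attach.map _).map Subtype.val).prod = x
      rw [List.map_map]
      have : (Subtype.val ∘ fun s : {s // s ∈ l} => (⟨s.1, hl1 s.1 s.2⟩ :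
          {s : G // s ∈ S ∨ s⁻¹ ∈ S})) = Subtype.val := rfl
      rw [this, List.attach_map_subtype_val, hl3]
  · intro x t ht
    obtain ⟨l, hl1, hl2, hl3⟩ := word x
    refine ⟨(l.take t).prod, ?_, ?_⟩
    all_goals
      have h1 := le_of_word (l.take t) (fun s hs => hl1 s (List.mem_of_mem_take hs))
      have h2 := le_of_word (l.drop t) (fun s hs => hl1 s (List.mem_of_mem_drop hs))
      have h3 : (l.take t).prod⁻¹ * x = (l.drop t).prod := by
        rw [← hl3]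
        conv_lhs => rw [← List.prod_take_mul_prod_drop l t]
        rw [inv_mul_cancel_left]
      have h4 := hmul (l.take t).prod ((l.take t).prod⁻¹ * x)
      rw [mul_inv_cancel_left] at h4
      rw [← h3] at h2
      rw [List.length_take] at h1
      rw [List.length_drop] at h2
      omega

end Vale.Agent.Lib.P184
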